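import Mathlib.NumberTheory.PellMatiyasevic
import Mathlib.Tactic

-- ▼ part R323/PellSq
section

namespace Crest.Agent.R323

open Pell

/-- the fixed parameter proof `1 < 2` -/
theorem h2 : 1 < 2 := by norm_num

/-! ### (1) the index certificate -/

theorem lcm_aux (n N : ℕ) (hn : 2 ≤ n) (hN : 1 ≤ N)
    (h0 : n ∣ N) (h1 : n + 1 ∣ N - 1) (h2' : n - 1 ∣ N - 1) :
    (n : ℤ) * (n ^ 2 - 1) ∣ 2 * ((N : ℤ) - n ^ 2) := by
  obtain ⟨m, rfl⟩ : ∃ m, n = m + 2 := ⟨n - 2, by omega⟩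
  have e0 : ((m : ℤ) + 2) ∣ (N : ℤ) := by exact_mod_cast h0
  have e1 : ((m : ℤ) + 3) ∣ (N : ℤ) - 1 := by
    have := Int.natCast_dvd_natCast.mpr h1
    push_cast [Nat.cast_sub hN] at this
    convert this using 1
    ring
  have e2 : ((m : ℤ) + 1) ∣ (N : ℤ) - 1 := by
    have := Int.natCast_dvd_natCast.mpr h2'
    rw [Nat.cast_sub hN] at this
    have e : m + 2 - 1 = m + 1 := by omega
    rw [e] at this
    push_cast at this
    exact this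
  -- now set D = N - n^2
  have f0 : ((m : ℤ) + 2) ∣ (N : ℤ) - (m + 2) ^ 2 := by
    apply dvd_sub e0
    exact Dvd.intro _ (by ring : ((m:ℤ) + 2) * (m + 2) = (m + 2) ^ 2)
  have f1 : ((m : ℤ) + 3) ∣ (N : ℤ) - (m + 2) ^ 2 := by
    have : (N : ℤ) - (m + 2) ^ 2 = (N - 1) - (m + 3) * (m + 1) := by ring
    rw [this]
    exact dvd_sub e1 (Dvd.intro _ rfl)
  have f2 : ((m : ℤ) + 1) ∣ (N : ℤ) - (m + 2) ^ 2 := by
    have : (N : ℤ) - (m + 2) ^ 2 = (N - 1) - (m + 1) * (m + 3) := by ring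
    rw [this]
    exact dvd_sub e2 (Dvd.intro _ rfl)
  obtain ⟨u, hu⟩ := f0
  obtain ⟨v, hv⟩ := f1
  obtain ⟨w, hw⟩ := f2
  -- D = (m+2) u = (m+3) v = (m+1) w
  -- 2 D = D * [ (m+1)(m+2) - 2 (m+1)(m+3) + (m+2)(m+3) ]
  push_cast
  refine ⟨v - 2 * u + w, ?_⟩
  set D : ℤ := (N : ℤ) - (m + 2) ^ 2 with hD
  have : 2 * D = ((m : ℤ) + 1) * (m + 2) * D - 2 * (m + 1) * (m + 3) * D + (m + 2) * (m + 3) * D := by
    ring
  rw [this]
  have a1 : ((m : ℤ) + 1) * (m + 2) * D = (m + 1) * (m + 2) * ((m + 3) * v) := by rw [← hv]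
  have a2 : 2 * ((m : ℤ) + 1) * (m + 3) * D = 2 * (m + 1) * (m + 3) * ((m + 2) * u) := by rw [← hu]
  have a3 : ((m : ℤ) + 2) * (m + 3) * D = (m + 2) * (m + 3) * ((m + 1) * w) := by rw [← hw]
  rw [a1, a2, a3]
  ring

theorem index_sq_aux (n N : ℕ) (hn : 2 ≤ n) (hN : 1 ≤ N)
    (h0 : n ∣ N) (h1 : n + 1 ∣ N - 1) (h2' : n - 1 ∣ N - 1)
    (b1 : 2 * N < n * (n ^ 2 - 1)) (b2 : 2 * n ^ 2 < n * (n ^ 2 - 1)) : N = n ^ 2 := by
  have key := lcm_aux n N hn hN h0 h1 h2'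
  have hn2 : 1 ≤ n ^ 2 := Nat.one_le_pow _ _ (by omega)
  have c1 : 2 * (N : ℤ) < n * (n ^ 2 - 1) := by
    have := Int.ofNat_lt.mpr b1
    push_cast [Nat.cast_sub hn2] at this
    exact this
  have c2 : 2 * (n : ℤ) ^ 2 < n * (n ^ 2 - 1) := by
    have := Int.ofNat_lt.mpr b2
    push_cast [Nat.cast_sub hn2] at this
    exact this
  have : 2 * ((N : ℤ) - n ^ 2) = 0 := by
    apply Int.eq_zero_of_abs_lt_dvd key
    rw [abs_lt]
    constructor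
    · have : (0 : ℤ) ≤ N := by positivity
      linarith
    · have : (0 : ℤ) ≤ (n : ℤ) ^ 2 := by positivity
      linarith
  have h3 : (N : ℤ) = n ^ 2 := by linarith
  exact_mod_cast h3

theorem index_sq (n N : ℕ) (h0 : yn h2 n ∣ yn h2 N) (h1 : yn h2 (n + 1) ∣ yn h2 (N - 1))
    (h2' : yn h2 (n - 1) ∣ yn h2 (N - 1)) (hn : 2 ≤ n) (hN : 1 ≤ N)
    (b1 : 2 * N < n * (n ^ 2 - 1)) (b2 : 2 * n ^ 2 < n * (n ^ 2 - 1)) : N = n ^ 2 :=
  index_sq_aux n N hn hN ((y_dvd_iff h2 _ _).1 h0) ((y_dvd_iff h2 _ _).1 h1)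
    ((y_dvd_iff h2 _ _).1 h2') b1 b2

/-- the converse (existence half): the three divisibilities hold for `N = n^2`. -/
theorem index_sq_conv (n : ℕ) (hn : 1 ≤ n) :
    yn h2 n ∣ yn h2 (n ^ 2) ∧ yn h2 (n + 1) ∣ yn h2 (n ^ 2 - 1) ∧
      yn h2 (n - 1) ∣ yn h2 (n ^ 2 - 1) := by
  obtain ⟨m, rfl⟩ : ∃ m, n = m + 1 := ⟨n - 1, by omega⟩
  have e : (m + 1) ^ 2 - 1 = m * (m + 2) := by
    have : (m + 1) ^ 2 = m * (m + 2) + 1 := by ring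
    omega
  refine ⟨(y_dvd_iff h2 _ _).2 ?_, (y_dvd_iff h2 _ _).2 ?_, (y_dvd_iff h2 _ _).2 ?_⟩
  · exact Dvd.intro _ (by ring : (m + 1) * (m + 1) = (m + 1) ^ 2)
  · rw [e]
    exact Dvd.intro _ (by ring : (m + 1 + 1) * m = m * (m + 2))
  · rw [e]
    exact Dvd.intro _ (by simp : (m + 1 - 1) * (m + 2) = m * (m + 2))

/-! ### (2) growth -/

theorem xn_ge_two_pow (n : ℕ) : 2 ^ n ≤ xn h2 n := xn_ge_a_pow h2 n

theorem xn_le_four_pow (n : ℕ) : xn h2 n ≤ 4 ^ n := by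
  suffices h : xn h2 n ≤ 4 ^ n ∧ xn h2 (n + 1) ≤ 4 * xn h2 n by exact h.1
  induction n with
  | zero => simp
  | succ k ih =>
    obtain ⟨ih1, ih2⟩ := ih
    refine ⟨?_, ?_⟩
    · calc xn h2 (k + 1) ≤ 4 * xn h2 k := ih2
        _ ≤ 4 * 4 ^ k := Nat.mul_le_mul_left _ ih1
        _ = 4 ^ (k + 1) := by ring
    · have := xn_succ_succ h2 k
      show xn h2 (k + 2) ≤ 4 * xn h2 (k + 1)
      omega


/-! ### (3) reading -/

theorem xn_sq_modEq (n : ℕ) : xn h2 n ^ 2 ≡ 1 [MOD (yn h2 n) ^ 2] := by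
  obtain ⟨D, h⟩ : ∃ D : ℤ, (xn h2 n : ℤ) * xn h2 n - D * yn h2 n * yn h2 n = 1 :=
    ⟨_, pell_eqz h2 n⟩
  rw [← Int.natCast_modEq_iff]
  rw [Int.modEq_iff_dvd]
  push_cast
  have e : (xn h2 n : ℤ) ^ 2 = 1 + D * (yn h2 n) ^ 2 := by
    linarith
  rw [e]
  exact ⟨-D, by ring⟩

theorem reading_odd (n : ℕ) (hn : Odd n) :
    yn h2 (n * n) ≡ n * yn h2 n [MOD (yn h2 n) ^ 3] := by
  have h := (xy_modEq_yn h2 n n).2
  refine h.trans ?_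
  obtain ⟨m, hm⟩ := hn
  have e : xn h2 n ^ (n - 1) ≡ 1 [MOD (yn h2 n) ^ 2] := by
    have : n - 1 = 2 * m := by omega
    rw [this, pow_mul]
    have := (xn_sq_modEq n).pow m
    simpa using this
  have e' : xn h2 n ^ (n - 1) * yn h2 n ≡ 1 * yn h2 n [MOD (yn h2 n) ^ 2 * yn h2 n] :=
    Nat.ModEq.mul_right' _ e
  have e'' : n * (xn h2 n ^ (n - 1) * yn h2 n) ≡ n * (1 * yn h2 n) [MOD (yn h2 n) ^ 2 * yn h2 n] :=
    Nat.ModEq.mul_left _ e'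
  have : (yn h2 n) ^ 2 * yn h2 n = (yn h2 n) ^ 3 := by ring
  rw [this] at e''
  simpa [mul_assoc] using e''

/-- the reading determines `m0`: if `yn (n*n) ≡ m0 * yn n` mod `(yn n)^3` and `m0 < (yn n)^2`
and `n < (yn n)^2` then `m0 = n`. -/
theorem reading_unique (n m0 : ℕ) (hn : Odd n) (hm0 : m0 < (yn h2 n) ^ 2)
    (hn2 : n < (yn h2 n) ^ 2)
    (h : yn h2 (n * n) ≡ m0 * yn h2 n [MOD (yn h2 n) ^ 3]) : m0 = n := by
  have h1 := (h.symm.trans (reading_odd n hn))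
  have hpos : 0 < yn h2 n := by
    rcases Nat.eq_zero_or_pos (yn h2 n) with h0 | h0
    · rw [h0] at hn2; simp at hn2
    · exact h0
  have e : (yn h2 n) ^ 3 = (yn h2 n) ^ 2 * yn h2 n := by ring
  rw [e] at h1
  have h2'' := Nat.ModEq.mul_right_cancel' (Nat.pos_iff_ne_zero.mp hpos) h1
  exact Nat.ModEq.eq_of_lt_of_lt h2'' hm0 hn2

theorem lt_yn_sq (n : ℕ) (hn : 2 ≤ n) : n < (yn h2 n) ^ 2 := by
  have := yn_ge_n h2 n
  nlinarith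

/-! ### (4) the ruler sequence -/

section Ruler

variable {p : ℕ → ℕ}

theorem ruler_pos (p0 : p 0 = 1) (p1 : p 1 = 3)
    (hp : ∀ k, 9 * p (k + 1) ^ 2 ≤ p (k + 2) * p k ∧ p (k + 2) * p k ≤ 15 * p (k + 1) ^ 2) :
    ∀ k, 0 < p k ∧ 0 < p (k + 1) := by
  intro k
  induction k with
  | zero => rw [p0, zero_add, p1]; omega
  | succ k ih =>
    refine ⟨ih.2, ?_⟩
    have h := (hp k).1
    rcases Nat.eq_zero_or_pos (p (k + 2)) with h0 | h0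
    · rw [h0] at h
      have : 0 < 9 * p (k + 1) ^ 2 := by have := ih.2; positivity
      omega
    · exact h0

theorem ruler_ratio (p0 : p 0 = 1) (p1 : p 1 = 3)
    (hp : ∀ k, 9 * p (k + 1) ^ 2 ≤ p (k + 2) * p k ∧ p (k + 2) * p k ≤ 15 * p (k + 1) ^ 2) :
    ∀ k, 3 * 9 ^ k * p k ≤ p (k + 1) ∧ p (k + 1) ≤ 3 * 15 ^ k * p k := by
  intro k
  induction k with
  | zero => rw [p0, zero_add, p1]; simp
  | succ k ih =>
    obtain ⟨ih1, ih2⟩ := ih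
    obtain ⟨h1, h2⟩ := hp k
    obtain ⟨q0, q1⟩ := ruler_pos p0 p1 hp k
    constructor
    · apply Nat.le_of_mul_le_mul_right _ q0
      calc 3 * 9 ^ (k + 1) * p (k + 1) * p k = 9 * p (k + 1) * (3 * 9 ^ k * p k) := by ring
        _ ≤ 9 * p (k + 1) * p (k + 1) := Nat.mul_le_mul_left _ ih1
        _ = 9 * p (k + 1) ^ 2 := by ring
        _ ≤ p (k + 2) * p k := h1
    · apply Nat.le_of_mul_le_mul_right _ q0
      calc p (k + 2) * p k ≤ 15 * p (k + 1) ^ 2 := h2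
        _ = 15 * p (k + 1) * p (k + 1) := by ring
        _ ≤ 15 * p (k + 1) * (3 * 15 ^ k * p k) := Nat.mul_le_mul_left _ ih2
        _ = 3 * 15 ^ (k + 1) * p (k + 1) * p k := by ring

theorem ruler_strictMono (p0 : p 0 = 1) (p1 : p 1 = 3)
    (hp : ∀ k, 9 * p (k + 1) ^ 2 ≤ p (k + 2) * p k ∧ p (k + 2) * p k ≤ 15 * p (k + 1) ^ 2) :
    StrictMono p := by
  apply strictMono_nat_of_lt_succ
  intro k
  have h := (ruler_ratio p0 p1 hp k).1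
  have q := (ruler_pos p0 p1 hp k).1
  have : 1 ≤ 9 ^ k := Nat.one_le_pow _ _ (by norm_num)
  nlinarith

theorem ruler_lower (p0 : p 0 = 1) (p1 : p 1 = 3)
    (hp : ∀ k, 9 * p (k + 1) ^ 2 ≤ p (k + 2) * p k ∧ p (k + 2) * p k ≤ 15 * p (k + 1) ^ 2) :
    ∀ k, 3 ^ (k ^ 2) ≤ p k := by
  intro k
  induction k with
  | zero => simp [p0]
  | succ k ih =>
    calc 3 ^ ((k + 1) ^ 2) = 3 * 9 ^ k * 3 ^ (k ^ 2) := by
          have : (9 : ℕ) ^ k = 3 ^ (2 * k) := by rw [pow_mul]; norm_num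
          rw [this]; ring
      _ ≤ 3 * 9 ^ k * p k := Nat.mul_le_mul_left _ ih
      _ ≤ p (k + 1) := (ruler_ratio p0 p1 hp k).1

theorem ruler_upper (p0 : p 0 = 1) (p1 : p 1 = 3)
    (hp : ∀ k, 9 * p (k + 1) ^ 2 ≤ p (k + 2) * p k ∧ p (k + 2) * p k ≤ 15 * p (k + 1) ^ 2) :
    ∀ k, p k ≤ 15 ^ (k ^ 2) := by
  intro k
  induction k with
  | zero => simp [p0]
  | succ k ih =>
    calc p (k + 1) ≤ 3 * 15 ^ k * p k := (ruler_ratio p0 p1 hp k).2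
      _ ≤ 3 * 15 ^ k * 15 ^ (k ^ 2) := Nat.mul_le_mul_left _ ih
      _ ≤ 15 * 15 ^ k * 15 ^ (k ^ 2) := by
          apply Nat.mul_le_mul_right
          apply Nat.mul_le_mul_right
          norm_num
      _ ≤ 15 * 15 ^ k * 15 ^ (k ^ 2) * 15 ^ k := by
          apply Nat.le_mul_of_pos_right
          positivity
      _ = 15 ^ ((k + 1) ^ 2) := by ring

/-! ### (5) sizes -/

theorem size_a (p0 : p 0 = 1) (p1 : p 1 = 3)
    (hp : ∀ k, 9 * p (k + 1) ^ 2 ≤ p (k + 2) * p k ∧ p (k + 2) * p k ≤ 15 * p (k + 1) ^ 2)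
    (n : ℕ) (hn : 289 ≤ n) (N k : ℕ) (h2N : xn h2 N ≤ p (k + 1))
    (h3 : p (k + 1) ≤ xn h2 n ^ 6 * p k) : 2 * N < n * (n ^ 2 - 1) := by
  have q := (ruler_pos p0 p1 hp k).1
  have r := (ruler_ratio p0 p1 hp k).1
  have hX := xn_le_four_pow n
  -- 3 * 9^k ≤ X^6
  have e1 : 3 * 9 ^ k ≤ xn h2 n ^ 6 := by
    apply Nat.le_of_mul_le_mul_right _ q
    exact r.trans h3
  have e2 : xn h2 n ^ 6 ≤ 3 ^ (12 * n) := by
    calc xn h2 n ^ 6 ≤ (4 ^ n) ^ 6 := Nat.pow_le_pow_left hX 6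
      _ = 2 ^ (12 * n) := by
          rw [← pow_mul]
          have : (4 : ℕ) = 2 ^ 2 := by norm_num
          rw [this, ← pow_mul]
          congr 1; ring
      _ ≤ 3 ^ (12 * n) := Nat.pow_le_pow_left (by norm_num) _
  have e3 : 3 ^ (2 * k + 1) ≤ 3 ^ (12 * n) := by
    calc 3 ^ (2 * k + 1) = 3 * 9 ^ k := by
          rw [pow_succ, pow_mul]; norm_num; ring
      _ ≤ _ := e1.trans e2
  have e4 : 2 * k + 1 ≤ 12 * n := (Nat.pow_le_pow_iff_right (by norm_num)).1 e3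
  have e5 : k + 1 ≤ 6 * n := by omega
  have e6 : 2 ^ N ≤ 2 ^ (4 * (6 * n) ^ 2) := by
    calc 2 ^ N ≤ xn h2 N := xn_ge_two_pow N
      _ ≤ p (k + 1) := h2N
      _ ≤ 15 ^ ((k + 1) ^ 2) := ruler_upper p0 p1 hp (k + 1)
      _ ≤ 16 ^ ((k + 1) ^ 2) := Nat.pow_le_pow_left (by norm_num) _
      _ ≤ 16 ^ ((6 * n) ^ 2) := Nat.pow_le_pow_right (by norm_num) (Nat.pow_le_pow_left e5 2)
      _ = 2 ^ (4 * (6 * n) ^ 2) := by rw [pow_mul]; norm_num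
  have e7 : N ≤ 4 * (6 * n) ^ 2 := (Nat.pow_le_pow_iff_right (by norm_num)).1 e6
  have hn2 : 1 ≤ n ^ 2 := Nat.one_le_pow _ _ (by omega)
  obtain ⟨m, hm⟩ : ∃ m, n ^ 2 = m + 1 := ⟨n ^ 2 - 1, by omega⟩
  have e8 : n ^ 2 - 1 = m := by omega
  rw [e8]
  have : 4 * (6 * n) ^ 2 = 144 * n ^ 2 := by ring
  nlinarith

theorem two_sq_lt (n : ℕ) (hn : 4 ≤ n) : 2 * n ^ 2 < n * (n ^ 2 - 1) := by
  have hn2 : 1 ≤ n ^ 2 := Nat.one_le_pow _ _ (by omega)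
  obtain ⟨m, hm⟩ : ∃ m, n ^ 2 = m + 1 := ⟨n ^ 2 - 1, by omega⟩
  have e8 : n ^ 2 - 1 = m := by omega
  rw [e8]
  nlinarith

theorem size_b (p0 : p 0 = 1) (p1 : p 1 = 3)
    (hp : ∀ k, 9 * p (k + 1) ^ 2 ≤ p (k + 2) * p k ∧ p (k + 2) * p k ≤ 15 * p (k + 1) ^ 2)
    (n : ℕ) (hn : 3 ≤ n) :
    ∃ k, p k < xn h2 (n ^ 2) ∧ xn h2 (n ^ 2) ≤ p (k + 1) ∧ p (k + 1) ≤ xn h2 n ^ 6 * p k := by
  classical
  have hmono := ruler_strictMono p0 p1 hp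
  have hex : ∃ j, xn h2 (n ^ 2) ≤ p j := ⟨xn h2 (n ^ 2), hmono.le_apply⟩
  set j := Nat.find hex with hj
  have hj1 : xn h2 (n ^ 2) ≤ p j := Nat.find_spec hex
  have hj0 : j ≠ 0 := by
    intro h0
    rw [h0, p0] at hj1
    have : n ^ 2 < xn h2 (n ^ 2) := n_lt_xn h2 _
    have : 0 < n ^ 2 := by positivity
    omega
  obtain ⟨k, hk⟩ : ∃ k, j = k + 1 := ⟨j - 1, by omega⟩
  have hlt : p k < xn h2 (n ^ 2) := by
    have := Nat.find_min hex (m := k) (by omega)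
    omega
  refine ⟨k, hlt, by rw [← hk]; exact hj1, ?_⟩
  refine ((ruler_ratio p0 p1 hp k).2).trans ?_
  apply Nat.mul_le_mul_right
  have g1 : 3 ^ (k ^ 2) < 4 ^ (n ^ 2) :=
    lt_of_le_of_lt (ruler_lower p0 p1 hp k) (lt_of_lt_of_le hlt (xn_le_four_pow _))
  have g2 : 3 * k ≤ 4 * n := by
    by_contra hcon
    have hcon' : 4 * n ≤ 3 * k := by omega
    have h1 : (4 * n) ^ 2 ≤ (3 * k) ^ 2 := Nat.pow_le_pow_left hcon' 2
    have h2' : (3 : ℕ) ^ ((4 * n) ^ 2) ≤ 3 ^ ((3 * k) ^ 2) := Nat.pow_le_pow_right (by norm_num) h1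
    have h3 : (3 : ℕ) ^ ((3 * k) ^ 2) = (3 ^ (k ^ 2)) ^ 9 := by
      rw [← pow_mul]; congr 1; ring
    have h4 : (3 : ℕ) ^ ((4 * n) ^ 2) = (3 ^ 16) ^ (n ^ 2) := by
      rw [← pow_mul]; congr 1; ring
    have h5 : (3 ^ (k ^ 2)) ^ 9 < (4 ^ (n ^ 2)) ^ 9 := Nat.pow_lt_pow_left g1 (by norm_num)
    have h6 : ((4 : ℕ) ^ (n ^ 2)) ^ 9 = (4 ^ 9) ^ (n ^ 2) := by
      rw [← pow_mul, ← pow_mul]; congr 1; ring
    have h7 : ((4 : ℕ) ^ 9) ^ (n ^ 2) ≤ (3 ^ 16) ^ (n ^ 2) := Nat.pow_le_pow_left (by norm_num) _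
    rw [h3, h4] at h2'
    rw [h6] at h5
    exact absurd (lt_of_le_of_lt h2' h5) (not_lt.mpr h7)
  have g3 : (3 * 15 ^ k) ^ 3 ≤ (xn h2 n ^ 6) ^ 3 := by
    calc (3 * 15 ^ k) ^ 3 = 27 * 15 ^ (3 * k) := by
          rw [mul_pow, ← pow_mul, mul_comm k 3]; norm_num
      _ ≤ 27 * 15 ^ (4 * n) := Nat.mul_le_mul_left _ (Nat.pow_le_pow_right (by norm_num) g2)
      _ = 27 * 50625 ^ n := by rw [pow_mul]; norm_num
      _ ≤ 5 ^ n * 50625 ^ n := by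
          apply Nat.mul_le_mul_right
          calc 27 ≤ 5 ^ 3 := by norm_num
            _ ≤ 5 ^ n := Nat.pow_le_pow_right (by norm_num) hn
      _ = 253125 ^ n := by rw [← mul_pow]; norm_num
      _ ≤ 262144 ^ n := Nat.pow_le_pow_left (by norm_num) _
      _ = ((2 ^ n) ^ 6) ^ 3 := by
          rw [← pow_mul, ← pow_mul]
          have : (262144 : ℕ) = 2 ^ 18 := by norm_num
          rw [this, ← pow_mul]
          congr 1; ring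
      _ ≤ (xn h2 n ^ 6) ^ 3 := by
          apply Nat.pow_le_pow_left
          apply Nat.pow_le_pow_left
          exact xn_ge_two_pow n
  exact (Nat.pow_le_pow_iff_left (by norm_num)).1 g3

/-- uniqueness of the ruler index. -/
theorem ruler_index_unique (p0 : p 0 = 1) (p1 : p 1 = 3)
    (hp : ∀ k, 9 * p (k + 1) ^ 2 ≤ p (k + 2) * p k ∧ p (k + 2) * p k ≤ 15 * p (k + 1) ^ 2)
    {X k k' : ℕ} (h1 : p k < X) (h1' : X ≤ p (k + 1)) (h2 : p k' < X) (h2' : X ≤ p (k' + 1)) :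
    k = k' := by
  have hmono := ruler_strictMono p0 p1 hp
  have a1 : k < k' + 1 := hmono.lt_iff_lt.1 (lt_of_lt_of_le h1 h2')
  have a2 : k' < k + 1 := hmono.lt_iff_lt.1 (lt_of_lt_of_le h2 h1')
  omega


/-- Everything combined: for odd `n ≥ 289`, the certificate
`(Y ∣ Y2, y_{n+1} ∣ y_{N-1}, y_{n-1} ∣ y_{N-1}, p k < x_N ≤ p (k+1) ≤ x_n^6 p k)`
forces `N = n^2`, is satisfiable, `k` is unique, and `m0 < Y^2`, `y_N ≡ m0 Y [MOD Y^3]`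
forces `m0 = n`. -/
theorem pell_cert (p0 : p 0 = 1) (p1 : p 1 = 3)
    (hp : ∀ k, 9 * p (k + 1) ^ 2 ≤ p (k + 2) * p k ∧ p (k + 2) * p k ≤ 15 * p (k + 1) ^ 2)
    (n : ℕ) (hn : 289 ≤ n) (N k : ℕ) (hN : 1 ≤ N)
    (h0 : yn h2 n ∣ yn h2 N) (h1 : yn h2 (n + 1) ∣ yn h2 (N - 1))
    (h2' : yn h2 (n - 1) ∣ yn h2 (N - 1))
    (h5 : xn h2 N ≤ p (k + 1)) (h6 : p (k + 1) ≤ xn h2 n ^ 6 * p k) : N = n ^ 2 :=
  index_sq n N h0 h1 h2' (by omega) hN (size_a p0 p1 hp n hn N k h5 h6)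
    (two_sq_lt n (by omega))

end Ruler

end Crest.Agent.R323
end

-- ▼ part R323/Cert

/-!
# The certificate for `(m, x, y) = (m, xn 2 m, yn 2 m)`

All witnesses are unique.
-/

set_option autoImplicit false

namespace Crest.Agent.R323

open Pell

theorem pell_of_eq {x y : ℕ} (h : x * x = 3 * y * y + 1) : ∃ j, x = xn h2 j ∧ y = yn h2 j := by
  have h' : x * x - 3 * y * y = 1 := by omega
  exact eq_pell h2 h'

theorem eq_of_pell (n : ℕ) : xn h2 n * xn h2 n = 3 * yn h2 n * yn h2 n + 1 := by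
  have h : xn h2 n * xn h2 n - 3 * yn h2 n * yn h2 n = 1 := pell_eq h2 n
  omega

theorem xn2_add (m n : ℕ) : xn h2 (m + n) = xn h2 m * xn h2 n + 3 * yn h2 m * yn h2 n :=
  xn_add h2 m n

theorem yn2_add (m n : ℕ) : yn h2 (m + n) = xn h2 m * yn h2 n + yn h2 m * xn h2 n :=
  yn_add h2 m n

theorem yn_pred (n : ℕ) (hn : 1 ≤ n) : yn h2 (n - 1) + xn h2 n = 2 * yn h2 n := by
  obtain ⟨m, rfl⟩ : ∃ m, n = m + 1 := ⟨n - 1, by omega⟩
  have e1 : xn h2 (m + 1) = xn h2 m * 2 + 3 * yn h2 m := xn_succ h2 m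
  have e2 : yn h2 (m + 1) = xn h2 m + yn h2 m * 2 := yn_succ h2 m
  rw [Nat.add_sub_cancel, e1, e2]
  ring

theorem yn_next (n : ℕ) : yn h2 (n + 1) = xn h2 n + 2 * yn h2 n := by
  have e2 : yn h2 (n + 1) = xn h2 n + yn h2 n * 2 := yn_succ h2 n
  rw [e2]; ring

/-- adjacency on the quartic curve -/
def AdjZ (a b a1 b1 : ℤ) : Prop :=
  (b ^ 2 * a1 ^ 2 + b1 ^ 2 * a ^ 2 - 8 * b ^ 2 * b1 ^ 2 - a ^ 2 * a1 ^ 2) ^ 2 =
    36 * a ^ 2 * b ^ 2 * a1 ^ 2 * b1 ^ 2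

/-- the abstract properties of the ruler sequences -/
structure Ruler (a b p : ℕ → ℕ) : Prop where
  p0 : p 0 = 1
  p1 : p 1 = 3
  eqn : ∀ k, p k ^ 2 = a k ^ 4 + 8 * b k ^ 4
  cop : ∀ k, Nat.Coprime (a k) (b k)
  surj : ∀ a1 b1 p1 : ℕ, p1 ^ 2 = a1 ^ 4 + 8 * b1 ^ 4 → Nat.Coprime a1 b1 →
    ∃ k, a1 = a k ∧ b1 = b k ∧ p1 = p k
  adj : ∀ j k, AdjZ (a j) (b j) (a k) (b k) ↔ (j = k + 1 ∨ k = j + 1)
  growth : ∀ k, 9 * p (k + 1) ^ 2 ≤ p (k + 2) * p k ∧ p (k + 2) * p k ≤ 15 * p (k + 1) ^ 2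

/-- constants -/
@[irreducible] def c0 : ℕ := xn h2 289
@[irreducible] def d0 : ℕ := yn h2 289

/-- `x_n, y_n` for `n = 2 j + 289` as polynomials in `x_j, y_j` -/
def XX (x y : ℕ) : ℕ := (x ^ 2 + 3 * y ^ 2) * c0 + 3 * (2 * x * y) * d0
def YY (x y : ℕ) : ℕ := (x ^ 2 + 3 * y ^ 2) * d0 + (2 * x * y) * c0

theorem c0_eq : c0 = xn h2 289 := by unfold c0; exact Eq.refl _
theorem d0_eq : d0 = yn h2 289 := by unfold d0; exact Eq.refl _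

theorem XX_eq (j : ℕ) : XX (xn h2 j) (yn h2 j) = xn h2 (2 * j + 289) := by
  have e := xn2_add (2 * j) 289
  have e1 : xn h2 (2 * j) = xn h2 j * xn h2 j + 3 * yn h2 j * yn h2 j := by
    rw [two_mul, xn2_add]
  have e2 : yn h2 (2 * j) = xn h2 j * yn h2 j + yn h2 j * xn h2 j := by
    rw [two_mul, yn2_add]
  rw [← c0_eq, ← d0_eq, e1, e2] at e
  rw [e, XX]
  ring

theorem YY_eq (j : ℕ) : YY (xn h2 j) (yn h2 j) = yn h2 (2 * j + 289) := by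
  have e := yn2_add (2 * j) 289
  have e1 : xn h2 (2 * j) = xn h2 j * xn h2 j + 3 * yn h2 j * yn h2 j := by
    rw [two_mul, xn2_add]
  have e2 : yn h2 (2 * j) = xn h2 j * yn h2 j + yn h2 j * xn h2 j := by
    rw [two_mul, yn2_add]
  rw [← c0_eq, ← d0_eq, e1, e2] at e
  rw [e, YY]
  ring

/-- The system. inputs `m x y`; unknowns `X2 Y2 U V a b p a' b' p'`. -/
structure Sys (m x y X2 Y2 U V a b p a' b' p' : ℕ) : Prop where
  e1 : x * x = 3 * y * y + 1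
  e2 : X2 * X2 = 3 * Y2 * Y2 + 1
  eU : U + XX x y = 2 * YY x y
  eV : V + X2 = 2 * Y2
  d1 : YY x y ∣ Y2
  d2 : XX x y + 2 * YY x y ∣ V
  d3 : U ∣ V
  c1 : p ^ 2 = a ^ 4 + 8 * b ^ 4
  c2 : Nat.Coprime a b
  c3 : p' ^ 2 = a' ^ 4 + 8 * b' ^ 4
  c4 : Nat.Coprime a' b'
  c5 : AdjZ a b a' b'
  s1 : p < p'
  s2 : p < X2
  s3 : X2 ≤ p'
  s4 : p' ≤ XX x y ^ 6 * p
  r1 : Y2 ≡ (2 * m + 289) * YY x y [MOD (YY x y) ^ 3]
  r2 : 2 * m + 289 < (YY x y) ^ 2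

theorem Sys.sound {A B P : ℕ → ℕ} (R : Ruler A B P) {m x y X2 Y2 U V a b p a' b' p' : ℕ}
    (h : Sys m x y X2 Y2 U V a b p a' b' p') :
    x = xn h2 m ∧ y = yn h2 m ∧ X2 = xn h2 ((2 * m + 289) ^ 2) ∧ Y2 = yn h2 ((2 * m + 289) ^ 2) ∧
      ∃ k, P k < xn h2 ((2 * m + 289) ^ 2) ∧ xn h2 ((2 * m + 289) ^ 2) ≤ P (k + 1) ∧
        P (k + 1) ≤ xn h2 (2 * m + 289) ^ 6 * P k ∧
        a = A k ∧ b = B k ∧ p = P k ∧ a' = A (k + 1) ∧ b' = B (k + 1) ∧ p' = P (k + 1) := by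
  obtain ⟨j, hx, hy⟩ := pell_of_eq h.e1
  obtain ⟨N, hX2, hY2⟩ := pell_of_eq h.e2
  set n := 2 * j + 289 with hn
  have hXX : XX x y = xn h2 n := by rw [hx, hy, XX_eq]
  have hYY : YY x y = yn h2 n := by rw [hx, hy, YY_eq]
  have hmono := ruler_strictMono R.p0 R.p1 R.growth
  -- N ≥ 1
  have hN : 1 ≤ N := by
    rcases Nat.eq_zero_or_pos N with h0 | h0
    · exfalso
      have := h.s2
      rw [hX2, h0] at this
      have h1 : xn h2 0 = 1 := xn_zero h2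
      rw [h1] at this
      have hp0 : p = 0 := by omega
      have h3 := h.c1
      rw [hp0] at h3
      have ha : a = 0 := by
        by_contra hne
        have : 0 < a ^ 4 := Nat.pow_pos (Nat.pos_of_ne_zero hne)
        omega
      have hb : b = 0 := by
        by_contra hne
        have : 0 < b ^ 4 := Nat.pow_pos (Nat.pos_of_ne_zero hne)
        omega
      have := h.c2
      rw [ha, hb] at this
      simp at this
    · exact h0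
  have hn1 : 1 ≤ n := le_trans (by norm_num) (Nat.le_add_left 289 (2 * j))
  have hU : U = yn h2 (n - 1) := by
    have e := h.eU
    rw [hXX, hYY, ← yn_pred n hn1] at e
    exact Nat.add_right_cancel e
  have hV : V = yn h2 (N - 1) := by
    have e := h.eV
    rw [hX2, hY2, ← yn_pred N hN] at e
    exact Nat.add_right_cancel e
  -- ruler indices
  obtain ⟨k, hka, hkb, hkp⟩ := R.surj a b p h.c1 h.c2
  obtain ⟨k', hka', hkb', hkp'⟩ := R.surj a' b' p' h.c3 h.c4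
  have hlt : k < k' := by
    apply hmono.lt_iff_lt.1
    rw [← hkp, ← hkp']; exact h.s1
  have hadj := h.c5
  rw [hka, hkb, hka', hkb'] at hadj
  have hk' : k' = k + 1 := by
    rcases (R.adj k k').1 hadj with h1 | h1 <;> omega
  subst hk'
  -- N = n^2
  have hs3 : xn h2 N ≤ P (k + 1) := by rw [← hkp', ← hX2]; exact h.s3
  have hs4 : P (k + 1) ≤ xn h2 n ^ 6 * P k := by rw [← hkp', ← hkp, ← hXX]; exact h.s4
  have hNn : N = n ^ 2 := by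
    refine pell_cert R.p0 R.p1 R.growth n (by omega) N k hN ?_ ?_ ?_ hs3 hs4
    · rw [← hYY, ← hY2]; exact h.d1
    · rw [yn_next, ← hXX, ← hYY, ← hV]; exact h.d2
    · rw [← hU, ← hV]; exact h.d3
  -- reading
  have hm : 2 * m + 289 = n := by
    refine reading_unique n (2 * m + 289) ⟨j + 144, by omega⟩ ?_ (lt_yn_sq n (by omega)) ?_
    · rw [← hYY]; exact h.r2
    · rw [← hYY, ← sq, ← hNn, ← hY2]; exact h.r1
  have hmj : m = j := by omega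
  subst hmj
  refine ⟨hx, hy, ?_, ?_, k, ?_, ?_, hs4, hka, hkb, hkp, hka', hkb', hkp'⟩
  · rw [hX2, hNn]
  · rw [hY2, hNn]
  · rw [← hn, ← hNn, ← hX2, ← hkp]; exact h.s2
  · rw [← hn, ← hNn]; exact hs3

theorem Sys.complete {A B P : ℕ → ℕ} (R : Ruler A B P) (m : ℕ) :
    ∃ X2 Y2 U V a b p a' b' p', Sys m (xn h2 m) (yn h2 m) X2 Y2 U V a b p a' b' p' := by
  set n := 2 * m + 289 with hn
  obtain ⟨k, hk1, hk2, hk3⟩ := size_b R.p0 R.p1 R.growth n (by omega)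
  have hXX : XX (xn h2 m) (yn h2 m) = xn h2 n := by rw [XX_eq]
  have hYY : YY (xn h2 m) (yn h2 m) = yn h2 n := by rw [YY_eq]
  obtain ⟨g1, g2, g3⟩ := index_sq_conv n (by omega)
  have hmono := ruler_strictMono R.p0 R.p1 R.growth
  refine ⟨xn h2 (n ^ 2), yn h2 (n ^ 2), yn h2 (n - 1), yn h2 (n ^ 2 - 1), A k, B k, P k,
    A (k + 1), B (k + 1), P (k + 1), ?_⟩
  refine ⟨eq_of_pell _, eq_of_pell _, ?_, ?_, ?_, ?_, g3, R.eqn k, R.cop k, R.eqn _, R.cop _,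
    (R.adj k (k + 1)).2 (Or.inr rfl), hmono (Nat.lt_succ_self k), hk1, hk2, ?_, ?_, ?_⟩
  · rw [hXX, hYY]; exact yn_pred n (by omega)
  · exact yn_pred (n ^ 2) (by nlinarith)
  · rw [hYY]; exact g1
  · rw [hXX, hYY, ← yn_next]; exact g2
  · rw [hXX]; exact hk3
  · rw [hYY, sq]; exact reading_odd n ⟨m + 144, by omega⟩
  · rw [hYY]; exact lt_yn_sq n (by omega)

theorem Sys.unique {A B P : ℕ → ℕ} (R : Ruler A B P)
    {m x y X2 Y2 U V a b p a' b' p' : ℕ} {W2 Z2 U1 V1 a1 b1 p1 a1' b1' p1' : ℕ}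
    (h : Sys m x y X2 Y2 U V a b p a' b' p')
    (h' : Sys m x y W2 Z2 U1 V1 a1 b1 p1 a1' b1' p1') :
    X2 = W2 ∧ Y2 = Z2 ∧ U = U1 ∧ V = V1 ∧ a = a1 ∧ b = b1 ∧ p = p1 ∧
      a' = a1' ∧ b' = b1' ∧ p' = p1' := by
  obtain ⟨_, _, f1, f2, k, f3, f4, _, f5, f6, f7, f8, f9, f10⟩ := h.sound R
  obtain ⟨_, _, g1, g2, k', g3, g4, _, g5, g6, g7, g8, g9, g10⟩ := h'.sound R
  have hkk : k = k' := ruler_index_unique R.p0 R.p1 R.growth f3 f4 g3 g4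
  subst hkk
  have e1 : X2 = W2 := by rw [f1, g1]
  have e2 : Y2 = Z2 := by rw [f2, g2]
  refine ⟨e1, e2, ?_, ?_, ?_, ?_, ?_, ?_, ?_, ?_⟩
  · have := h.eU; have := h'.eU; omega
  · have := h.eV; have := h'.eV; omega
  · rw [f5, g5]
  · rw [f6, g6]
  · rw [f7, g7]
  · rw [f8, g8]
  · rw [f9, g9]
  · rw [f10, g10]

end Crest.Agent.R323
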