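import Mathlib

-- ▼ part R323/Pt
section

/-!
# Rational points of `y^2 = 1 + 8 x^4` with `y > 0`

Translation by the point `(1,3)` (`next`), its inverse (`prev`), duplication (`dbl`), negation.
-/

set_option autoImplicit false

namespace Crest.Agent.R323

/-- rational points with positive `y` on `y^2 = 1 + 8 x^4` -/
@[ext]
structure Pt where
  x : ℚ
  y : ℚ
  h : y ^ 2 = 1 + 8 * x ^ 4
  pos : 0 < y

namespace Pt

theorem ext_x {P Q : Pt} (hx : P.x = Q.x) : P = Q := by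
  apply Pt.ext hx
  have h1 := P.h
  have h2 := Q.h
  rw [hx, ← h2] at h1
  exact (pow_left_inj₀ P.pos.le Q.pos.le (by norm_num)).1 h1

end Pt

theorem sq_ne_two (z : ℚ) : z ^ 2 ≠ 2 := by
  intro h
  have h2 : Irrational (Real.sqrt 2) := irrational_sqrt_two
  apply h2
  refine ⟨|z|, ?_⟩
  have : (|z| * |z| : ℚ) = 2 := by rw [abs_mul_abs_self, ← sq, h]
  have h3 : ((|z| : ℚ) : ℝ) * ((|z| : ℚ) : ℝ) = 2 := by exact_mod_cast this
  rw [← h3, Real.sqrt_mul_self (by positivity)]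

theorem one_sub_ne (x : ℚ) : 1 - 8 * x ^ 2 ≠ 0 := by
  intro h
  apply sq_ne_two (4 * x)
  linear_combination (-2) * h

theorem one_sub_ne' (x : ℚ) : 1 - 8 * x ^ 4 ≠ 0 := by
  intro h
  apply sq_ne_two (4 * x ^ 2)
  linear_combination (-2) * h

namespace Pt

/-- negation -/
def neg (P : Pt) : Pt where
  x := -P.x
  y := P.y
  h := by rw [P.h]; ring
  pos := P.pos

theorem neg_neg (P : Pt) : P.neg.neg = P := by
  apply ext_x; simp [neg]

theorem num_pos (P : Pt) :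
    0 < 3 * (1 + 8 * P.x ^ 2) * P.y + 16 * P.x * (1 + P.x ^ 2) ∧
    0 < 3 * (1 + 8 * P.x ^ 2) * P.y - 16 * P.x * (1 + P.x ^ 2) := by
  obtain ⟨x, y, h, hy⟩ := P
  simp only
  have hprod : (3 * (1 + 8 * x ^ 2) * y + 16 * x * (1 + x ^ 2)) *
      (3 * (1 + 8 * x ^ 2) * y - 16 * x * (1 + x ^ 2)) =
      (1 - 8 * x ^ 2) ^ 2 * (9 * y ^ 2 + 32 * x ^ 2) := by
    linear_combination (288 * x ^ 2) * h
  have hpos : 0 < (1 - 8 * x ^ 2) ^ 2 * (9 * y ^ 2 + 32 * x ^ 2) := by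
    have := one_sub_ne x
    positivity
  have hsum : 0 < 3 * (1 + 8 * x ^ 2) * y := by positivity
  rw [← hprod] at hpos
  rcases pos_and_pos_or_neg_and_neg_of_mul_pos hpos with h1 | h1
  · exact h1
  · exfalso; linarith [h1.1, h1.2]

/-- translation by `(1,3)` -/
def next (P : Pt) : Pt where
  x := (3 * P.x + P.y) / (1 - 8 * P.x ^ 2)
  y := (3 * (1 + 8 * P.x ^ 2) * P.y + 16 * P.x * (1 + P.x ^ 2)) / (1 - 8 * P.x ^ 2) ^ 2
  h := by
    have h0 := one_sub_ne P.x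
    have h := P.h
    field_simp
    linear_combination (512 * P.x ^ 4 + (-288) * P.x ^ 2 + (-96) * P.x * P.y + (-8) * P.y ^ 2 + 1) * h
  pos := by
    have h0 := one_sub_ne P.x
    have := (num_pos P).1
    positivity

/-- translation by `-(1,3)` -/
def prev (P : Pt) : Pt where
  x := (3 * P.x - P.y) / (1 - 8 * P.x ^ 2)
  y := (3 * (1 + 8 * P.x ^ 2) * P.y - 16 * P.x * (1 + P.x ^ 2)) / (1 - 8 * P.x ^ 2) ^ 2
  h := by
    have h0 := one_sub_ne P.x
    have h := P.h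
    field_simp
    linear_combination (512 * P.x ^ 4 + (-288) * P.x ^ 2 + 96 * P.x * P.y + (-8) * P.y ^ 2 + 1) * h
  pos := by
    have h0 := one_sub_ne P.x
    have := (num_pos P).2
    positivity

/-- duplication -/
def dbl (P : Pt) : Pt where
  x := 2 * P.x * P.y / (1 - 8 * P.x ^ 4)
  y := (P.y ^ 4 + 32 * P.x ^ 4) / (1 - 8 * P.x ^ 4) ^ 2
  h := by
    have h0 := one_sub_ne' P.x
    have h := P.h
    generalize hd : 1 - 8 * P.x ^ 4 = d at h0 ⊢
    field_simp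
    subst hd
    linear_combination (512 * P.x ^ 12 + 64 * P.x ^ 8 * P.y ^ 2 + (-320) * P.x ^ 8 + 8 * P.x ^ 4 * P.y ^ 4 +
      (-48) * P.x ^ 4 * P.y ^ 2 + (-40) * P.x ^ 4 + P.y ^ 6 + P.y ^ 4 + P.y ^ 2 + 1) * h
  pos := by
    have h0 := one_sub_ne' P.x
    have := P.pos
    positivity

/-- neutral element -/
def O : Pt where
  x := 0
  y := 1
  h := by norm_num
  pos := by norm_num

theorem next_neg (P : Pt) : P.neg.next = P.prev.neg := by
  apply ext_x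
  simp only [next, prev, neg]
  rw [show (-P.x) ^ 2 = P.x ^ 2 by ring]
  ring

theorem prev_neg (P : Pt) : P.neg.prev = P.next.neg := by
  apply ext_x
  simp only [next, prev, neg]
  rw [show (-P.x) ^ 2 = P.x ^ 2 by ring]
  ring

theorem dbl_neg (P : Pt) : P.neg.dbl = P.dbl.neg := by
  apply ext_x
  simp only [dbl, neg]
  rw [show (-P.x) ^ 4 = P.x ^ 4 by ring]
  ring

theorem next_prev (P : Pt) : P.prev.next = P := by
  apply ext_x
  have h2 := one_sub_ne P.prev.x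
  have h0 := one_sub_ne P.x
  have h := P.h
  have hx : P.prev.x = (3 * P.x - P.y) / (1 - 8 * P.x ^ 2) := rfl
  have hy : P.prev.y = (3 * (1 + 8 * P.x ^ 2) * P.y - 16 * P.x * (1 + P.x ^ 2)) / (1 - 8 * P.x ^ 2) ^ 2 := rfl
  show (3 * P.prev.x + P.prev.y) / (1 - 8 * P.prev.x ^ 2) = P.x
  rw [div_eq_iff h2, hx, hy]
  generalize hd : 1 - 8 * P.x ^ 2 = d at h0 ⊢
  field_simp
  subst hd
  linear_combination (8 * P.x) * h

theorem prev_next (P : Pt) : P.next.prev = P := by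
  have := next_prev P.neg
  rw [prev_neg, next_neg] at this
  have h2 := congrArg Pt.neg this
  rwa [neg_neg, neg_neg] at h2

/-- x-coordinate of `2 Q + (1,3)` -/
theorem x_next_dbl (P : Pt) :
    P.dbl.next.x = ((3 * P.x + P.y) ^ 2 - P.x ^ 2 * (1 - 8 * P.x ^ 2) ^ 2) /
      ((1 - 8 * P.x ^ 2) ^ 2 - 8 * P.x ^ 2 * (3 * P.x + P.y) ^ 2) := by
  have h0 := one_sub_ne P.x
  have h0' := one_sub_ne' P.x
  have h := P.h
  have h2 := one_sub_ne P.dbl.x
  have hx : P.dbl.x = 2 * P.x * P.y / (1 - 8 * P.x ^ 4) := rfl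
  have hy : P.dbl.y = (P.y ^ 4 + 32 * P.x ^ 4) / (1 - 8 * P.x ^ 4) ^ 2 := rfl
  have h3 : (1 - 8 * P.x ^ 2) ^ 2 - 8 * P.x ^ 2 * (3 * P.x + P.y) ^ 2 ≠ 0 := by
    have := one_sub_ne (P.x * ((3 * P.x + P.y) / (1 - 8 * P.x ^ 2)))
    intro h4
    apply this
    generalize hd : 1 - 8 * P.x ^ 2 = d at h0 h4 ⊢
    field_simp
    linear_combination h4
  have h5 : (1 - 8 * P.x ^ 4) ^ 2 - 8 * (2 * P.x * P.y) ^ 2 ≠ 0 := by
    intro h4
    apply h2
    rw [hx, div_pow]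
    generalize hd : 1 - 8 * P.x ^ 4 = d at h0' h4 ⊢
    field_simp
    linear_combination h4
  show (3 * P.dbl.x + P.dbl.y) / (1 - 8 * P.dbl.x ^ 2) = _
  rw [div_eq_div_iff h2 h3, hx, hy]
  generalize hd : 1 - 8 * P.x ^ 4 = d at h0' ⊢
  field_simp
  subst hd
  linear_combination ((-512) * P.x ^ 10 + 128 * P.x ^ 8 + (-64) * P.x ^ 6 * P.y ^ 2 + 256 * P.x ^ 6 +
    (-8) * P.x ^ 4 * P.y ^ 2 + (-16) * P.x ^ 4 + (-48) * P.x ^ 3 * P.y ^ 3 + 96 * P.x ^ 3 * P.y +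
    (-8) * P.x ^ 2 * P.y ^ 4 + 8 * P.x ^ 2 * P.y ^ 2 + 8 * P.x ^ 2 + P.y ^ 2) * h

/-- in terms of the two consecutive x-coordinates -/
theorem x_next_dbl' (P : Pt) :
    P.dbl.next.x = (P.next.x ^ 2 - P.x ^ 2) / (1 - 8 * P.x ^ 2 * P.next.x ^ 2) := by
  rw [x_next_dbl]
  have h0 := one_sub_ne P.x
  have hx : P.next.x = (3 * P.x + P.y) / (1 - 8 * P.x ^ 2) := rfl
  have h3 : (1 - 8 * P.x ^ 2) ^ 2 - 8 * P.x ^ 2 * (3 * P.x + P.y) ^ 2 ≠ 0 := by
    have := one_sub_ne (P.x * ((3 * P.x + P.y) / (1 - 8 * P.x ^ 2)))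
    intro h4
    apply this
    generalize hd : 1 - 8 * P.x ^ 2 = d at h0 h4 ⊢
    field_simp
    linear_combination h4
  have h4 : 1 - 8 * P.x ^ 2 * P.next.x ^ 2 ≠ 0 := by
    have := one_sub_ne (P.x * P.next.x)
    intro h4
    apply this
    linear_combination h4
  rw [div_eq_div_iff h3 h4, hx]
  generalize hd : 1 - 8 * P.x ^ 2 = d at h0 ⊢
  field_simp

theorem dbl_next (P : Pt) : P.next.dbl = P.dbl.next.next := by
  have key : P.next.dbl.prev = P.dbl.next := by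
    apply ext_x
    have h1 := x_next_dbl' P
    have h2 := x_next_dbl' P.next.neg
    rw [dbl_neg, next_neg, next_neg, prev_next] at h2
    rw [h1]
    have h3 : P.next.dbl.prev.neg.x = - P.next.dbl.prev.x := rfl
    rw [h3] at h2
    have h5 : P.neg.x = -P.x := rfl
    have h6 : P.next.neg.x = -P.next.x := rfl
    rw [h5, h6] at h2
    have h7 : P.next.dbl.prev.x = -(((-P.x) ^ 2 - (-P.next.x) ^ 2) /
        (1 - 8 * (-P.next.x) ^ 2 * (-P.x) ^ 2)) := by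
      rw [← h2]; ring
    rw [h7, ← neg_div]
    congr 1 <;> ring
  rw [← key, next_prev]

theorem dbl_prev (P : Pt) : P.prev.dbl = P.dbl.prev.prev := by
  have := dbl_next P.prev
  rw [next_prev] at this
  rw [this, prev_next, prev_next]

theorem dbl_O : O.dbl = O := by
  apply ext_x; simp [dbl, O]

/-- `next` as a permutation -/
def nextEquiv : Equiv.Perm Pt where
  toFun := next
  invFun := prev
  left_inv := prev_next
  right_inv := next_prev

/-- the multiples of `(1,3)` -/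
def pt (k : ℤ) : Pt := (nextEquiv ^ k) O

theorem pt_zero : pt 0 = O := by simp [pt]

theorem pt_add_one (k : ℤ) : pt (k + 1) = (pt k).next := by
  unfold pt
  rw [add_comm, zpow_add, zpow_one]
  rfl

theorem pt_sub_one (k : ℤ) : pt (k - 1) = (pt k).prev := by
  have := pt_add_one (k - 1)
  rw [sub_add_cancel] at this
  rw [this, prev_next]

theorem neg_O : O.neg = O := by
  apply ext_x; simp [neg, O]

theorem pt_neg (k : ℤ) : pt (-k) = (pt k).neg := by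
  induction k using Int.induction_on with
  | zero => simp [pt_zero, neg_O]
  | succ k ih =>
    rw [pt_add_one, neg_add, ← sub_eq_add_neg, pt_sub_one, ih, prev_neg]
  | pred k ih =>
    rw [pt_sub_one, neg_sub, sub_neg_eq_add, add_comm, pt_add_one, ← next_neg]
    congr 1
    rw [← ih, _root_.neg_neg]

theorem pt_dbl (k : ℤ) : (pt k).dbl = pt (2 * k) := by
  induction k using Int.induction_on with
  | zero => simp [pt_zero, dbl_O]
  | succ k ih =>
    rw [pt_add_one, dbl_next, ih, mul_add, mul_one, show (2 * (k:ℤ) + 2) = 2 * k + 1 + 1 by ring,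
      pt_add_one, pt_add_one]
  | pred k ih =>
    rw [pt_sub_one, dbl_prev, ih, mul_sub, mul_one, show (2 * (-(k:ℤ)) - 2) = 2 * (-k) - 1 - 1 by ring,
      pt_sub_one, pt_sub_one]

end Pt

end Crest.Agent.R323
end

-- ▼ part R323/Ht
section

/-!
# Integral representatives and heights of points of `y^2 = 1 + 8 x^4`
-/

set_option autoImplicit false

namespace Crest.Agent.R323

open Pt

/-- `(r,s,p)` is a reduced integral representative of the point `P` -/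
def Rep (P : Pt) (r s p : ℤ) : Prop :=
  IsCoprime r s ∧ 0 < p ∧ r ≠ 0 ∧ P.x = (s : ℚ) / r ∧ P.y = (p : ℚ) / (r : ℚ) ^ 2

theorem Rep.eqn {P : Pt} {r s p : ℤ} (h : Rep P r s p) : p ^ 2 = r ^ 4 + 8 * s ^ 4 := by
  obtain ⟨_, _, hr, hx, hy⟩ := h
  have hP := P.h
  rw [hx, hy] at hP
  have hr' : (r : ℚ) ≠ 0 := by exact_mod_cast hr
  field_simp at hP
  exact_mod_cast hP

/-- parity of `r` -/
theorem odd_r {r s p : ℤ} (h : p ^ 2 = r ^ 4 + 8 * s ^ 4) (hc : IsCoprime r s) : Odd r := by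
  by_contra hr
  rw [Int.not_odd_iff_even] at hr
  obtain ⟨t, rfl⟩ := hr
  have hs : Odd s := by
    by_contra hs
    rw [Int.not_odd_iff_even] at hs
    obtain ⟨u, rfl⟩ := hs
    have : IsCoprime (2 * t) (2 * u) := by
      rw [two_mul, two_mul]; exact hc
    have h2 : IsUnit (2 : ℤ) := this.isUnit_of_dvd' (dvd_mul_right _ _) (dvd_mul_right _ _)
    rw [Int.isUnit_iff] at h2
    omega
  -- p^2 = 16 t^4 + 8 s^4
  obtain ⟨u, rfl⟩ := hs
  have hp : Even p := by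
    by_contra hp
    rw [Int.not_even_iff_odd] at hp
    obtain ⟨v, rfl⟩ := hp
    have : (2 * v + 1) ^ 2 = 2 * (2 * v ^ 2 + 2 * v) + 1 := by ring
    have h3 : (t + t) ^ 4 + 8 * (2 * u + 1) ^ 4 = 2 * (8 * t ^ 4 + 4 * (2 * u + 1) ^ 4) := by ring
    omega
  obtain ⟨v, rfl⟩ := hp
  have h4 : v ^ 2 = 2 * (2 * t ^ 4 + (2 * u + 1) ^ 4) := by nlinarith
  have hv : Even v := by
    by_contra hp
    rw [Int.not_even_iff_odd] at hp
    obtain ⟨w, rfl⟩ := hp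
    have : (2 * w + 1) ^ 2 = 2 * (2 * w ^ 2 + 2 * w) + 1 := by ring
    omega
  obtain ⟨w, rfl⟩ := hv
  have h5 : 2 * w ^ 2 = 2 * t ^ 4 + (2 * u + 1) ^ 4 := by nlinarith
  have h6 : (2 * u + 1) ^ 4 = 2 * (8 * u ^ 4 + 16 * u ^ 3 + 12 * u ^ 2 + 4 * u) + 1 := by ring
  omega

theorem odd_p {r s p : ℤ} (h : p ^ 2 = r ^ 4 + 8 * s ^ 4) (hc : IsCoprime r s) : Odd p := by
  have hr := odd_r h hc
  by_contra hp
  rw [Int.not_odd_iff_even] at hp
  have h1 : Odd (p ^ 2) := by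
    rw [h]
    apply Odd.add_even (hr.pow)
    exact ⟨4 * s ^ 4, by ring⟩
  have h2 : Even (p ^ 2) := hp.pow_of_ne_zero (by norm_num)
  exact (Int.not_even_iff_odd.2 h1) h2

/-- no common prime factor of the three quantities -/
theorem gcd_aux {r s p : ℤ} (h : p ^ 2 = r ^ 4 + 8 * s ^ 4) (hc : IsCoprime r s) :
    Nat.Coprime (Int.gcd (p + 3 * r * s) (r ^ 2 - 8 * s ^ 2))
      (Int.gcd (p - 3 * r * s) (r ^ 2 - 8 * s ^ 2)) := by
  rw [Nat.coprime_iff_gcd_eq_one]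
  by_contra hne
  obtain ⟨q, hq, hqd⟩ := Nat.exists_prime_and_dvd hne
  have hq1 : (q : ℤ) ∣ p + 3 * r * s :=
    (Int.natCast_dvd_natCast.2 (hqd.trans (Nat.gcd_dvd_left _ _))).trans (Int.gcd_dvd_left _ _)
  have hq2 : (q : ℤ) ∣ r ^ 2 - 8 * s ^ 2 :=
    (Int.natCast_dvd_natCast.2 (hqd.trans (Nat.gcd_dvd_left _ _))).trans (Int.gcd_dvd_right _ _)
  have hq3 : (q : ℤ) ∣ p - 3 * r * s :=
    (Int.natCast_dvd_natCast.2 (hqd.trans (Nat.gcd_dvd_right _ _))).trans (Int.gcd_dvd_left _ _)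
  have hqp : Prime (q : ℤ) := Nat.prime_iff_prime_int.1 hq
  have hodd := odd_r h hc
  -- q ≠ 2
  have hq2' : ¬ (q : ℤ) ∣ 2 := by
    intro h2
    have hq' : q ∣ 2 := by exact_mod_cast h2
    have : q = 2 := (Nat.prime_dvd_prime_iff_eq hq Nat.prime_two).1 hq'
    subst this
    obtain ⟨t, ht⟩ := hodd
    obtain ⟨c, hcc⟩ := hq2
    rw [ht] at hcc
    have : (2 * t + 1) ^ 2 = 2 * (2 * t ^ 2 + 2 * t) + 1 := by ring
    push_cast at hcc
    omega
  have hqpp : (q : ℤ) ∣ p := by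
    have h1 : (q : ℤ) ∣ 2 * p := by
      have := dvd_add hq1 hq3
      have e : p + 3 * r * s + (p - 3 * r * s) = 2 * p := by ring
      rwa [e] at this
    exact (hqp.dvd_or_dvd h1).resolve_left hq2'
  have hrs : (q : ℤ) ∣ 3 * (r * s) := by
    have := dvd_sub hq1 hqpp
    have e : p + 3 * r * s - p = 3 * (r * s) := by ring
    rwa [e] at this
  have hnr : ¬ (q : ℤ) ∣ r := by
    intro hr
    have h8 : (q : ℤ) ∣ 8 * s ^ 4 := by
      have e : 8 * s ^ 4 = p ^ 2 - r ^ 4 := by rw [h]; ring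
      rw [e]
      exact dvd_sub (dvd_pow hqpp (by norm_num)) (dvd_pow hr (by norm_num))
    rcases hqp.dvd_or_dvd h8 with h9 | h9
    · apply hq2'
      have : (8 : ℤ) = 2 ^ 3 := by norm_num
      rw [this] at h9
      exact hqp.dvd_of_dvd_pow h9
    · have := hc.isUnit_of_dvd' hr (hqp.dvd_of_dvd_pow h9)
      exact hqp.not_isUnit this
  have hns : ¬ (q : ℤ) ∣ s := by
    intro hs
    apply hnr
    have e : r ^ 4 = p ^ 2 - 8 * s ^ 4 := by rw [h]; ring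
    apply hqp.dvd_of_dvd_pow (n := 4)
    rw [e]
    exact dvd_sub (dvd_pow hqpp (by norm_num)) (Dvd.dvd.mul_left (dvd_pow hs (by norm_num)) _)
  rcases hqp.dvd_or_dvd hrs with h3 | h3
  · have hq' : q ∣ 3 := by exact_mod_cast h3
    have : q = 3 := (Nat.prime_dvd_prime_iff_eq hq Nat.prime_three).1 hq'
    subst this
    -- r^2 - 8 s^2 ≡ r^2 + s^2 mod 3
    have h5 : (r % 3 = 1 ∨ r % 3 = 2) := by
      push_cast at hnr; omega
    have h6 : (s % 3 = 1 ∨ s % 3 = 2) := by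
      push_cast at hns; omega
    have h7 : (r ^ 2 - 8 * s ^ 2) % 3 = 0 := by
      push_cast at hq2; exact Int.emod_eq_zero_of_dvd hq2
    rcases h5 with h5 | h5 <;> rcases h6 with h6 | h6 <;>
      norm_num [pow_two, Int.sub_emod, Int.mul_emod, h5, h6] at h7
  · rcases hqp.dvd_or_dvd h3 with h4 | h4
    · exact hnr h4
    · exact hns h4

theorem gcd_mul {r s p : ℤ} (h : p ^ 2 = r ^ 4 + 8 * s ^ 4) (hc : IsCoprime r s) :
    Int.gcd (p + 3 * r * s) (r ^ 2 - 8 * s ^ 2) * Int.gcd (p - 3 * r * s) (r ^ 2 - 8 * s ^ 2) =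
      (r ^ 2 - 8 * s ^ 2).natAbs := by
  apply Nat.dvd_antisymm
  · apply (gcd_aux h hc).mul_dvd_of_dvd_of_dvd
    · exact Int.natCast_dvd.1 (Int.gcd_dvd_right _ _)
    · exact Int.natCast_dvd.1 (Int.gcd_dvd_right _ _)
  · rw [← Int.natCast_dvd_natCast, Int.natCast_natAbs, abs_dvd]
    push_cast
    obtain ⟨a1, b1, h1⟩ : ∃ a b : ℤ, (Int.gcd (p + 3 * r * s) (r ^ 2 - 8 * s ^ 2) : ℤ) =
        (p + 3 * r * s) * a + (r ^ 2 - 8 * s ^ 2) * b := ⟨_, _, Int.gcd_eq_gcd_ab _ _⟩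
    obtain ⟨a2, b2, h2⟩ : ∃ a b : ℤ, (Int.gcd (p - 3 * r * s) (r ^ 2 - 8 * s ^ 2) : ℤ) =
        (p - 3 * r * s) * a + (r ^ 2 - 8 * s ^ 2) * b := ⟨_, _, Int.gcd_eq_gcd_ab _ _⟩
    rw [h1, h2]
    refine ⟨(r ^ 2 - s ^ 2) * a1 * a2 + (p + 3 * r * s) * a1 * b2 + b1 * (p - 3 * r * s) * a2 +
      b1 * (r ^ 2 - 8 * s ^ 2) * b2, ?_⟩
    linear_combination (a1 * a2) * h

theorem R_ne {r s : ℤ} (hr : r ≠ 0) : r ^ 2 - 8 * s ^ 2 ≠ 0 := by
  intro h
  have h1 := one_sub_ne ((s : ℚ) / r)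
  apply h1
  have hr' : (r : ℚ) ≠ 0 := by exact_mod_cast hr
  have h' : (r : ℚ) ^ 2 - 8 * (s : ℚ) ^ 2 = 0 := by exact_mod_cast h
  field_simp
  rw [h', mul_zero]

/-- every solution is a representative of some point -/
theorem exists_pt {r s p : ℤ} (h : p ^ 2 = r ^ 4 + 8 * s ^ 4) (hc : IsCoprime r s) (hp : 0 < p) :
    ∃ P : Pt, Rep P r s p := by
  have hr : r ≠ 0 := by
    intro h0
    have := odd_r h hc
    rw [h0] at this
    simp at this
  have hr' : (r : ℚ) ≠ 0 := by exact_mod_cast hr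
  have hp' : (0 : ℚ) < p := by exact_mod_cast hp
  have h' : (p : ℚ) ^ 2 = (r : ℚ) ^ 4 + 8 * (s : ℚ) ^ 4 := by exact_mod_cast h
  refine ⟨⟨(s : ℚ) / r, (p : ℚ) / (r : ℚ) ^ 2, ?_, by positivity⟩, hc, hp, hr, rfl, rfl⟩
  field_simp
  exact h'

/-- every point has a representative with `r > 0` -/
theorem exists_rep (P : Pt) : ∃ r s p : ℤ, Rep P r s p ∧ 0 < r := by
  have hP := P.h
  have hpos := P.pos
  have hden : (P.x.den : ℚ) ≠ 0 := by exact_mod_cast P.x.den_nz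
  have hx : P.x = (P.x.num : ℚ) / ((P.x.den : ℤ) : ℚ) := by
    simpa using (Rat.num_div_den P.x).symm
  -- `y * den^2` is an integer
  have hsq : (P.y * (P.x.den : ℚ) ^ 2) ^ 2 = (((P.x.den : ℤ) ^ 4 + 8 * P.x.num ^ 4 : ℤ) : ℚ) := by
    have h1 : (P.x.num : ℚ) = P.x * P.x.den := by
      exact (Rat.mul_den_eq_num P.x).symm
    push_cast
    rw [h1, mul_pow, hP]
    ring
  have hint : ∃ p : ℤ, (p : ℚ) = P.y * (P.x.den : ℚ) ^ 2 := by
    set z := P.y * (P.x.den : ℚ) ^ 2 with hz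
    have hden1 : z.den = 1 := by
      have h2 : (z ^ 2).den = 1 := by rw [hsq]; exact Rat.den_intCast _
      rw [Rat.den_pow] at h2
      exact (Nat.pow_eq_one.1 h2).resolve_right (by norm_num)
    exact ⟨z.num, Rat.coe_int_num_of_den_eq_one hden1⟩
  obtain ⟨p, hp⟩ := hint
  refine ⟨P.x.den, P.x.num, p, ⟨?_, ?_, ?_, hx, ?_⟩, ?_⟩
  · rw [Int.isCoprime_iff_gcd_eq_one]
    have := P.x.reduced
    rw [Nat.Coprime, Nat.gcd_comm] at this
    simpa [Int.gcd] using this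
  · have : (0 : ℚ) < p := by rw [hp]; positivity
    exact_mod_cast this
  · exact_mod_cast P.x.den_nz
  · rw [hp]
    push_cast
    field_simp
  · exact_mod_cast P.x.den_pos

theorem rep_unique {P : Pt} {r s p r' s' p' : ℤ} (h : Rep P r s p) (h' : Rep P r' s' p') :
    r.natAbs = r'.natAbs ∧ s.natAbs = s'.natAbs ∧ p = p' := by
  obtain ⟨hc, hp, hr, hx, hy⟩ := h
  obtain ⟨hc', hp', hr', hx', hy'⟩ := h'
  have hrq : (r : ℚ) ≠ 0 := by exact_mod_cast hr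
  have hrq' : (r' : ℚ) ≠ 0 := by exact_mod_cast hr'
  have e : s * r' = s' * r := by
    rw [hx] at hx'
    rw [div_eq_div_iff hrq hrq'] at hx'
    exact_mod_cast hx'
  have e2 : p * r' ^ 2 = p' * r ^ 2 := by
    rw [hy] at hy'
    rw [div_eq_div_iff (pow_ne_zero 2 hrq) (pow_ne_zero 2 hrq')] at hy'
    exact_mod_cast hy'
  have d1 : r ∣ r' := by
    apply hc.dvd_of_dvd_mul_left
    rw [e]; exact dvd_mul_left _ _
  have d2 : r' ∣ r := by
    apply hc'.dvd_of_dvd_mul_left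
    rw [← e]; exact dvd_mul_left _ _
  have hrr : r.natAbs = r'.natAbs := Int.natAbs_eq_of_dvd_dvd d1 d2
  have hsq : r ^ 2 = r' ^ 2 := by
    rw [← Int.natAbs_sq r, ← Int.natAbs_sq r', hrr]
  refine ⟨hrr, ?_, ?_⟩
  · have := congrArg Int.natAbs e
    rw [Int.natAbs_mul, Int.natAbs_mul, hrr] at this
    have h0 : 0 < r'.natAbs := Int.natAbs_pos.2 hr'
    exact Nat.eq_of_mul_eq_mul_right h0 this
  · rw [hsq] at e2
    exact mul_right_cancel₀ (pow_ne_zero 2 hr') e2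

theorem rep_neg {P : Pt} {r s p : ℤ} (h : Rep P r s p) : Rep P.neg r (-s) p := by
  obtain ⟨hc, hp, hr, hx, hy⟩ := h
  refine ⟨hc.neg_right, hp, hr, ?_, hy⟩
  show -P.x = _
  rw [hx]; push_cast; ring

theorem rep_next {P : Pt} {r s p : ℤ} (h : Rep P r s p) :
    ∃ r' s' p' : ℤ, Rep P.next r' s' p' ∧
      r' * Int.gcd (p + 3 * r * s) (r ^ 2 - 8 * s ^ 2) = r ^ 2 - 8 * s ^ 2 ∧
      s' * Int.gcd (p + 3 * r * s) (r ^ 2 - 8 * s ^ 2) = p + 3 * r * s ∧
      p' * (Int.gcd (p + 3 * r * s) (r ^ 2 - 8 * s ^ 2) : ℤ) ^ 2 =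
        3 * (r ^ 2 + 8 * s ^ 2) * p + 16 * r * s * (r ^ 2 + s ^ 2) := by
  have heqn := h.eqn
  obtain ⟨hc, hp, hr, hx, hy⟩ := h
  have hR := R_ne (s := s) hr
  set g := Int.gcd (p + 3 * r * s) (r ^ 2 - 8 * s ^ 2) with hg
  have hgpos : 0 < g := Int.gcd_pos_of_ne_zero_right _ hR
  have hg0 : (g : ℤ) ≠ 0 := by positivity
  obtain ⟨r', hr'⟩ : (g : ℤ) ∣ r ^ 2 - 8 * s ^ 2 := Int.gcd_dvd_right _ _
  obtain ⟨s', hs'⟩ : (g : ℤ) ∣ p + 3 * r * s := Int.gcd_dvd_left _ _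
  have hcop : IsCoprime r' s' := by
    have h1 := Int.gcd_eq_gcd_ab (p + 3 * r * s) (r ^ 2 - 8 * s ^ 2)
    rw [← hg] at h1
    refine ⟨Int.gcdB (p + 3 * r * s) (r ^ 2 - 8 * s ^ 2), Int.gcdA (p + 3 * r * s) (r ^ 2 - 8 * s ^ 2), ?_⟩
    apply mul_left_cancel₀ hg0
    linear_combination (-Int.gcdB (p + 3 * r * s) (r ^ 2 - 8 * s ^ 2)) * hr' -
      (Int.gcdA (p + 3 * r * s) (r ^ 2 - 8 * s ^ 2)) * hs' - h1
  have hr'0 : r' ≠ 0 := by
    rintro rfl
    apply hR; rw [hr', mul_zero]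
  have hrq : (r : ℚ) ≠ 0 := by exact_mod_cast hr
  have hrq' : (r' : ℚ) ≠ 0 := by exact_mod_cast hr'0
  have hgq : (g : ℚ) ≠ 0 := by exact_mod_cast hg0
  have hr'q : (r : ℚ) ^ 2 - 8 * (s : ℚ) ^ 2 = g * r' := by exact_mod_cast hr'
  have hs'q : (p : ℚ) + 3 * r * s = g * s' := by exact_mod_cast hs'
  -- coordinates of `next`
  have hD : 1 - 8 * P.x ^ 2 = (g * r') / (r : ℚ) ^ 2 := by
    rw [hx, ← hr'q]; field_simp
  have hxn : P.next.x = (s' : ℚ) / r' := by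
    show (3 * P.x + P.y) / (1 - 8 * P.x ^ 2) = _
    have hN : 3 * P.x + P.y = (g * s') / (r : ℚ) ^ 2 := by
      rw [hx, hy, ← hs'q]; field_simp; ring
    rw [hN, hD]
    field_simp
  have hyn : P.next.y * ((g : ℚ) * r') ^ 2 =
      3 * ((r : ℚ) ^ 2 + 8 * s ^ 2) * p + 16 * r * s * ((r : ℚ) ^ 2 + s ^ 2) := by
    show (3 * (1 + 8 * P.x ^ 2) * P.y + 16 * P.x * (1 + P.x ^ 2)) / (1 - 8 * P.x ^ 2) ^ 2 * _ = _
    rw [hD, hx, hy]
    field_simp
  -- the height of the next point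
  obtain ⟨a, b, c, hrep, ha⟩ := exists_rep P.next
  obtain ⟨hc1, hp1, hr1, hx1, hy1⟩ := hrep
  have harq : (a : ℚ) ≠ 0 := by exact_mod_cast hr1
  have hcr : c = c := rfl
  have hsq : (a : ℤ) ^ 2 = r' ^ 2 := by
    have e : b * r' = s' * a := by
      rw [hx1] at hxn
      rw [div_eq_div_iff harq hrq'] at hxn
      exact_mod_cast hxn
    have d1 : a ∣ r' := by
      apply hc1.dvd_of_dvd_mul_left
      rw [e]; exact dvd_mul_left _ _
    have d2 : r' ∣ a := by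
      apply hcop.dvd_of_dvd_mul_left
      rw [← e]; exact dvd_mul_left _ _
    have hrr : a.natAbs = r'.natAbs := Int.natAbs_eq_of_dvd_dvd d1 d2
    rw [← Int.natAbs_sq a, ← Int.natAbs_sq r', hrr]
  have hsqq : (a : ℚ) ^ 2 = (r' : ℚ) ^ 2 := by exact_mod_cast hsq
  refine ⟨r', s', c, ⟨hcop, hp1, hr'0, hxn, ?_⟩, ?_, ?_, ?_⟩
  · rw [hy1, hsqq]
  · rw [hr']; ring
  · rw [hs']; ring
  · have : (c : ℚ) * (g : ℚ) ^ 2 =
      3 * ((r : ℚ) ^ 2 + 8 * s ^ 2) * p + 16 * r * s * ((r : ℚ) ^ 2 + s ^ 2) := by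
      rw [← hyn, hy1, hsqq]
      field_simp
    exact_mod_cast this

/-- the two neighbours -/
theorem rep_neighbours {P : Pt} {r s p : ℤ} (h : Rep P r s p) :
    ∃ r1 s1 p1 r2 s2 p2 : ℤ, Rep P.next r1 s1 p1 ∧ Rep P.prev r2 s2 p2 ∧
      p1 * p2 = 9 * p ^ 2 + 32 * r ^ 2 * s ^ 2 ∧ (Odd s → Even s1 ∧ Even s2) := by
  have heqn := h.eqn
  have hc := h.1
  have hr := h.2.2.1
  have hR := R_ne (s := s) hr
  obtain ⟨r1, s1, p1, hrep1, e1, e2, e3⟩ := rep_next h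
  obtain ⟨r2, s2, p2, hrep2, f1, f2, f3⟩ := rep_next (rep_neg h)
  rw [next_neg] at hrep2
  have hrep2' := rep_neg hrep2
  rw [neg_neg] at hrep2'
  have hg := gcd_mul heqn hc
  have i1 : p + 3 * r * -s = p - 3 * r * s := by ring
  have i2 : r ^ 2 - 8 * (-s) ^ 2 = r ^ 2 - 8 * s ^ 2 := by ring
  rw [i1, i2] at f1 f2 f3
  refine ⟨r1, s1, p1, r2, -s2, p2, hrep1, hrep2', ?_, ?_⟩
  · set g := Int.gcd (p + 3 * r * s) (r ^ 2 - 8 * s ^ 2) with hgdef
    set g' := Int.gcd (p - 3 * r * s) (r ^ 2 - 8 * s ^ 2) with hgdef'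
    have hgg : ((g : ℤ) * g') ^ 2 = (r ^ 2 - 8 * s ^ 2) ^ 2 := by
      rw [← Int.natAbs_sq (r ^ 2 - 8 * s ^ 2), ← hg]
      push_cast; ring
    have hne : (r ^ 2 - 8 * s ^ 2) ^ 2 ≠ 0 := pow_ne_zero 2 hR
    apply mul_right_cancel₀ hne
    have h1 : p1 * p2 * (r ^ 2 - 8 * s ^ 2) ^ 2 = (p1 * (g : ℤ) ^ 2) * (p2 * (g' : ℤ) ^ 2) := by
      rw [← hgg]; ring
    rw [h1, e3, f3]
    linear_combination (288 * r ^ 2 * s ^ 2) * heqn
  · intro hs
    have hro := odd_r heqn hc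
    have hpo := odd_p heqn hc
    obtain ⟨a, ha⟩ := hs
    obtain ⟨b, hb⟩ := hro
    obtain ⟨c, hcc⟩ := hpo
    constructor
    · by_contra hodd
      rw [Int.not_even_iff_odd] at hodd
      have hgodd : Odd ((Int.gcd (p + 3 * r * s) (r ^ 2 - 8 * s ^ 2) : ℤ)) := by
        have : Odd (r ^ 2 - 8 * s ^ 2) := by
          refine ⟨2 * b ^ 2 + 2 * b - 4 * s ^ 2, ?_⟩
          rw [hb]; ring
        rw [← e1] at this; exact (Int.odd_mul.1 this).2
      have : Odd (p + 3 * r * s) := by rw [← e2]; exact hodd.mul hgodd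
      obtain ⟨d, hd⟩ := this
      rw [ha, hb, hcc] at hd
      ring_nf at hd
      omega
    · by_contra hodd
      rw [Int.not_even_iff_odd, odd_neg] at hodd
      have hgodd : Odd ((Int.gcd (p - 3 * r * s) (r ^ 2 - 8 * s ^ 2) : ℤ)) := by
        have : Odd (r ^ 2 - 8 * s ^ 2) := by
          refine ⟨2 * b ^ 2 + 2 * b - 4 * s ^ 2, ?_⟩
          rw [hb]; ring
        rw [← f1] at this; exact (Int.odd_mul.1 this).2
      have : Odd (p - 3 * r * s) := by rw [← f2]; exact hodd.mul hgodd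
      obtain ⟨d, hd⟩ := this
      rw [ha, hb, hcc] at hd
      ring_nf at hd
      omega

end Crest.Agent.R323
end

-- ▼ part R323/Half
section

set_option autoImplicit false

namespace Crest.Agent.R323

/-- coprime factorisation of `2^k c^4`. -/
theorem fourth_split (A B c k : ℕ) (hcop : Nat.Coprime A B) (hodd : Odd A)
    (h : A * B = 2 ^ k * c ^ 4) : ∃ u v : ℕ, A = u ^ 4 ∧ B = 2 ^ k * v ^ 4 ∧ c = u * v := by
  have hA2 : Nat.Coprime (2 ^ k) A := by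
    apply Nat.Coprime.pow_left
    exact (Nat.coprime_two_left).2 hodd
  have hdvd : 2 ^ k ∣ B := by
    have : 2 ^ k ∣ A * B := ⟨_, h⟩
    exact hA2.dvd_of_dvd_mul_left this
  obtain ⟨B', rfl⟩ := hdvd
  have h2 : A * B' = c ^ 4 := by
    have hp : (0:ℕ) < 2 ^ k := by positivity
    apply Nat.eq_of_mul_eq_mul_left hp
    rw [← h]; ring
  have hcop' : Nat.Coprime A B' := Nat.Coprime.coprime_mul_left_right hcop
  have hu1 : IsUnit (gcd A B') := by
    rw [Nat.isUnit_iff]; exact hcop'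
  obtain ⟨u, hu⟩ := exists_eq_pow_of_mul_eq_pow hu1 h2
  have hu2 : IsUnit (gcd B' A) := by
    rw [Nat.isUnit_iff]; exact hcop'.symm
  obtain ⟨v, hv⟩ := exists_eq_pow_of_mul_eq_pow hu2 (by rw [mul_comm]; exact h2)
  refine ⟨u, v, hu, by rw [hv], ?_⟩
  have : c ^ 4 = (u * v) ^ 4 := by rw [← h2, hu, hv]; ring
  exact Nat.pow_left_injective (by norm_num : 4 ≠ 0) this

/-- integer version of `fourth_split`. -/
theorem fourth_split_int (A B c : ℤ) (k : ℕ) (hA : 0 ≤ A) (hB : 0 ≤ B) (hcop : IsCoprime A B)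
    (hodd : Odd A) (h : A * B = 2 ^ k * c ^ 4) :
    ∃ u v : ℕ, A = (u:ℤ) ^ 4 ∧ B = 2 ^ k * (v:ℤ) ^ 4 ∧ (c = u * v ∨ c = -(u * v)) := by
  lift A to ℕ using hA
  lift B to ℕ using hB
  have h1 : A * B = 2 ^ k * c.natAbs ^ 4 := by
    zify
    rw [h]
    congr 1
    rw [← Even.pow_abs (by decide : Even 4) c]
  have hodd' : Odd A := by exact_mod_cast hodd
  obtain ⟨u, v, h2, h3, h4⟩ := fourth_split A B c.natAbs k (Nat.isCoprime_iff_coprime.1 hcop) hodd' h1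
  refine ⟨u, v, by exact_mod_cast h2, by exact_mod_cast h3, ?_⟩
  rcases Int.natAbs_eq c with hc | hc
  · left; rw [hc, h4]; push_cast; ring
  · right; rw [hc, h4]; push_cast; ring

theorem half_of_even (r s p : ℤ) (h : p ^ 2 = r ^ 4 + 8 * s ^ 4) (hc : IsCoprime r s) (hp : 0 < p)
    (hs : Even s) : ∃ u v q : ℤ, q ^ 2 = u ^ 4 + 8 * v ^ 4 ∧ IsCoprime u v ∧ 0 < q ∧
      (s = 2 * u * v * q) ∧ (r = u ^ 4 - 8 * v ^ 4 ∨ r = -(u ^ 4 - 8 * v ^ 4)) ∧
      p = q ^ 4 + 32 * u ^ 4 * v ^ 4 := by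
  obtain ⟨t, ht⟩ := hs
  have hst : s = 2 * t := by rw [ht]; ring
  subst hst
  clear ht
  -- r odd
  have hr2 : IsCoprime r 2 := hc.of_isCoprime_of_dvd_right ⟨t, rfl⟩
  have hrodd : Odd r := by
    rcases Int.even_or_odd r with he | ho
    · exfalso
      obtain ⟨k, hk⟩ := he
      have h2r : (2:ℤ) ∣ r := ⟨k, by rw [hk]; ring⟩
      have h2 := hr2.isUnit_of_dvd' h2r (dvd_refl 2)
      exact absurd h2 (by decide)
    · exact ho
  have hrt : IsCoprime r t := hc.of_isCoprime_of_dvd_right ⟨2, by ring⟩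
  have hpodd : Odd p := by
    have : Odd (p ^ 2) := by
      rw [h]
      exact (hrodd.pow).add_even ⟨4 * (2 * t) ^ 4, by ring⟩
    exact (Int.odd_pow.1 this).resolve_right (by norm_num)
  have hrp : IsCoprime r p := by
    have h8 : IsCoprime r (8 * (2 * t) ^ 4) := by
      have : (8 : ℤ) * (2 * t) ^ 4 = 2 ^ 7 * t ^ 4 := by ring
      rw [this]
      exact (hr2.pow_right).mul_right (hrt.pow_right)
    have h9 : IsCoprime r (p ^ 2) := by
      rw [h]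
      have : r ^ 4 + 8 * (2 * t) ^ 4 = 8 * (2 * t) ^ 4 + r * r ^ 3 := by ring
      rw [this]
      exact h8.add_mul_left_right _
    exact (IsCoprime.pow_right_iff (by norm_num : 0 < 2)).1 h9
  -- squares
  obtain ⟨r', hr'⟩ := hrodd
  obtain ⟨p', hp'⟩ := hpodd
  -- A, B
  obtain ⟨A, hA⟩ : ∃ A : ℤ, p - r ^ 2 = 2 * A := by
    refine ⟨p' - 2 * r' ^ 2 - 2 * r', ?_⟩; rw [hp', hr']; ring
  obtain ⟨B, hB⟩ : ∃ B : ℤ, p + r ^ 2 = 2 * B := by
    refine ⟨p' + 2 * r' ^ 2 + 2 * r' + 1, ?_⟩; rw [hp', hr']; ring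
  have hpr : r ^ 2 ≤ p := by
    have : (r ^ 2) ^ 2 ≤ p ^ 2 := by rw [h]; nlinarith [sq_nonneg ((2 * t) ^ 2)]
    exact le_of_sq_le_sq this hp.le
  have hA0 : 0 ≤ A := by linarith
  have hB0 : 0 ≤ B := by nlinarith [sq_nonneg r]
  have hAB : A * B = 2 ^ 5 * t ^ 4 := by
    have h4 : (2 * A) * (2 * B) = 4 * (2 ^ 5 * t ^ 4) := by
      rw [← hA, ← hB]
      linear_combination h
    linarith
  have hcopAB : IsCoprime A B := by
    obtain ⟨a, b, hab⟩ : IsCoprime p (r ^ 2) := (hrp.symm).pow_right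
    refine ⟨a - b, a + b, ?_⟩
    have e1 : p = A + B := by linarith
    have e2 : r ^ 2 = B - A := by linarith
    rw [e1, e2] at hab
    linarith
  have hABodd : Odd (A + B) := by
    have : A + B = p := by linarith
    rw [this, hp']; exact ⟨p', rfl⟩
  -- exclude A odd
  rcases Int.even_or_odd A with hAe | hAo
  swap
  · exfalso
    obtain ⟨b, a, h1, h2, _⟩ := fourth_split_int A B t 5 hA0 hB0 hcopAB hAo hAB
    have hb : Odd b := by
      have : Odd ((b:ℤ) ^ 4) := by rw [← h1]; exact hAo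
      have := (Int.odd_pow.1 this).resolve_right (by norm_num)
      exact_mod_cast this
    obtain ⟨b', hb'⟩ := hb
    have e2 : r ^ 2 = B - A := by linarith
    rw [h1, h2, hr', hb'] at e2
    push_cast at e2
    have e3 : (2 * r' + 1) ^ 2 % 8 = 1 := by
      have : (2 * r' + 1) ^ 2 = 4 * (r' * (r' + 1)) + 1 := by ring
      obtain ⟨w, hw⟩ := Int.even_mul_succ_self r'
      rw [this, hw]; omega
    have e4 : (2 ^ 5 * (a:ℤ) ^ 4 - (2 * (b':ℤ) + 1) ^ 4) % 8 = 7 := by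
      have : (2 ^ 5 * (a:ℤ) ^ 4 - (2 * (b':ℤ) + 1) ^ 4) =
        8 * (4 * (a:ℤ) ^ 4 - (2 * (b':ℤ) ^ 4 + 4 * (b':ℤ) ^ 3 + 3 * (b':ℤ) ^ 2 + b')) - 1 := by ring
      rw [this]; omega
    rw [e2] at e3
    omega
  have hBo : Odd B := by
    rcases Int.even_or_odd B with hBe | hBo
    · exfalso
      exact (Int.not_odd_iff_even.2 (hAe.add hBe)) hABodd
    · exact hBo
  obtain ⟨b, a, h1, h2, h3⟩ := fourth_split_int B A t 5 hB0 hA0 hcopAB.symm hBo
    (by rw [mul_comm]; exact hAB)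
  have hbo : Odd (b:ℤ) := by
    have : Odd ((b:ℤ) ^ 4) := by rw [← h1]; exact hBo
    exact (Int.odd_pow.1 this).resolve_right (by norm_num)
  obtain ⟨b', hb'⟩ := hbo
  have er : r ^ 2 = (b:ℤ) ^ 4 - 32 * (a:ℤ) ^ 4 := by
    have e2 : r ^ 2 = B - A := by linarith
    rw [e2, h1, h2]; norm_num
  have ep : p = (b:ℤ) ^ 4 + 32 * (a:ℤ) ^ 4 := by
    have e1 : p = A + B := by linarith
    rw [e1, h1, h2]; ring
  have hb0 : (b:ℤ) ≠ 0 := by omega
  have hbpos : 0 < (b:ℤ) := by positivity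
  obtain ⟨C, hC⟩ : ∃ C : ℤ, (b:ℤ) ^ 2 - r = 2 * C := by
    refine ⟨2 * b' ^ 2 + 2 * b' - r', ?_⟩; rw [hb', hr']; ring
  obtain ⟨D, hD⟩ : ∃ D : ℤ, (b:ℤ) ^ 2 + r = 2 * D := by
    refine ⟨2 * b' ^ 2 + 2 * b' + r' + 1, ?_⟩; rw [hb', hr']; ring
  have habs : |r| ≤ (b:ℤ) ^ 2 := by
    apply abs_le_of_sq_le_sq _ (by positivity)
    rw [er]; nlinarith [sq_nonneg ((a:ℤ) ^ 2)]
  have hC0 : 0 ≤ C := by have := (abs_le.1 habs).2; linarith
  have hD0 : 0 ≤ D := by have := (abs_le.1 habs).1; linarith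
  have hCD : C * D = 2 ^ 3 * (a:ℤ) ^ 4 := by
    have h4 : (2 * C) * (2 * D) = 4 * (2 ^ 3 * (a:ℤ) ^ 4) := by
      rw [← hC, ← hD]
      linear_combination (-1) * er
    linarith
  have hcopCD : IsCoprime C D := by
    have hba : IsCoprime ((b:ℤ) ^ 4) (32 * (a:ℤ) ^ 4) := by
      have := hcopAB.symm
      rw [h1, h2] at this
      norm_num at this ⊢
      exact this
    have hbr : IsCoprime ((b:ℤ) ^ 2) r := by
      have : IsCoprime ((b:ℤ) ^ 4) (r ^ 2) := by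
        rw [er]
        have e : (b:ℤ) ^ 4 - 32 * (a:ℤ) ^ 4 = -(32 * (a:ℤ) ^ 4) + (b:ℤ) ^ 4 * 1 := by ring
        rw [e]
        exact (hba.neg_right).add_mul_left_right _
      have h5 : IsCoprime (b:ℤ) r := (IsCoprime.pow_iff (by norm_num) (by norm_num)).1 this
      exact h5.pow_left
    obtain ⟨x, y, hxy⟩ := hbr
    refine ⟨x - y, x + y, ?_⟩
    have e1 : (b:ℤ) ^ 2 = C + D := by linarith
    have e2 : r = D - C := by linarith
    rw [e1, e2] at hxy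
    linarith
  have hCDodd : Odd (C + D) := by
    have : C + D = (b:ℤ) ^ 2 := by linarith
    rw [this, hb']
    exact ⟨2 * b' ^ 2 + 2 * b', by ring⟩
  -- final assembly
  have fin : ∀ u v : ℕ, (b:ℤ) ^ 2 = (u:ℤ) ^ 4 + 8 * (v:ℤ) ^ 4 → ((a:ℤ) = u * v ∨ (a:ℤ) = -(u * v)) →
      IsCoprime (u:ℤ) (v:ℤ) → (r = (u:ℤ) ^ 4 - 8 * (v:ℤ) ^ 4 ∨ r = -((u:ℤ) ^ 4 - 8 * (v:ℤ) ^ 4)) →
      ∃ u v q : ℤ, q ^ 2 = u ^ 4 + 8 * v ^ 4 ∧ IsCoprime u v ∧ 0 < q ∧
      (2 * t = 2 * u * v * q) ∧ (r = u ^ 4 - 8 * v ^ 4 ∨ r = -(u ^ 4 - 8 * v ^ 4)) ∧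
      p = q ^ 4 + 32 * u ^ 4 * v ^ 4 := by
    intro u v hb2 ha huv hr
    have hp4 : p = (b:ℤ) ^ 4 + 32 * (u:ℤ) ^ 4 * (v:ℤ) ^ 4 := by
      rw [ep]
      rcases ha with ha | ha <;> rw [ha] <;> ring
    have ht : t = b * (u * v) ∨ t = -(b * (u * v)) := by
      rcases h3 with h3 | h3 <;> rcases ha with ha | ha <;> rw [ha] at h3
      · left; exact h3
      · right; rw [h3]; ring
      · right; exact h3
      · left; rw [h3]; ring
    rcases ht with ht | ht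
    · exact ⟨u, v, b, hb2, huv, hbpos, by rw [ht]; ring, hr, hp4⟩
    · refine ⟨-u, v, b, by rw [hb2]; ring, huv.neg_left, hbpos, by rw [ht]; ring, ?_, by rw [hp4]; ring⟩
      rcases hr with hr | hr
      · left; rw [hr]; ring
      · right; rw [hr]; ring
  rcases Int.even_or_odd D with hDe | hDo
  · have hCo : Odd C := by
      rcases Int.even_or_odd C with hCe | hCo
      · exfalso
        exact (Int.not_odd_iff_even.2 (hCe.add hDe)) hCDodd
      · exact hCo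
    obtain ⟨u, v, g1, g2, g3⟩ := fourth_split_int C D a 3 hC0 hD0 hcopCD hCo hCD
    refine fin u v ?_ ?_ ?_ (Or.inr ?_)
    · have : (b:ℤ) ^ 2 = C + D := by linarith
      rw [this, g1, g2]; norm_num
    · exact g3
    · rw [g1, g2] at hcopCD
      have := (IsCoprime.of_mul_right_right hcopCD)
      exact (IsCoprime.pow_iff (by norm_num) (by norm_num)).1 this
    · have : r = D - C := by linarith
      rw [this, g1, g2]; ring
  · obtain ⟨u, v, g1, g2, g3⟩ := fourth_split_int D C a 3 hD0 hC0 hcopCD.symm hDo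
      (by rw [mul_comm]; exact hCD)
    refine fin u v ?_ ?_ ?_ (Or.inl ?_)
    · have : (b:ℤ) ^ 2 = C + D := by linarith
      rw [this, g1, g2]; ring
    · exact g3
    · have hcop2 := hcopCD.symm
      rw [g1, g2] at hcop2
      have := (IsCoprime.of_mul_right_right hcop2)
      exact (IsCoprime.pow_iff (by norm_num) (by norm_num)).1 this
    · have : r = D - C := by linarith
      rw [this, g1, g2]; ring

end Crest.Agent.R323
end

-- ▼ part R323/Ell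

/-!
# Part 1: all coprime solutions of `p^2 = r^4 + 8 s^4` are the multiples of `(1,1,3)`.
-/

set_option autoImplicit false

namespace Crest.Agent.R323

open Pt

/-- two points with the same x coordinate up to sign -/
theorem eq_or_eq_neg {P Q : Pt} (h : P.x = Q.x ∨ P.x = -Q.x) : P = Q ∨ P = Q.neg := by
  rcases h with h | h
  · exact Or.inl (ext_x h)
  · exact Or.inr (ext_x h)

theorem half_point {Q : Pt} {r s p : ℤ} (h : Rep Q r s p) (hs : Even s) :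
    ∃ (Q' : Pt) (u v q : ℤ), Rep Q' u v q ∧ (Q = Q'.dbl ∨ Q = Q'.dbl.neg) ∧
      s = 2 * u * v * q ∧ p = q ^ 4 + 32 * u ^ 4 * v ^ 4 := by
  obtain ⟨hc, hp, hr0, hx, hy⟩ := id h
  obtain ⟨u, v, q, h1, h2, h3, h4, h5, h6⟩ := half_of_even r s p h.eqn hc hp hs
  obtain ⟨Q', hQ'⟩ := exists_pt h1 h2 h3
  refine ⟨Q', u, v, q, hQ', ?_, h4, h6⟩
  apply eq_or_eq_neg
  obtain ⟨_, _, hu0, hx', hy'⟩ := hQ'
  have hd : Q'.dbl.x = 2 * Q'.x * Q'.y / (1 - 8 * Q'.x ^ 4) := rfl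
  have hu : (u : ℚ) ≠ 0 := by exact_mod_cast hu0
  have h7 : Q'.dbl.x = (2 * u * v * q : ℚ) / (u ^ 4 - 8 * v ^ 4) := by
    rw [hd]
    have hne := one_sub_ne' Q'.x
    have hne2 : ((u:ℚ) ^ 4 - 8 * v ^ 4) ≠ 0 := by
      intro h0
      apply hne
      rw [hx']
      field_simp
      linear_combination h0
    rw [div_eq_div_iff hne hne2, hx', hy']
    field_simp
  rw [hx, h7, h4]
  rcases h5 with h5 | h5 <;> rw [h5]
  · left
    push_cast
    rfl
  · right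
    push_cast
    rw [div_neg]

/-- every point is a multiple of `(1,3)` -/
theorem mw_aux (n : ℕ) : ∀ (Q : Pt) (r s p : ℤ), Rep Q r s p → p.toNat = n → ∃ k : ℤ, Q = pt k := by
  induction n using Nat.strong_induction_on with
  | _ n ih =>
    intro Q r s p h hn
    have hp : 0 < p := h.2.1
    have hr0 : r ≠ 0 := h.2.2.1
    have heq := h.eqn
    by_cases hs0 : s = 0
    · refine ⟨0, ?_⟩
      rw [pt_zero]
      apply ext_x
      rw [h.2.2.2.1, hs0]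
      simp [O]
    have hs4 : 0 < s ^ 4 := by positivity
    have hp2 : 1 < p := by
      by_contra hle
      have : p = 1 := by omega
      rw [this] at heq
      have : 0 ≤ r ^ 4 := by positivity
      linarith
    have step : ∀ (Q' : Pt) (u v q : ℤ), Rep Q' u v q → q < p → ∃ k : ℤ, Q' = pt k := by
      intro Q' u v q hrep hlt
      have hq := hrep.2.1
      exact ih q.toNat (by omega) Q' u v q hrep rfl
    have conc : ∀ (Q1 Q' : Pt), (Q1 = Q'.dbl ∨ Q1 = Q'.dbl.neg) → (∃ k : ℤ, Q' = pt k) →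
        ∃ k : ℤ, Q1 = pt k := by
      intro Q1 Q' h1 h2
      obtain ⟨k, rfl⟩ := h2
      rcases h1 with h1 | h1
      · exact ⟨2 * k, by rw [h1, pt_dbl]⟩
      · exact ⟨-(2 * k), by rw [h1, pt_dbl, pt_neg]⟩
    rcases Int.even_or_odd s with hse | hso
    · obtain ⟨Q', u, v, q, h1, h2, h3, h4⟩ := half_point h hse
      apply conc Q Q' h2
      apply step Q' u v q h1
      have hq := h1.2.1
      have hu : u ≠ 0 := h1.2.2.1
      have hv : v ≠ 0 := by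
        rintro rfl
        apply hs0; rw [h3]; ring
      have h5 : 0 < u ^ 4 * v ^ 4 := by positivity
      have h6 : q ≤ q ^ 4 := by
        have : (1:ℤ) ≤ q ^ 3 := one_le_pow₀ (by omega)
        nlinarith
      rw [h4]; linarith
    · obtain ⟨r1, s1, p1, r2, s2, p2, h1, h2, h3, h4⟩ := rep_neighbours h
      obtain ⟨he1, he2⟩ := h4 hso
      have hp1 := h1.2.1
      have hp2' := h2.2.1
      have h15 : p1 * p2 ≤ 15 * p ^ 2 := by
        rw [h3]
        nlinarith [sq_nonneg (3 * r ^ 2 - 8 * s ^ 2)]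
      have small : ∀ (Q1 : Pt) (ra sa pa : ℤ), Rep Q1 ra sa pa → Even sa → pa ^ 2 ≤ 15 * p ^ 2 →
          ∃ k : ℤ, Q1 = pt k := by
        intro Q1 ra sa pa ha hea hle
        obtain ⟨Q', u, v, q, g1, g2, g3, g4⟩ := half_point ha hea
        apply conc Q1 Q' g2
        apply step Q' u v q g1
        have hq := g1.2.1
        have hpa := ha.2.1
        have h4p : pa < 4 * p := by
          apply lt_of_pow_lt_pow_left₀ 2 (by positivity)
          nlinarith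
        have hq4 : q ^ 4 < 4 * p := by
          have : 0 ≤ 32 * u ^ 4 * v ^ 4 := by positivity
          linarith
        by_contra hge
        push Not at hge
        have h8 : 2 ≤ q := by omega
        have h9 : 8 ≤ q ^ 3 := by
          calc (8:ℤ) = 2 ^ 3 := by norm_num
            _ ≤ q ^ 3 := by gcongr
        nlinarith
      rcases le_total p1 p2 with hle | hle
      · obtain ⟨k, hk⟩ := small Q.next r1 s1 p1 h1 he1 (by nlinarith)
        refine ⟨k - 1, ?_⟩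
        rw [pt_sub_one, ← hk, prev_next]
      · obtain ⟨k, hk⟩ := small Q.prev r2 s2 p2 h2 he2 (by nlinarith)
        refine ⟨k + 1, ?_⟩
        rw [pt_add_one, ← hk, next_prev]

/-- every point is a multiple of `(1,3)` -/
theorem mw (Q : Pt) : ∃ k : ℤ, Q = pt k := by
  obtain ⟨r, s, p, h, _⟩ := exists_rep Q
  exact mw_aux _ Q r s p h rfl

/-- adjacency in terms of coordinates -/
theorem adj_iff_x (P Q : Pt) :
    (P.x ^ 2 + Q.x ^ 2 - 8 * P.x ^ 2 * Q.x ^ 2 - 1) ^ 2 = 36 * P.x ^ 2 * Q.x ^ 2 ↔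
      (Q = P.next ∨ Q = P.prev ∨ Q = P.next.neg ∨ Q = P.prev.neg) := by
  have h0 := one_sub_ne P.x
  have h := P.h
  have hn : P.next.x = (3 * P.x + P.y) / (1 - 8 * P.x ^ 2) := rfl
  have hp : P.prev.x = (3 * P.x - P.y) / (1 - 8 * P.x ^ 2) := rfl
  have hn' : P.next.neg.x = -P.next.x := rfl
  have hp' : P.prev.neg.x = -P.prev.x := rfl
  have key : ∀ z : ℚ, (1 - 8 * P.x ^ 2) * ((z - P.next.x) * (z - P.prev.x)) =
      (1 - 8 * P.x ^ 2) * z ^ 2 - 6 * P.x * z + (P.x ^ 2 - 1) := by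
    intro z
    rw [hn, hp]
    generalize hd : 1 - 8 * P.x ^ 2 = d at h0 ⊢
    field_simp
    subst hd
    linear_combination (-1) * h
  have e1 : (P.x ^ 2 + Q.x ^ 2 - 8 * P.x ^ 2 * Q.x ^ 2 - 1) ^ 2 - 36 * P.x ^ 2 * Q.x ^ 2 =
      ((1 - 8 * P.x ^ 2) * ((Q.x - P.next.x) * (Q.x - P.prev.x))) *
      ((1 - 8 * P.x ^ 2) * ((-Q.x - P.next.x) * (-Q.x - P.prev.x))) := by
    rw [key, key]; ring
  constructor
  · intro h1
    have h2 : (P.x ^ 2 + Q.x ^ 2 - 8 * P.x ^ 2 * Q.x ^ 2 - 1) ^ 2 - 36 * P.x ^ 2 * Q.x ^ 2 = 0 :=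
      sub_eq_zero.2 h1
    rw [e1] at h2
    rcases mul_eq_zero.1 h2 with h3 | h3
    · rcases mul_eq_zero.1 ((mul_eq_zero.1 h3).resolve_left h0) with h4 | h4
      · exact Or.inl (ext_x (by linarith))
      · exact Or.inr (Or.inl (ext_x (by linarith)))
    · rcases mul_eq_zero.1 ((mul_eq_zero.1 h3).resolve_left h0) with h4 | h4
      · exact Or.inr (Or.inr (Or.inl (ext_x (by rw [hn']; linarith))))
      · exact Or.inr (Or.inr (Or.inr (ext_x (by rw [hp']; linarith))))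
  · intro h1
    apply sub_eq_zero.1
    rw [e1]
    rcases h1 with h1 | h1 | h1 | h1
    · rw [h1]; ring
    · rw [h1]; ring
    · have : Q.x = -P.next.x := by rw [h1, hn']
      rw [this]; ring
    · have : Q.x = -P.prev.x := by rw [h1, hp']
      rw [this]; ring

theorem adj_iff {P Q : Pt} {r s p r' s' p' : ℤ} (h : Rep P r s p) (h' : Rep Q r' s' p') :
    (s ^ 2 * r' ^ 2 + s' ^ 2 * r ^ 2 - 8 * s ^ 2 * s' ^ 2 - r ^ 2 * r' ^ 2) ^ 2 =
      36 * r ^ 2 * s ^ 2 * r' ^ 2 * s' ^ 2 ↔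
      (Q = P.next ∨ Q = P.prev ∨ Q = P.next.neg ∨ Q = P.prev.neg) := by
  rw [← adj_iff_x]
  obtain ⟨_, _, hr, hx, _⟩ := h
  obtain ⟨_, _, hr', hx', _⟩ := h'
  have hr1 : (r : ℚ) ≠ 0 := by exact_mod_cast hr
  have hr1' : (r' : ℚ) ≠ 0 := by exact_mod_cast hr'
  rw [hx, hx']
  have e : ((s / r : ℚ) ^ 2 + (s' / r' : ℚ) ^ 2 - 8 * (s / r : ℚ) ^ 2 * (s' / r' : ℚ) ^ 2 - 1) ^ 2 -
      36 * (s / r : ℚ) ^ 2 * (s' / r' : ℚ) ^ 2 =
      (((s : ℚ) ^ 2 * r' ^ 2 + s' ^ 2 * r ^ 2 - 8 * s ^ 2 * s' ^ 2 - r ^ 2 * r' ^ 2) ^ 2 -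
      36 * r ^ 2 * s ^ 2 * r' ^ 2 * s' ^ 2) / ((r : ℚ) ^ 4 * (r' : ℚ) ^ 4) := by
    field_simp
  constructor
  · intro h1
    apply sub_eq_zero.1
    rw [e]
    have h2 : (((s : ℚ) ^ 2 * r' ^ 2 + s' ^ 2 * r ^ 2 - 8 * s ^ 2 * s' ^ 2 - r ^ 2 * r' ^ 2) ^ 2 =
      36 * r ^ 2 * s ^ 2 * r' ^ 2 * s' ^ 2) := by exact_mod_cast h1
    rw [h2, sub_self, zero_div]
  · intro h1
    have h2 := sub_eq_zero.2 h1
    rw [e, div_eq_zero_iff] at h2
    have h3 : ((r : ℚ) ^ 4 * (r' : ℚ) ^ 4) ≠ 0 := by positivity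
    have h4 := sub_eq_zero.1 (h2.resolve_right h3)
    exact_mod_cast h4

/-- chosen representatives -/
theorem exists_seq : ∃ r s p : ℕ → ℤ, ∀ k : ℕ, Rep (pt k) (r k) (s k) (p k) := by
  have : ∀ k : ℕ, ∃ t : ℤ × ℤ × ℤ, Rep (pt k) t.1 t.2.1 t.2.2 := by
    intro k
    obtain ⟨r, s, p, h, _⟩ := exists_rep (pt k)
    exact ⟨(r, s, p), h⟩
  choose t ht using this
  exact ⟨fun k => (t k).1, fun k => (t k).2.1, fun k => (t k).2.2, ht⟩

theorem rep_O : Rep (pt ((0 : ℕ) : ℤ)) 1 0 1 := by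
  refine ⟨isCoprime_one_left, by norm_num, by norm_num, ?_, ?_⟩
  · simp [pt_zero, O]
  · simp [pt_zero, O]

theorem rep_one : Rep (pt ((1 : ℕ) : ℤ)) 1 1 3 := by
  have : pt ((1 : ℕ) : ℤ) = O.next := by
    rw [Nat.cast_one, ← zero_add (1:ℤ), pt_add_one, pt_zero]
  refine ⟨isCoprime_one_left, by norm_num, by norm_num, ?_, ?_⟩
  · rw [this]; simp [next, O]
  · rw [this]; simp [next, O]

/-- adjacency of pairs of naturals -/
def EAdj (a b a1 b1 : ℕ) : Prop :=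
  ((b:ℤ) ^ 2 * (a1:ℤ) ^ 2 + (b1:ℤ) ^ 2 * (a:ℤ) ^ 2 - 8 * (b:ℤ) ^ 2 * (b1:ℤ) ^ 2 -
    (a:ℤ) ^ 2 * (a1:ℤ) ^ 2) ^ 2 = 36 * (a:ℤ) ^ 2 * (b:ℤ) ^ 2 * (a1:ℤ) ^ 2 * (b1:ℤ) ^ 2

theorem ell_main : ∃ a b p : ℕ → ℕ, a 0 = 1 ∧ b 0 = 0 ∧ p 0 = 1 ∧ p 1 = 3 ∧
    (∀ k, p k ^ 2 = a k ^ 4 + 8 * b k ^ 4 ∧ Nat.Coprime (a k) (b k)) ∧
    (∀ a1 b1 p1 : ℕ, p1 ^ 2 = a1 ^ 4 + 8 * b1 ^ 4 → Nat.Coprime a1 b1 →
      ∃ k, a1 = a k ∧ b1 = b k ∧ p1 = p k) ∧
    (∀ j k, EAdj (a j) (b j) (a k) (b k) ↔ (j = k + 1 ∨ k = j + 1)) ∧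
    (∀ k, 9 * p (k + 1) ^ 2 ≤ p (k + 2) * p k ∧ p (k + 2) * p k ≤ 15 * p (k + 1) ^ 2) := by
  obtain ⟨r, s, p, hrep⟩ := exists_seq
  have hpos : ∀ k, 0 < p k := fun k => (hrep k).2.1
  have heqn : ∀ k, p k ^ 2 = r k ^ 4 + 8 * s k ^ 4 := fun k => (hrep k).eqn
  have h0 := rep_unique (hrep 0) rep_O
  have h1 := rep_unique (hrep 1) rep_one
  -- neighbours
  have hnb : ∀ k : ℕ, 9 * p (k + 1) ^ 2 ≤ p (k + 2) * p k ∧
      p (k + 2) * p k ≤ 15 * p (k + 1) ^ 2 := by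
    intro k
    obtain ⟨r1, s1, p1, r2, s2, p2, g1, g2, g3, _⟩ := rep_neighbours (hrep (k + 1))
    have e1 : (pt ((k + 1 : ℕ) : ℤ)).next = pt ((k + 2 : ℕ) : ℤ) := by
      rw [← pt_add_one]; congr 1
    have e2 : (pt ((k + 1 : ℕ) : ℤ)).prev = pt ((k : ℕ) : ℤ) := by
      rw [← pt_sub_one]; congr 1; push_cast; ring
    rw [e1] at g1
    rw [e2] at g2
    have f1 := (rep_unique (hrep (k + 2)) g1).2.2
    have f2 := (rep_unique (hrep k) g2).2.2
    rw [f1, f2, g3]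
    have := heqn (k + 1)
    constructor
    · have : 0 ≤ 32 * r (k + 1) ^ 2 * s (k + 1) ^ 2 := by positivity
      linarith
    · nlinarith [sq_nonneg (3 * r (k + 1) ^ 2 - 8 * s (k + 1) ^ 2), sq_nonneg (s (k + 1) ^ 2)]
  have hmono : StrictMono p := by
    apply strictMono_nat_of_lt_succ
    intro k
    induction k with
    | zero => rw [h0.2.2, zero_add, h1.2.2]; norm_num
    | succ k ih =>
      have h2 := (hnb k).1
      have h3 := hpos k
      have h4 := hpos (k + 1)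
      have h5 := hpos (k + 2)
      show p (k + 1) < p (k + 2)
      by_contra hle
      push Not at hle
      have h6 : p (k + 2) * p k ≤ p (k + 1) * p (k + 1) := by
        apply mul_le_mul hle ih.le h3.le h4.le
      nlinarith
  -- representation of integers multiples
  have habs : ∀ (m : ℤ) (r' s' p' : ℤ), Rep (pt m) r' s' p' →
      (r m.natAbs).natAbs = r'.natAbs ∧ (s m.natAbs).natAbs = s'.natAbs ∧ p m.natAbs = p' := by
    intro m r' s' p' hm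
    rcases Int.natAbs_eq m with h2 | h2
    · rw [h2] at hm
      exact rep_unique (hrep _) hm
    · rw [h2, pt_neg] at hm
      have h3 := rep_neg hm
      rw [Pt.neg_neg] at h3
      have h4 := rep_unique (hrep _) h3
      rwa [Int.natAbs_neg] at h4
  have hinj1 : ∀ m n : ℤ, pt m = pt n → m.natAbs = n.natAbs := by
    intro m n hmn
    apply hmono.injective
    obtain ⟨r', s', p', h2, _⟩ := exists_rep (pt m)
    have h3 := (habs m _ _ _ h2).2.2
    rw [hmn] at h2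
    have h4 := (habs n _ _ _ h2).2.2
    rw [h3, h4]
  have hinj : ∀ m n : ℤ, pt m = pt n → m = n := by
    intro m n hmn
    rcases Int.natAbs_eq_natAbs_iff.1 (hinj1 m n hmn) with h2 | h2
    · exact h2
    · have h3 : pt m = (pt m).neg := by
        rw [← pt_neg, h2, _root_.neg_neg, ← hmn, h2]
      have h4 : (pt m).x = -(pt m).x := congrArg Pt.x h3
      have h5 : (pt m).x = (pt 0).x := by
        rw [pt_zero]
        show (pt m).x = 0
        linarith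
      have h6 := hinj1 _ _ (ext_x h5)
      omega
  refine ⟨fun k => (r k).natAbs, fun k => (s k).natAbs, fun k => (p k).toNat, ?_, ?_, ?_, ?_, ?_,
    ?_, ?_, ?_⟩
  · show (r 0).natAbs = 1
    rw [h0.1]; rfl
  · show (s 0).natAbs = 0
    rw [h0.2.1]; rfl
  · show (p 0).toNat = 1
    rw [h0.2.2]; rfl
  · show (p 1).toNat = 3
    rw [h1.2.2]; rfl
  · intro k
    constructor
    · zify
      rw [Int.toNat_of_nonneg (hpos k).le, heqn k, Even.pow_abs (by decide), Even.pow_abs (by decide)]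
    · exact Int.isCoprime_iff_gcd_eq_one.1 (hrep k).1
  · intro a1 b1 p1 he hc
    have hp1 : 0 < p1 := by
      rcases Nat.eq_zero_or_pos p1 with h2 | h2
      · exfalso
        rw [h2] at he
        have h3 : a1 ^ 4 = 0 := by omega
        have h4 : b1 ^ 4 = 0 := by omega
        have h5 : a1 = 0 := by simpa using h3
        have h6 : b1 = 0 := by simpa using h4
        rw [h5, h6] at hc
        norm_num at hc
      · exact h2
    obtain ⟨P, hP⟩ := exists_pt (r := a1) (s := b1) (p := p1) (by exact_mod_cast he)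
      (Nat.isCoprime_iff_coprime.2 hc) (by exact_mod_cast hp1)
    obtain ⟨m, rfl⟩ := mw P
    obtain ⟨h2, h3, h4⟩ := habs m _ _ _ hP
    refine ⟨m.natAbs, ?_, ?_, ?_⟩
    · show a1 = (r m.natAbs).natAbs
      rw [h2]; rfl
    · show b1 = (s m.natAbs).natAbs
      rw [h3]; rfl
    · show p1 = (p m.natAbs).toNat
      rw [h4]; rfl
  · intro j k
    have h2 := adj_iff (hrep j) (hrep k)
    have h3 : EAdj (r j).natAbs (s j).natAbs (r k).natAbs (s k).natAbs ↔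
        (s j ^ 2 * r k ^ 2 + s k ^ 2 * r j ^ 2 - 8 * s j ^ 2 * s k ^ 2 - r j ^ 2 * r k ^ 2) ^ 2 =
      36 * r j ^ 2 * s j ^ 2 * r k ^ 2 * s k ^ 2 := by
      unfold EAdj
      simp only [Int.natCast_natAbs, sq_abs]
    show EAdj (r j).natAbs (s j).natAbs (r k).natAbs (s k).natAbs ↔ _
    rw [h3, h2]
    have e1 : (pt (j:ℤ)).next = pt ((j:ℤ) + 1) := (pt_add_one _).symm
    have e2 : (pt (j:ℤ)).prev = pt ((j:ℤ) - 1) := (pt_sub_one _).symm
    rw [e1, e2, ← pt_neg, ← pt_neg]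
    constructor
    · rintro (h4 | h4 | h4 | h4) <;> have h5 := hinj _ _ h4 <;> omega
    · rintro (h4 | h4)
      · right; left; congr 1; omega
      · left; congr 1; omega
  · intro k
    obtain ⟨h2, h3⟩ := hnb k
    constructor
    · zify
      show 9 * ((p (k + 1)).toNat : ℤ) ^ 2 ≤ ((p (k + 2)).toNat : ℤ) * ((p k).toNat : ℤ)
      rw [Int.toNat_of_nonneg (hpos k).le, Int.toNat_of_nonneg (hpos _).le,
        Int.toNat_of_nonneg (hpos _).le]
      exact h2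
    · zify
      show ((p (k + 2)).toNat : ℤ) * ((p k).toNat : ℤ) ≤ 15 * ((p (k + 1)).toNat : ℤ) ^ 2
      rw [Int.toNat_of_nonneg (hpos k).le, Int.toNat_of_nonneg (hpos _).le,
        Int.toNat_of_nonneg (hpos _).le]
      exact h3

end Crest.Agent.R323
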