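import Mathlib
import Crest.Agent.R323.Cert
import Crest.Agent.R323.PowOfJR_Mg
import Crest.Agent.R323.Ell

-- ▼ part R323/SF
section

/-!
# Single-fold Diophantine predicates: framework (S0500)

`SFP p` : the predicate `p` on environments `ι → ℕ` has a single-fold Diophantine representation.
`SFF f` : the function `f` has a single-fold Diophantine graph.
-/

set_option autoImplicit false

namespace Crest.Agent.R323

open MvPolynomial

/-- evaluation of an integer polynomial at an environment of naturals -/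
noncomputable def ev {ι : Type} (F : MvPolynomial ι ℤ) (v : ι → ℕ) : ℤ :=
  MvPolynomial.eval (fun i => (v i : ℤ)) F

/-- `f` is an integer polynomial function of the environment -/
def PolyFn {ι : Type} (f : (ι → ℕ) → ℤ) : Prop :=
  ∃ F : MvPolynomial ι ℤ, ∀ v, f v = ev F v

/-- single-fold Diophantine predicate on environments `ι → ℕ` -/
def SFP {ι : Type} (p : (ι → ℕ) → Prop) : Prop :=
  ∃ (m : ℕ) (F : MvPolynomial (ι ⊕ Fin m) ℤ),
    (∀ v : ι → ℕ, p v ↔ ∃ w : Fin m → ℕ, ev F (Sum.elim v w) = 0) ∧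
    (∀ (v : ι → ℕ) (w w' : Fin m → ℕ),
      ev F (Sum.elim v w) = 0 → ev F (Sum.elim v w') = 0 → w = w')

/-- single-fold Diophantine function on environments `ι → ℕ`; environment of the graph is
`Option ι → ℕ`, the value being `v none`. -/
def SFF {ι : Type} (f : (ι → ℕ) → ℕ) : Prop :=
  SFP (fun v : Option ι → ℕ => v none = f (fun i => v (some i)))

section PolyFn

variable {ι κ : Type}

theorem PolyFn.const (c : ℤ) : PolyFn (fun _ : ι → ℕ => c) :=
  ⟨C c, fun v => by simp [ev]⟩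

theorem PolyFn.proj (i : ι) : PolyFn (fun v : ι → ℕ => (v i : ℤ)) :=
  ⟨X i, fun v => by simp [ev]⟩

theorem PolyFn.add {f g : (ι → ℕ) → ℤ} (hf : PolyFn f) (hg : PolyFn g) :
    PolyFn (fun v => f v + g v) := by
  obtain ⟨F, hF⟩ := hf
  obtain ⟨G, hG⟩ := hg
  exact ⟨F + G, fun v => by simp [ev, hF, hG]⟩

theorem PolyFn.sub {f g : (ι → ℕ) → ℤ} (hf : PolyFn f) (hg : PolyFn g) :
    PolyFn (fun v => f v - g v) := by
  obtain ⟨F, hF⟩ := hf
  obtain ⟨G, hG⟩ := hg
  exact ⟨F - G, fun v => by simp [ev, hF, hG]⟩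

theorem PolyFn.mul {f g : (ι → ℕ) → ℤ} (hf : PolyFn f) (hg : PolyFn g) :
    PolyFn (fun v => f v * g v) := by
  obtain ⟨F, hF⟩ := hf
  obtain ⟨G, hG⟩ := hg
  exact ⟨F * G, fun v => by simp [ev, hF, hG]⟩

theorem PolyFn.neg {f : (ι → ℕ) → ℤ} (hf : PolyFn f) : PolyFn (fun v => - f v) := by
  obtain ⟨F, hF⟩ := hf
  exact ⟨-F, fun v => by simp [ev, hF]⟩

theorem PolyFn.pow {f : (ι → ℕ) → ℤ} (hf : PolyFn f) (n : ℕ) : PolyFn (fun v => f v ^ n) := by
  obtain ⟨F, hF⟩ := hf
  exact ⟨F ^ n, fun v => by simp [ev, hF]⟩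

theorem PolyFn.reindex (g : ι → κ) {f : (ι → ℕ) → ℤ} (hf : PolyFn f) :
    PolyFn (fun v : κ → ℕ => f (fun i => v (g i))) := by
  obtain ⟨F, hF⟩ := hf
  refine ⟨rename g F, fun v => ?_⟩
  change f (fun i => v (g i)) = _
  rw [hF]
  simp only [ev, eval_rename]
  rfl

theorem PolyFn.sum {α : Type} (s : Finset α) {f : α → (ι → ℕ) → ℤ} (hf : ∀ a ∈ s, PolyFn (f a)) :
    PolyFn (fun v => ∑ a ∈ s, f a v) := by
  classical
  induction s using Finset.induction_on with
  | empty => simpa using PolyFn.const (ι := ι) 0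
  | insert a s ha ih =>
    have h1 := hf a (Finset.mem_insert_self a s)
    have h2 := ih (fun b hb => hf b (Finset.mem_insert_of_mem hb))
    have := h1.add h2
    refine (?_ : PolyFn _)
    convert this using 2 with v
    rw [Finset.sum_insert ha]

end PolyFn

section SFP

variable {ι κ : Type}

/-- constructor with an arbitrary finite type of witnesses and semantic polynomial function -/
theorem SFP.mk' [Finite κ] {p : (ι → ℕ) → Prop} (f : (ι ⊕ κ → ℕ) → ℤ) (hf : PolyFn f)
    (h1 : ∀ v, p v ↔ ∃ w : κ → ℕ, f (Sum.elim v w) = 0)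
    (h2 : ∀ v (w w' : κ → ℕ), f (Sum.elim v w) = 0 → f (Sum.elim v w') = 0 → w = w') :
    SFP p := by
  obtain ⟨m, ⟨e⟩⟩ := Finite.exists_equiv_fin κ
  obtain ⟨F, hF⟩ := hf
  refine ⟨m, rename (Sum.map id e) F, ?_, ?_⟩
  · intro v
    rw [h1]
    have key : ∀ w : Fin m → ℕ, ev (rename (Sum.map id e) F) (Sum.elim v w) =
        f (Sum.elim v (w ∘ e)) := by
      intro w
      rw [hF]
      simp only [ev, eval_rename]
      have : ((fun i => ((Sum.elim v w : ι ⊕ Fin m → ℕ) i : ℤ)) ∘ Sum.map id e) =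
          (fun i => ((Sum.elim v (w ∘ e) : ι ⊕ κ → ℕ) i : ℤ)) := by
        funext i
        cases i <;> simp
      rw [this]
    constructor
    · rintro ⟨w, hw⟩
      refine ⟨w ∘ e.symm, ?_⟩
      rw [key]
      simpa [Function.comp_assoc] using hw
    · rintro ⟨w, hw⟩
      rw [key] at hw
      exact ⟨_, hw⟩
  · intro v w w' hw hw'
    have key : ∀ w : Fin m → ℕ, ev (rename (Sum.map id e) F) (Sum.elim v w) =
        f (Sum.elim v (w ∘ e)) := by
      intro w
      rw [hF]
      simp only [ev, eval_rename]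
      have : ((fun i => ((Sum.elim v w : ι ⊕ Fin m → ℕ) i : ℤ)) ∘ Sum.map id e) =
          (fun i => ((Sum.elim v (w ∘ e) : ι ⊕ κ → ℕ) i : ℤ)) := by
        funext i
        cases i <;> simp
      rw [this]
    rw [key] at hw hw'
    have := h2 v _ _ hw hw'
    ext i
    have := congrFun this (e.symm i)
    simpa using this

theorem SFP.elim {p : (ι → ℕ) → Prop} (hp : SFP p) :
    ∃ (m : ℕ) (f : (ι ⊕ Fin m → ℕ) → ℤ), PolyFn f ∧
      (∀ v, p v ↔ ∃ w : Fin m → ℕ, f (Sum.elim v w) = 0) ∧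
      (∀ v (w w' : Fin m → ℕ), f (Sum.elim v w) = 0 → f (Sum.elim v w') = 0 → w = w') := by
  obtain ⟨m, F, h1, h2⟩ := hp
  exact ⟨m, fun v => ev F v, ⟨F, fun _ => rfl⟩, h1, h2⟩

theorem SFP.congr {p q : (ι → ℕ) → Prop} (hp : SFP p) (h : ∀ v, q v ↔ p v) : SFP q := by
  have : q = p := funext fun v => propext (h v)
  rw [this]; exact hp

theorem SFF.congr {f g : (ι → ℕ) → ℕ} (hf : SFF f) (h : ∀ v, g v = f v) : SFF g := by
  have : g = f := funext h
  rw [this]; exact hf

/-- unique existential over a finite block of variables -/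
theorem SFP.exBlock [Finite κ] {q : (ι ⊕ κ → ℕ) → Prop} (hq : SFP q)
    (hu : ∀ v (y y' : κ → ℕ), q (Sum.elim v y) → q (Sum.elim v y') → y = y') :
    SFP (fun v : ι → ℕ => ∃ y : κ → ℕ, q (Sum.elim v y)) := by
  obtain ⟨m, f, hf, h1, h2⟩ := hq.elim
  refine SFP.mk' (κ := κ ⊕ Fin m)
    (fun v => f (fun i => v ((Equiv.sumAssoc ι κ (Fin m)) i))) ?_ ?_ ?_
  · exact hf.reindex _
  · intro v
    constructor
    · rintro ⟨y, hy⟩
      obtain ⟨w, hw⟩ := (h1 _).1 hy
      refine ⟨Sum.elim y w, ?_⟩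
      convert hw using 2
      ext i
      rcases i with (i | i) | i <;> rfl
    · rintro ⟨w, hw⟩
      refine ⟨fun i => w (Sum.inl i), (h1 _).2 ⟨fun i => w (Sum.inr i), ?_⟩⟩
      convert hw using 2
      ext i
      rcases i with (i | i) | i <;> rfl
  · intro v w w' hw hw'
    have e1 : ∀ w : κ ⊕ Fin m → ℕ, (fun i => (Sum.elim v w : ι ⊕ κ ⊕ Fin m → ℕ)
        ((Equiv.sumAssoc ι κ (Fin m)) i)) =
        Sum.elim (Sum.elim v (fun i => w (Sum.inl i))) (fun i => w (Sum.inr i)) := by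
      intro w
      ext i
      rcases i with (i | i) | i <;> rfl
    simp only [e1] at hw hw'
    have hy : (fun i => w (Sum.inl i)) = (fun i => w' (Sum.inl i)) :=
      hu v _ _ ((h1 _).2 ⟨_, hw⟩) ((h1 _).2 ⟨_, hw'⟩)
    rw [← hy] at hw'
    have hz := h2 _ _ _ hw hw'
    ext i
    rcases i with i | i
    · exact congrFun hy i
    · exact congrFun hz i

/-- reindexing of the environment -/
theorem SFP.reindex (g : ι → κ) {p : (ι → ℕ) → Prop} (hp : SFP p) :
    SFP (fun v : κ → ℕ => p (fun i => v (g i))) := by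
  obtain ⟨m, f, hf, h1, h2⟩ := hp.elim
  have e1 : ∀ (v : κ → ℕ) (w : Fin m → ℕ), (fun i => (Sum.elim v w : κ ⊕ Fin m → ℕ) (Sum.map g id i)) =
      Sum.elim (fun i => v (g i)) w := by
    intro v w
    ext i
    rcases i with i | i <;> rfl
  refine SFP.mk' (κ := Fin m) (fun v => f (fun i => v (Sum.map g id i))) (hf.reindex _) ?_ ?_
  · intro v
    rw [h1]
    simp only [e1]
  · intro v w w' hw hw'
    simp only [e1] at hw hw'
    exact h2 _ _ _ hw hw'

theorem SFF.reindex (g : ι → κ) {f : (ι → ℕ) → ℕ} (hf : SFF f) :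
    SFF (fun v : κ → ℕ => f (fun i => v (g i))) := by
  have := SFP.reindex (κ := Option κ) (Option.map g) hf
  exact this

theorem SFP.polyEq {f g : (ι → ℕ) → ℤ} (hf : PolyFn f) (hg : PolyFn g) :
    SFP (fun v => f v = g v) := by
  refine SFP.mk' (κ := Empty) (fun v => f (fun i => v (Sum.inl i)) - g (fun i => v (Sum.inl i)))
    ((hf.reindex _).sub (hg.reindex _)) ?_ ?_
  · intro v
    constructor
    · intro h
      exact ⟨fun e => e.elim, by simpa [sub_eq_zero] using h⟩
    · rintro ⟨w, hw⟩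
      simpa [sub_eq_zero] using hw
  · intro v w w' _ _
    ext i
    exact i.elim

theorem SFP.true : SFP (fun _ : ι → ℕ => True) :=
  (SFP.polyEq (PolyFn.const 0) (PolyFn.const 0)).congr (fun _ => by simp)

theorem SFP.false : SFP (fun _ : ι → ℕ => False) :=
  (SFP.polyEq (PolyFn.const 0) (PolyFn.const 1)).congr (fun _ => by simp)

theorem SFP.const (P : Prop) : SFP (fun _ : ι → ℕ => P) := by
  by_cases h : P
  · exact SFP.true.congr (fun _ => by simp [h])
  · exact SFP.false.congr (fun _ => by simp [h])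

theorem SFP.and {p q : (ι → ℕ) → Prop} (hp : SFP p) (hq : SFP q) :
    SFP (fun v => p v ∧ q v) := by
  obtain ⟨m, f, hf, h1, h2⟩ := hp.elim
  obtain ⟨n, g, hg, h3, h4⟩ := hq.elim
  refine SFP.mk' (κ := Fin m ⊕ Fin n)
    (fun v => f (fun i => v (Sum.map id Sum.inl i)) ^ 2 + g (fun i => v (Sum.map id Sum.inr i)) ^ 2)
    (((hf.reindex _).pow 2).add ((hg.reindex _).pow 2)) ?_ ?_
  · intro v
    have e1 : ∀ w : Fin m ⊕ Fin n → ℕ,
        (fun i => (Sum.elim v w : ι ⊕ Fin m ⊕ Fin n → ℕ) (Sum.map id Sum.inl i)) =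
        Sum.elim v (fun i => w (Sum.inl i)) := by
      intro w; ext i; rcases i with i | i <;> rfl
    have e2 : ∀ w : Fin m ⊕ Fin n → ℕ,
        (fun i => (Sum.elim v w : ι ⊕ Fin m ⊕ Fin n → ℕ) (Sum.map id Sum.inr i)) =
        Sum.elim v (fun i => w (Sum.inr i)) := by
      intro w; ext i; rcases i with i | i <;> rfl
    simp only [e1, e2]
    constructor
    · rintro ⟨hpv, hqv⟩
      obtain ⟨w, hw⟩ := (h1 v).1 hpv
      obtain ⟨u, hu⟩ := (h3 v).1 hqv
      exact ⟨Sum.elim w u, by simp [hw, hu]⟩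
    · rintro ⟨w, hw⟩
      have hw1 : f (Sum.elim v fun i => w (Sum.inl i)) = 0 := by nlinarith [sq_nonneg (f (Sum.elim v fun i => w (Sum.inl i))), sq_nonneg (g (Sum.elim v fun i => w (Sum.inr i)))]
      have hw2 : g (Sum.elim v fun i => w (Sum.inr i)) = 0 := by nlinarith [sq_nonneg (f (Sum.elim v fun i => w (Sum.inl i))), sq_nonneg (g (Sum.elim v fun i => w (Sum.inr i)))]
      exact ⟨(h1 v).2 ⟨_, hw1⟩, (h3 v).2 ⟨_, hw2⟩⟩
  · intro v w w' hw hw'
    have e1 : ∀ w : Fin m ⊕ Fin n → ℕ,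
        (fun i => (Sum.elim v w : ι ⊕ Fin m ⊕ Fin n → ℕ) (Sum.map id Sum.inl i)) =
        Sum.elim v (fun i => w (Sum.inl i)) := by
      intro w; ext i; rcases i with i | i <;> rfl
    have e2 : ∀ w : Fin m ⊕ Fin n → ℕ,
        (fun i => (Sum.elim v w : ι ⊕ Fin m ⊕ Fin n → ℕ) (Sum.map id Sum.inr i)) =
        Sum.elim v (fun i => w (Sum.inr i)) := by
      intro w; ext i; rcases i with i | i <;> rfl
    simp only [e1, e2] at hw hw'
    have a1 : f (Sum.elim v fun i => w (Sum.inl i)) = 0 := by nlinarith [sq_nonneg (f (Sum.elim v fun i => w (Sum.inl i))), sq_nonneg (g (Sum.elim v fun i => w (Sum.inr i)))]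
    have a2 : g (Sum.elim v fun i => w (Sum.inr i)) = 0 := by nlinarith [sq_nonneg (f (Sum.elim v fun i => w (Sum.inl i))), sq_nonneg (g (Sum.elim v fun i => w (Sum.inr i)))]
    have b1 : f (Sum.elim v fun i => w' (Sum.inl i)) = 0 := by nlinarith [sq_nonneg (f (Sum.elim v fun i => w' (Sum.inl i))), sq_nonneg (g (Sum.elim v fun i => w' (Sum.inr i)))]
    have b2 : g (Sum.elim v fun i => w' (Sum.inr i)) = 0 := by nlinarith [sq_nonneg (f (Sum.elim v fun i => w' (Sum.inl i))), sq_nonneg (g (Sum.elim v fun i => w' (Sum.inr i)))]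
    have c1 := h2 _ _ _ a1 b1
    have c2 := h4 _ _ _ a2 b2
    ext i
    rcases i with i | i
    · exact congrFun c1 i
    · exact congrFun c2 i

end SFP

end Crest.Agent.R323
end

-- ▼ part R323/SFFun
section

/-!
# Closure properties of single-fold Diophantine predicates and functions (S0500)
-/

set_option autoImplicit false

namespace Crest.Agent.R323

variable {ι κ : Type}

/-- finite conjunctions -/
theorem SFP.finsetAll {α : Type} (s : Finset α) {p : α → (ι → ℕ) → Prop}
    (hp : ∀ a ∈ s, SFP (p a)) : SFP (fun v => ∀ a ∈ s, p a v) := by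
  classical
  induction s using Finset.induction_on with
  | empty => exact SFP.true.congr (fun v => by simp)
  | insert a s ha ih =>
    have h1 := hp a (Finset.mem_insert_self a s)
    have h2 := ih (fun b hb => hp b (Finset.mem_insert_of_mem hb))
    exact (h1.and h2).congr (fun v => by simp)

theorem SFP.all [Finite κ] {p : κ → (ι → ℕ) → Prop} (hp : ∀ a, SFP (p a)) :
    SFP (fun v => ∀ a, p a v) := by
  classical
  have := Fintype.ofFinite κ
  exact (SFP.finsetAll Finset.univ (fun a _ => hp a)).congr (fun v => by simp)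

/-- composition of a single-fold relation with single-fold functions -/
theorem SFP.comp [Finite κ] {R : (κ → ℕ) → Prop} (hR : SFP R) {f : κ → (ι → ℕ) → ℕ}
    (hf : ∀ k, SFF (f k)) : SFP (fun v : ι → ℕ => R (fun k => f k v)) := by
  have h1 : SFP (fun u : ι ⊕ κ → ℕ => (∀ k, u (Sum.inr k) = f k (fun i => u (Sum.inl i))) ∧
      R (fun k => u (Sum.inr k))) := by
    refine SFP.and (SFP.all fun k => ?_) (hR.reindex _)
    have := SFP.reindex (fun o : Option ι => (o.elim (Sum.inr k) Sum.inl : ι ⊕ κ)) (hf k)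
    exact this
  refine (SFP.exBlock h1 ?_).congr ?_
  · rintro v y y' ⟨h, _⟩ ⟨h', _⟩
    funext k
    have e1 := h k
    have e2 := h' k
    simp only [Sum.elim_inr, Sum.elim_inl] at e1 e2
    rw [e1, e2]
  · intro v
    constructor
    · intro h
      exact ⟨fun k => f k v, fun k => by simp, by simpa using h⟩
    · rintro ⟨y, h, hr⟩
      have : y = fun k => f k v := by
        funext k
        simpa using h k
      subst this
      simpa using hr

theorem SFF.ofPoly {f : (ι → ℕ) → ℕ} (hf : PolyFn (fun v => (f v : ℤ))) : SFF f := by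
  have h := SFP.polyEq (PolyFn.proj (none : Option ι)) (hf.reindex (fun i => (some i : Option ι)))
  exact SFP.congr h (fun v => by norm_cast)

theorem SFF.proj (i : ι) : SFF (fun v : ι → ℕ => v i) :=
  SFF.ofPoly (PolyFn.proj i)

theorem SFF.const (c : ℕ) : SFF (fun _ : ι → ℕ => c) :=
  SFF.ofPoly (PolyFn.const (c : ℤ))

/-- composition of single-fold functions -/
theorem SFF.comp [Finite κ] {g : (κ → ℕ) → ℕ} (hg : SFF g) {f : κ → (ι → ℕ) → ℕ}
    (hf : ∀ k, SFF (f k)) : SFF (fun v : ι → ℕ => g (fun k => f k v)) := by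
  have := SFP.comp (ι := Option ι) (κ := Option κ) hg
    (f := fun o => o.elim (fun v => v none) (fun k => fun v => f k (fun i => v (some i)))) (by
      intro o
      cases o with
      | none => exact SFF.proj none
      | some k => exact (hf k).reindex some)
  exact this

/-- unary single-fold function -/
def SF1 (f : ℕ → ℕ) : Prop := SFF (fun v : Fin 1 → ℕ => f (v 0))
/-- binary single-fold function -/
def SF2 (f : ℕ → ℕ → ℕ) : Prop := SFF (fun v : Fin 2 → ℕ => f (v 0) (v 1))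
/-- ternary single-fold function -/
def SF3 (f : ℕ → ℕ → ℕ → ℕ) : Prop := SFF (fun v : Fin 3 → ℕ => f (v 0) (v 1) (v 2))
/-- quaternary single-fold function -/
def SF4 (f : ℕ → ℕ → ℕ → ℕ → ℕ) : Prop := SFF (fun v : Fin 4 → ℕ => f (v 0) (v 1) (v 2) (v 3))

theorem SF1.comp {f : ℕ → ℕ} (hf : SF1 f) {a : (ι → ℕ) → ℕ} (ha : SFF a) :
    SFF (fun v => f (a v)) :=
  (SFF.comp (κ := Fin 1) hf (f := fun _ => a) (fun _ => ha)).congr (fun _ => rfl)

theorem SF2.comp {f : ℕ → ℕ → ℕ} (hf : SF2 f) {a b : (ι → ℕ) → ℕ} (ha : SFF a) (hb : SFF b) :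
    SFF (fun v => f (a v) (b v)) :=
  (SFF.comp (κ := Fin 2) hf (f := ![a, b]) (fun k => by
    fin_cases k
    · exact ha
    · exact hb)).congr (fun _ => rfl)

theorem SF3.comp {f : ℕ → ℕ → ℕ → ℕ} (hf : SF3 f) {a b c : (ι → ℕ) → ℕ} (ha : SFF a)
    (hb : SFF b) (hc : SFF c) : SFF (fun v => f (a v) (b v) (c v)) :=
  (SFF.comp (κ := Fin 3) hf (f := ![a, b, c]) (fun k => by
    fin_cases k
    · exact ha
    · exact hb
    · exact hc)).congr (fun _ => rfl)

theorem SF4.comp {f : ℕ → ℕ → ℕ → ℕ → ℕ} (hf : SF4 f) {a b c d : (ι → ℕ) → ℕ} (ha : SFF a)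
    (hb : SFF b) (hc : SFF c) (hd : SFF d) : SFF (fun v => f (a v) (b v) (c v) (d v)) :=
  (SFF.comp (κ := Fin 4) hf (f := ![a, b, c, d]) (fun k => by
    fin_cases k
    · exact ha
    · exact hb
    · exact hc
    · exact hd)).congr (fun _ => rfl)

/-- unary single-fold relation -/
def SR1 (R : ℕ → Prop) : Prop := SFP (fun v : Fin 1 → ℕ => R (v 0))
/-- binary single-fold relation -/
def SR2 (R : ℕ → ℕ → Prop) : Prop := SFP (fun v : Fin 2 → ℕ => R (v 0) (v 1))
/-- ternary single-fold relation -/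
def SR3 (R : ℕ → ℕ → ℕ → Prop) : Prop := SFP (fun v : Fin 3 → ℕ => R (v 0) (v 1) (v 2))
/-- quaternary single-fold relation -/
def SR4 (R : ℕ → ℕ → ℕ → ℕ → Prop) : Prop :=
  SFP (fun v : Fin 4 → ℕ => R (v 0) (v 1) (v 2) (v 3))

theorem SR1.comp {R : ℕ → Prop} (hR : SR1 R) {a : (ι → ℕ) → ℕ} (ha : SFF a) :
    SFP (fun v => R (a v)) :=
  (SFP.comp (κ := Fin 1) hR (f := fun _ => a) (fun _ => ha)).congr (fun _ => Iff.rfl)

theorem SR2.comp {R : ℕ → ℕ → Prop} (hR : SR2 R) {a b : (ι → ℕ) → ℕ} (ha : SFF a) (hb : SFF b) :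
    SFP (fun v => R (a v) (b v)) :=
  (SFP.comp (κ := Fin 2) hR (f := ![a, b]) (fun k => by
    fin_cases k
    · exact ha
    · exact hb)).congr (fun _ => Iff.rfl)

theorem SR3.comp {R : ℕ → ℕ → ℕ → Prop} (hR : SR3 R) {a b c : (ι → ℕ) → ℕ} (ha : SFF a)
    (hb : SFF b) (hc : SFF c) : SFP (fun v => R (a v) (b v) (c v)) :=
  (SFP.comp (κ := Fin 3) hR (f := ![a, b, c]) (fun k => by
    fin_cases k
    · exact ha
    · exact hb
    · exact hc)).congr (fun _ => Iff.rfl)

theorem SR4.comp {R : ℕ → ℕ → ℕ → ℕ → Prop} (hR : SR4 R) {a b c d : (ι → ℕ) → ℕ} (ha : SFF a)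
    (hb : SFF b) (hc : SFF c) (hd : SFF d) : SFP (fun v => R (a v) (b v) (c v) (d v)) :=
  (SFP.comp (κ := Fin 4) hR (f := ![a, b, c, d]) (fun k => by
    fin_cases k
    · exact ha
    · exact hb
    · exact hc
    · exact hd)).congr (fun _ => Iff.rfl)

/-- unique existential over one variable -/
theorem SFP.ex {q : (ι → ℕ) → ℕ → Prop}
    (hq : SFP (fun v : Option ι → ℕ => q (fun i => v (some i)) (v none)))
    (hu : ∀ v y y', q v y → q v y' → y = y') : SFP (fun v : ι → ℕ => ∃ y, q v y) := by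
  have h1 : SFP (fun u : ι ⊕ Unit → ℕ => q (fun i => u (Sum.inl i)) (u (Sum.inr ()))) :=
    SFP.reindex (fun o : Option ι => (o.elim (Sum.inr ()) Sum.inl : ι ⊕ Unit)) hq
  refine (SFP.exBlock h1 ?_).congr ?_
  · intro v y y' h h'
    simp only [Sum.elim_inr, Sum.elim_inl] at h h'
    have := hu v _ _ h h'
    funext k
    exact this
  · intro v
    constructor
    · rintro ⟨y, hy⟩
      exact ⟨fun _ => y, by simpa using hy⟩
    · rintro ⟨y, hy⟩
      exact ⟨y (), by simpa using hy⟩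

/-- the graph of a single-fold function -/
theorem SFF.graph {f : (ι → ℕ) → ℕ} (hf : SFF f) {a : (ι → ℕ) → ℕ} (ha : SFF a) :
    SFP (fun v => a v = f v) := by
  have h1 : SFP (fun v : ι → ℕ => ∃ y, y = a v ∧ y = f v) := by
    refine SFP.ex (q := fun v y => y = a v ∧ y = f v) (SFP.and ?_ ?_) ?_
    · exact ha
    · exact hf
    · rintro v y y' ⟨h, _⟩ ⟨h', _⟩
      rw [h, h']
  exact h1.congr (fun v => by simp)

theorem SFP.eq {f g : (ι → ℕ) → ℕ} (hf : SFF f) (hg : SFF g) : SFP (fun v => f v = g v) :=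
  hg.graph hf

/-- a function is single-fold as soon as its graph is equivalent to a single-fold predicate -/
theorem SFF.of_graph {f : (ι → ℕ) → ℕ} {q : (ι → ℕ) → ℕ → Prop}
    (hq : SFP (fun v : Option ι → ℕ => q (fun i => v (some i)) (v none)))
    (h : ∀ v y, q v y ↔ y = f v) : SFF f :=
  hq.congr (fun v => (h _ _).symm)

/-- disjoint disjunction -/
theorem SFP.or {p q : (ι → ℕ) → Prop} (hp : SFP p) (hq : SFP q) (hd : ∀ v, p v → ¬ q v) :
    SFP (fun v => p v ∨ q v) := by
  obtain ⟨m, f, hf, h1, h2⟩ := hp.elim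
  obtain ⟨n, g, hg, h3, h4⟩ := hq.elim
  refine SFP.mk' (κ := Fin m ⊕ Fin n)
    (fun v => (f (fun i => v (Sum.map id Sum.inl i)) ^ 2 +
        ∑ j : Fin n, ((v (Sum.inr (Sum.inr j)) : ℕ) : ℤ) ^ 2) *
      (g (fun i => v (Sum.map id Sum.inr i)) ^ 2 +
        ∑ j : Fin m, ((v (Sum.inr (Sum.inl j)) : ℕ) : ℤ) ^ 2)) ?_ ?_ ?_
  · refine PolyFn.mul ?_ ?_
    · exact ((hf.reindex _).pow 2).add (PolyFn.sum _ fun j _ => (PolyFn.proj _).pow 2)
    · exact ((hg.reindex _).pow 2).add (PolyFn.sum _ fun j _ => (PolyFn.proj _).pow 2)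
  all_goals
    have e1 : ∀ (v : ι → ℕ) (w : Fin m ⊕ Fin n → ℕ),
        (fun i => (Sum.elim v w : ι ⊕ Fin m ⊕ Fin n → ℕ) (Sum.map id Sum.inl i)) =
        Sum.elim v (fun i => w (Sum.inl i)) := by
      intro v w; ext i; rcases i with i | i <;> rfl
    have e2 : ∀ (v : ι → ℕ) (w : Fin m ⊕ Fin n → ℕ),
        (fun i => (Sum.elim v w : ι ⊕ Fin m ⊕ Fin n → ℕ) (Sum.map id Sum.inr i)) =
        Sum.elim v (fun i => w (Sum.inr i)) := by
      intro v w; ext i; rcases i with i | i <;> rfl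
    have key : ∀ (k : ℕ) (c : ℤ) (w : Fin k → ℕ), c ^ 2 + ∑ j : Fin k, ((w j : ℕ) : ℤ) ^ 2 = 0 ↔
        c = 0 ∧ w = 0 := by
      intro k c w
      constructor
      · intro h
        have hs : 0 ≤ ∑ j : Fin k, ((w j : ℕ) : ℤ) ^ 2 := Finset.sum_nonneg fun j _ => sq_nonneg _
        have hc : c ^ 2 = 0 := by nlinarith [sq_nonneg c]
        have hs0 : ∑ j : Fin k, ((w j : ℕ) : ℤ) ^ 2 = 0 := by nlinarith [sq_nonneg c]
        refine ⟨by simpa using hc, ?_⟩
        funext j
        have := (Finset.sum_eq_zero_iff_of_nonneg (fun j _ => sq_nonneg _)).1 hs0 j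
          (Finset.mem_univ j)
        simpa using this
      · rintro ⟨rfl, rfl⟩
        simp
    simp only [e1, e2, mul_eq_zero, Sum.elim_inr]
  · intro v
    constructor
    · rintro (hpv | hqv)
      · obtain ⟨w, hw⟩ := (h1 v).1 hpv
        refine ⟨Sum.elim w 0, Or.inl ?_⟩
        simp [hw]
      · obtain ⟨w, hw⟩ := (h3 v).1 hqv
        refine ⟨Sum.elim 0 w, Or.inr ?_⟩
        simp [hw]
    · rintro ⟨w, hw | hw⟩
      · left
        exact (h1 v).2 ⟨_, ((key n _ (fun j => w (Sum.inr j))).1 hw).1⟩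
      · right
        exact (h3 v).2 ⟨_, ((key m _ (fun j => w (Sum.inl j))).1 hw).1⟩
  · intro v w w' hw hw'
    rcases hw with hw | hw <;> rcases hw' with hw' | hw'
    · obtain ⟨a1, a2⟩ := (key n _ (fun j => w (Sum.inr j))).1 hw
      obtain ⟨b1, b2⟩ := (key n _ (fun j => w' (Sum.inr j))).1 hw'
      have c1 := h2 _ _ _ a1 b1
      funext i
      rcases i with i | i
      · exact congrFun c1 i
      · exact (congrFun a2 i).trans (congrFun b2 i).symm
    · obtain ⟨a1, a2⟩ := (key n _ (fun j => w (Sum.inr j))).1 hw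
      obtain ⟨b1, b2⟩ := (key m _ (fun j => w' (Sum.inl j))).1 hw'
      exact absurd ((h3 v).2 ⟨_, b1⟩) (hd v ((h1 v).2 ⟨_, a1⟩))
    · obtain ⟨a1, a2⟩ := (key m _ (fun j => w (Sum.inl j))).1 hw
      obtain ⟨b1, b2⟩ := (key n _ (fun j => w' (Sum.inr j))).1 hw'
      exact absurd ((h3 v).2 ⟨_, a1⟩) (hd v ((h1 v).2 ⟨_, b1⟩))
    · obtain ⟨a1, a2⟩ := (key m _ (fun j => w (Sum.inl j))).1 hw
      obtain ⟨b1, b2⟩ := (key m _ (fun j => w' (Sum.inl j))).1 hw'
      have c1 := h4 _ _ _ a1 b1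
      funext i
      rcases i with i | i
      · exact (congrFun a2 i).trans (congrFun b2 i).symm
      · exact congrFun c1 i

/-- decidable single-fold predicates -/
def SFD (p : (ι → ℕ) → Prop) : Prop := SFP p ∧ SFP (fun v => ¬ p v)

theorem SFD.pos {p : (ι → ℕ) → Prop} (hp : SFD p) : SFP p := hp.1
theorem SFD.neg {p : (ι → ℕ) → Prop} (hp : SFD p) : SFP (fun v => ¬ p v) := hp.2

theorem SFD.not {p : (ι → ℕ) → Prop} (hp : SFD p) : SFD (fun v => ¬ p v) :=
  ⟨hp.2, hp.1.congr (fun v => not_not)⟩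

theorem SFD.congr {p q : (ι → ℕ) → Prop} (hp : SFD p) (h : ∀ v, q v ↔ p v) : SFD q :=
  ⟨hp.1.congr h, hp.2.congr (fun v => not_congr (h v))⟩

theorem SFD.const (P : Prop) : SFD (fun _ : ι → ℕ => P) := ⟨SFP.const P, SFP.const _⟩

theorem SFD.and {p q : (ι → ℕ) → Prop} (hp : SFD p) (hq : SFD q) :
    SFD (fun v => p v ∧ q v) := by
  refine ⟨hp.1.and hq.1, ?_⟩
  refine (SFP.or hp.2 (hp.1.and hq.2) ?_).congr ?_
  · intro v h h'
    exact h h'.1
  · intro v
    tauto

theorem SFD.or {p q : (ι → ℕ) → Prop} (hp : SFD p) (hq : SFD q) :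
    SFD (fun v => p v ∨ q v) :=
  ((hp.not.and hq.not).not).congr (fun v => by tauto)

theorem SFD.imp {p q : (ι → ℕ) → Prop} (hp : SFD p) (hq : SFD q) :
    SFD (fun v => p v → q v) :=
  (hp.not.or hq).congr (fun v => by tauto)


theorem SFD.reindex (g : ι → κ) {p : (ι → ℕ) → Prop} (hp : SFD p) :
    SFD (fun v : κ → ℕ => p (fun i => v (g i))) :=
  ⟨hp.1.reindex g, hp.2.reindex g⟩

theorem SFD.comp [Finite κ] {R : (κ → ℕ) → Prop} (hR : SFD R) {f : κ → (ι → ℕ) → ℕ}
    (hf : ∀ k, SFF (f k)) : SFD (fun v : ι → ℕ => R (fun k => f k v)) :=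
  ⟨hR.1.comp hf, SFP.comp hR.2 hf⟩

theorem SR2_lt : SR2 (fun a b => a < b) := by
  have : SFP (fun u : Fin 2 → ℕ => ∃ z, u 1 = u 0 + 1 + z) := by
    refine SFP.ex (q := fun v z => v 1 = v 0 + 1 + z) ?_ ?_
    · refine (SFP.polyEq (f := fun v : Option (Fin 2) → ℕ => ((v (some 1) : ℕ) : ℤ))
        (g := fun v => ((v (some 0) : ℕ) : ℤ) + 1 + ((v none : ℕ) : ℤ)) (PolyFn.proj _)
        (((PolyFn.proj _).add (PolyFn.const 1)).add (PolyFn.proj _))).congr ?_
      intro v
      norm_cast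
    · intro v y y' h h'
      omega
  refine this.congr (fun v => ?_)
  constructor
  · intro h
    exact ⟨v 1 - (v 0 + 1), by omega⟩
  · rintro ⟨z, hz⟩
    omega

theorem SR2_le : SR2 (fun a b => a ≤ b) := by
  have : SFP (fun u : Fin 2 → ℕ => ∃ z, u 1 = u 0 + z) := by
    refine SFP.ex (q := fun v z => v 1 = v 0 + z) ?_ ?_
    · refine (SFP.polyEq (f := fun v : Option (Fin 2) → ℕ => ((v (some 1) : ℕ) : ℤ))
        (g := fun v => ((v (some 0) : ℕ) : ℤ) + ((v none : ℕ) : ℤ)) (PolyFn.proj _)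
        ((PolyFn.proj _).add (PolyFn.proj _))).congr ?_
      intro v
      norm_cast
    · intro v y y' h h'
      omega
  refine this.congr (fun v => ?_)
  constructor
  · intro h
    exact ⟨v 1 - v 0, by omega⟩
  · rintro ⟨z, hz⟩
    omega

theorem SFP.lt {f g : (ι → ℕ) → ℕ} (hf : SFF f) (hg : SFF g) : SFP (fun v => f v < g v) :=
  SR2_lt.comp hf hg

theorem SFP.le {f g : (ι → ℕ) → ℕ} (hf : SFF f) (hg : SFF g) : SFP (fun v => f v ≤ g v) :=
  SR2_le.comp hf hg

theorem SFP.ne {f g : (ι → ℕ) → ℕ} (hf : SFF f) (hg : SFF g) : SFP (fun v => f v ≠ g v) :=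
  (SFP.or (SFP.lt hf hg) (SFP.lt hg hf) (fun v h h' => by omega)).congr
    (fun v => by constructor <;> intro h <;> omega)

theorem SFD.eq {f g : (ι → ℕ) → ℕ} (hf : SFF f) (hg : SFF g) : SFD (fun v => f v = g v) :=
  ⟨SFP.eq hf hg, SFP.ne hf hg⟩

theorem SFD.ne {f g : (ι → ℕ) → ℕ} (hf : SFF f) (hg : SFF g) : SFD (fun v => f v ≠ g v) :=
  (SFD.eq hf hg).not

theorem SFD.lt {f g : (ι → ℕ) → ℕ} (hf : SFF f) (hg : SFF g) : SFD (fun v => f v < g v) :=
  ⟨SFP.lt hf hg, (SFP.le hg hf).congr (fun v => not_lt)⟩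

theorem SFD.le {f g : (ι → ℕ) → ℕ} (hf : SFF f) (hg : SFF g) : SFD (fun v => f v ≤ g v) :=
  ⟨SFP.le hf hg, (SFP.lt hg hf).congr (fun v => not_le)⟩

/-- definition by (decidable) cases -/
theorem SFF.ite {p : (ι → ℕ) → Prop} [DecidablePred p] (hp : SFD p) {f g : (ι → ℕ) → ℕ}
    (hf : SFF f) (hg : SFF g) : SFF (fun v => if p v then f v else g v) := by
  refine SFF.of_graph (q := fun v y => (p v ∧ y = f v) ∨ (¬ p v ∧ y = g v)) ?_ ?_
  · refine SFP.or (SFP.and (hp.1.reindex some) ?_) (SFP.and (hp.2.reindex some) ?_) ?_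
    · exact hf
    · exact hg
    · rintro v ⟨h, _⟩ ⟨h', _⟩
      exact h' h
  · intro v y
    by_cases h : p v <;> simp [h]

theorem SF2_add : SF2 (fun a b => a + b) :=
  SFF.ofPoly (((PolyFn.proj (ι := Fin 2) 0).add (PolyFn.proj 1)).reindex id |> fun h => by
    simpa using h)

theorem SF2_mul : SF2 (fun a b => a * b) :=
  SFF.ofPoly (((PolyFn.proj (ι := Fin 2) 0).mul (PolyFn.proj 1)).reindex id |> fun h => by
    simpa using h)

theorem SFF.add {f g : (ι → ℕ) → ℕ} (hf : SFF f) (hg : SFF g) : SFF (fun v => f v + g v) :=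
  SF2_add.comp hf hg

theorem SFF.mul {f g : (ι → ℕ) → ℕ} (hf : SFF f) (hg : SFF g) : SFF (fun v => f v * g v) :=
  SF2_mul.comp hf hg

/-- power with a fixed exponent -/
theorem SFF.npow {f : (ι → ℕ) → ℕ} (hf : SFF f) (n : ℕ) : SFF (fun v => f v ^ n) := by
  induction n with
  | zero => exact (SFF.const 1).congr (fun v => by simp)
  | succ n ih => exact (ih.mul hf).congr (fun v => by rw [pow_succ])

theorem SF2_sub : SF2 (fun a b => a - b) := by
  refine SFF.of_graph (q := fun (v : Fin 2 → ℕ) y => (v 0 = v 1 + y) ∨ (v 0 < v 1 ∧ y = 0)) ?_ ?_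
  · refine SFP.or ?_ ?_ ?_
    · exact SFP.eq (SFF.proj _) ((SFF.proj _).add (SFF.proj _))
    · exact SFP.and (SFP.lt (SFF.proj _) (SFF.proj _)) (SFP.eq (SFF.proj _) (SFF.const 0))
    · intro v h h'
      omega
  · intro v y
    show _ ↔ y = v 0 - v 1
    omega

theorem SFF.tsub {f g : (ι → ℕ) → ℕ} (hf : SFF f) (hg : SFF g) : SFF (fun v => f v - g v) :=
  SF2_sub.comp hf hg

theorem SF2_div : SF2 (fun a b => a / b) := by
  refine SFF.of_graph (q := fun (v : Fin 2 → ℕ) y =>
    (v 1 = 0 ∧ y = 0) ∨ (∃ r, v 0 = v 1 * y + r ∧ r < v 1)) ?_ ?_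
  · refine SFP.or ?_ ?_ ?_
    · exact SFP.and (SFP.eq (SFF.proj _) (SFF.const 0)) (SFP.eq (SFF.proj _) (SFF.const 0))
    · refine SFP.ex (q := fun (v : Option (Fin 2) → ℕ) r =>
        v (some 0) = v (some 1) * v none + r ∧ r < v (some 1)) ?_ ?_
      · exact SFP.and (SFP.eq (SFF.proj _) (((SFF.proj _).mul (SFF.proj _)).add (SFF.proj _)))
          (SFP.lt (SFF.proj _) (SFF.proj _))
      · rintro v y y' ⟨h, _⟩ ⟨h', _⟩
        omega
    · rintro v ⟨h, _⟩ ⟨r, _, h'⟩
      omega
  · intro v y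
    show _ ↔ y = v 0 / v 1
    constructor
    · rintro (⟨h, rfl⟩ | ⟨r, h, h'⟩)
      · simp [h]
      · rw [h, Nat.mul_add_div (by omega), Nat.div_eq_of_lt h']
        simp
    · rintro rfl
      rcases Nat.eq_zero_or_pos (v 1) with h | h
      · left
        simp [h]
      · right
        exact ⟨v 0 % v 1, (Nat.div_add_mod _ _).symm, Nat.mod_lt _ h⟩

theorem SFF.div {f g : (ι → ℕ) → ℕ} (hf : SFF f) (hg : SFF g) : SFF (fun v => f v / g v) :=
  SF2_div.comp hf hg

theorem SFF.mod {f g : (ι → ℕ) → ℕ} (hf : SFF f) (hg : SFF g) : SFF (fun v => f v % g v) :=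
  (hf.tsub (hg.mul (hf.div hg))).congr (fun v => by
    have := Nat.div_add_mod (f v) (g v)
    omega)

theorem SFF.max {f g : (ι → ℕ) → ℕ} (hf : SFF f) (hg : SFF g) : SFF (fun v => max (f v) (g v)) :=
  ((hf.tsub hg).add hg).congr (fun v => by omega)

theorem SFF.min {f g : (ι → ℕ) → ℕ} (hf : SFF f) (hg : SFF g) : SFF (fun v => min (f v) (g v)) :=
  (hf.tsub (hf.tsub hg)).congr (fun v => by omega)

theorem SFD.dvd {f g : (ι → ℕ) → ℕ} (hf : SFF f) (hg : SFF g) : SFD (fun v => f v ∣ g v) :=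
  (SFD.eq (hg.mod hf) (SFF.const 0)).congr (fun v => Nat.dvd_iff_mod_eq_zero)

theorem SFD.modEq {f g n : (ι → ℕ) → ℕ} (hn : SFF n) (hf : SFF f) (hg : SFF g) :
    SFD (fun v => f v ≡ g v [MOD n v]) :=
  SFD.eq (hf.mod hn) (hg.mod hn)

/-- coprimality as a single-fold predicate -/
theorem SFP.coprime {f g : (ι → ℕ) → ℕ} (hf : SFF f) (hg : SFF g) :
    SFP (fun v => Nat.Coprime (f v) (g v)) := by
  have h : SR2 Nat.Coprime := by
    have : SFP (fun v : Fin 2 → ℕ => (v 1 = 0 ∧ v 0 = 1) ∨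
        (∃ s, s < v 1 ∧ (s * v 0) % v 1 = 1 % v 1)) := by
      refine SFP.or ?_ ?_ ?_
      · exact SFP.and (SFP.eq (SFF.proj _) (SFF.const 0)) (SFP.eq (SFF.proj _) (SFF.const 1))
      · refine SFP.ex (q := fun (v : Fin 2 → ℕ) s => s < v 1 ∧ (s * v 0) % v 1 = 1 % v 1) ?_ ?_
        · exact SFP.and (SFP.lt (SFF.proj _) (SFF.proj _))
            (SFP.eq (((SFF.proj _).mul (SFF.proj _)).mod (SFF.proj _))
              ((SFF.const 1).mod (SFF.proj _)))
        · rintro v s t ⟨h1, h2⟩ ⟨h3, h4⟩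
          have h5 : s * v 0 ≡ t * v 0 [MOD v 1] := h2.trans h4.symm
          have hc : Nat.gcd (v 1) (v 0) = 1 := by
            have h6 : s * v 0 ≡ 1 [MOD v 1] := h2
            have := h6.gcd_eq
            simp only [Nat.gcd_one_left] at this
            have h7 : Nat.gcd (v 0) (v 1) ∣ Nat.gcd (s * v 0) (v 1) :=
              Nat.gcd_dvd_gcd_mul_left_left _ _ _
            rw [this] at h7
            rw [Nat.gcd_comm]
            exact Nat.dvd_one.1 h7
          have h8 := Nat.ModEq.cancel_right_of_coprime hc h5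
          have h9 : s % v 1 = t % v 1 := h8
          rwa [Nat.mod_eq_of_lt h1, Nat.mod_eq_of_lt h3] at h9
      · rintro v ⟨h, _⟩ ⟨s, h', _⟩
        omega
    refine this.congr (fun v => ?_)
    constructor
    · intro h
      rcases Nat.eq_zero_or_pos (v 1) with h0 | h0
      · left
        refine ⟨h0, ?_⟩
        rw [h0] at h
        exact (Nat.coprime_zero_right _).1 h
      · right
        rcases Nat.eq_or_lt_of_le h0 with h1 | h1
        · refine ⟨0, h0, ?_⟩
          rw [← h1]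
          simp
        · obtain ⟨m, hm1, hm⟩ := Nat.exists_mul_mod_eq_one_of_coprime h h1
          refine ⟨m, hm1, ?_⟩
          rw [mul_comm, hm, Nat.mod_eq_of_lt h1]
    · rintro (⟨h, h'⟩ | ⟨s, h1, h2⟩)
      · rw [h, h']
        exact Nat.coprime_zero_right 1 |>.2 rfl
      · have h6 : s * v 0 ≡ 1 [MOD v 1] := h2
        have := h6.gcd_eq
        simp only [Nat.gcd_one_left] at this
        have h7 : Nat.gcd (v 0) (v 1) ∣ Nat.gcd (s * v 0) (v 1) :=
          Nat.gcd_dvd_gcd_mul_left_left _ _ _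
        rw [this] at h7
        exact Nat.dvd_one.1 h7
  exact h.comp hf hg

/-- automation for `SFF`, `SFP`, `SFD` goals built from the basic operations -/
macro "sff" : tactic => `(tactic|
  repeat (first
    | assumption
    | exact SFF.proj _
    | exact SFF.const _
    | apply SFF.add
    | apply SFF.mul
    | apply SFF.tsub
    | apply SFF.div
    | apply SFF.mod
    | apply SFF.npow
    | apply SFF.max
    | apply SFF.min
    | apply SFP.and
    | apply SFP.eq
    | apply SFP.lt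
    | apply SFP.le
    | apply SFP.ne
    | apply SFD.and
    | apply SFD.or
    | apply SFD.imp
    | apply SFD.not
    | apply SFD.eq
    | apply SFD.ne
    | apply SFD.lt
    | apply SFD.le
    | apply SFD.dvd))

end Crest.Agent.R323
end

-- ▼ part R323/PellSF
section

/-!
# The Pell functions are single-fold Diophantine
-/

set_option autoImplicit false

namespace Crest.Agent.R323

open Pell

theorem sys_iff {m x y X2 Y2 U V a b p a' b' p' : ℕ} :
    Sys m x y X2 Y2 U V a b p a' b' p' ↔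
      ((x * x = 3 * y * y + 1 ∧ X2 * X2 = 3 * Y2 * Y2 + 1) ∧
       (U + XX x y = 2 * YY x y ∧ V + X2 = 2 * Y2)) ∧
      ((YY x y ∣ Y2 ∧ XX x y + 2 * YY x y ∣ V) ∧ U ∣ V) ∧
      ((p ^ 2 = a ^ 4 + 8 * b ^ 4 ∧ Nat.Coprime a b) ∧
       (p' ^ 2 = a' ^ 4 + 8 * b' ^ 4 ∧ Nat.Coprime a' b')) ∧
      (AdjZ a b a' b' ∧ (p < p' ∧ (p < X2 ∧ (X2 ≤ p' ∧ p' ≤ XX x y ^ 6 * p)))) ∧
      (Y2 ≡ (2 * m + 289) * YY x y [MOD (YY x y) ^ 3] ∧ 2 * m + 289 < (YY x y) ^ 2) := by
  constructor
  · rintro ⟨h1, h2, h3, h4, h5, h6, h7, h8, h9, h10, h11, h12, h13, h14, h15, h16, h17, h18⟩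
    exact ⟨⟨⟨h1, h2⟩, h3, h4⟩, ⟨⟨h5, h6⟩, h7⟩, ⟨⟨h8, h9⟩, h10, h11⟩, ⟨h12, h13, h14, h15, h16⟩, h17, h18⟩
  · rintro ⟨⟨⟨h1, h2⟩, h3, h4⟩, ⟨⟨h5, h6⟩, h7⟩, ⟨⟨h8, h9⟩, h10, h11⟩, ⟨h12, h13, h14, h15, h16⟩, h17, h18⟩
    exact ⟨h1, h2, h3, h4, h5, h6, h7, h8, h9, h10, h11, h12, h13, h14, h15, h16, h17, h18⟩

section

variable {ι : Type}

theorem SFF.XX {f g : (ι → ℕ) → ℕ} (hf : SFF f) (hg : SFF g) : SFF (fun v => XX (f v) (g v)) := by
  unfold Crest.Agent.R323.XX
  sff

theorem SFF.YY {f g : (ι → ℕ) → ℕ} (hf : SFF f) (hg : SFF g) : SFF (fun v => YY (f v) (g v)) := by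
  unfold Crest.Agent.R323.YY
  sff

theorem SFP.adj (i j k l : ι) : SFP (fun v : ι → ℕ => AdjZ (v i) (v j) (v k) (v l)) := by
  unfold AdjZ
  apply SFP.polyEq
  · have hi := PolyFn.proj i
    have hj := PolyFn.proj j
    have hk := PolyFn.proj k
    have hl := PolyFn.proj l
    exact (((((hj.pow 2).mul (hk.pow 2)).add ((hl.pow 2).mul (hi.pow 2))).sub
      (((PolyFn.const 8).mul (hj.pow 2)).mul (hl.pow 2))).sub ((hi.pow 2).mul (hk.pow 2))).pow 2
  · have hi := PolyFn.proj i
    have hj := PolyFn.proj j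
    have hk := PolyFn.proj k
    have hl := PolyFn.proj l
    exact ((((PolyFn.const 36).mul (hi.pow 2)).mul (hj.pow 2)).mul (hk.pow 2)).mul (hl.pow 2)

theorem sfp_sys (m x y X2 Y2 U V a b p a' b' p' : ι) :
    SFP (fun v : ι → ℕ => Sys (v m) (v x) (v y) (v X2) (v Y2) (v U) (v V) (v a) (v b) (v p)
      (v a') (v b') (v p')) := by
  have hX : SFF (fun v : ι → ℕ => XX (v x) (v y)) := SFF.XX (SFF.proj _) (SFF.proj _)
  have hY : SFF (fun v : ι → ℕ => YY (v x) (v y)) := SFF.YY (SFF.proj _) (SFF.proj _)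
  simp only [sys_iff]
  refine SFP.and (SFP.and (SFP.and ?_ ?_) (SFP.and ?_ ?_)) (SFP.and (SFP.and (SFP.and ?_ ?_) ?_)
    (SFP.and (SFP.and (SFP.and ?_ ?_) (SFP.and ?_ ?_)) (SFP.and (SFP.and ?_ (SFP.and ?_
      (SFP.and ?_ (SFP.and ?_ ?_)))) (SFP.and ?_ ?_))))
  · sff
  · sff
  · sff
  · sff
  · exact (SFD.dvd hY (SFF.proj _)).1
  · exact (SFD.dvd (hX.add ((SFF.const 2).mul hY)) (SFF.proj _)).1
  · exact (SFD.dvd (SFF.proj _) (SFF.proj _)).1
  · sff
  · exact SFP.coprime (SFF.proj _) (SFF.proj _)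
  · sff
  · exact SFP.coprime (SFF.proj _) (SFF.proj _)
  · exact SFP.adj _ _ _ _
  · sff
  · sff
  · sff
  · sff
  · refine (SFD.modEq (hY.npow 3) (SFF.proj _) (?_)).1
    exact SFF.mul (SFF.add (SFF.mul (SFF.const 2) (SFF.proj _)) (SFF.const 289)) hY
  · sff

end

/-- the eleven unknowns of the graph of `xn` -/
theorem SF1_xn_of_ruler {A B P : ℕ → ℕ} (R : Ruler A B P) : SF1 (fun m => xn h2 m) := by
  have key : SFP (fun v : Option (Fin 1) → ℕ => ∃ w : Fin 11 → ℕ,
      (fun u : Option (Fin 1) ⊕ Fin 11 → ℕ =>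
        Sys (u (Sum.inl (some 0))) (u (Sum.inl none)) (u (Sum.inr 0)) (u (Sum.inr 1))
          (u (Sum.inr 2)) (u (Sum.inr 3)) (u (Sum.inr 4)) (u (Sum.inr 5)) (u (Sum.inr 6))
          (u (Sum.inr 7)) (u (Sum.inr 8)) (u (Sum.inr 9)) (u (Sum.inr 10))) (Sum.elim v w)) := by
    refine SFP.exBlock (q := fun u : Option (Fin 1) ⊕ Fin 11 → ℕ =>
        Sys (u (Sum.inl (some 0))) (u (Sum.inl none)) (u (Sum.inr 0)) (u (Sum.inr 1))
          (u (Sum.inr 2)) (u (Sum.inr 3)) (u (Sum.inr 4)) (u (Sum.inr 5)) (u (Sum.inr 6))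
          (u (Sum.inr 7)) (u (Sum.inr 8)) (u (Sum.inr 9)) (u (Sum.inr 10))) ?_ ?_
    · exact sfp_sys _ _ _ _ _ _ _ _ _ _ _ _ _
    · intro v w w' h h'
      simp only [Sum.elim_inl, Sum.elim_inr] at h h'
      have hy : w 0 = w' 0 := by
        have e1 := (h.sound R).2.1
        have e2 := (h'.sound R).2.1
        rw [e1, e2]
      rw [← hy] at h'
      obtain ⟨e1, e2, e3, e4, e5, e6, e7, e8, e9, e10⟩ := Sys.unique R h h'
      ext i
      fin_cases i
      · exact hy
      · exact e1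
      · exact e2
      · exact e3
      · exact e4
      · exact e5
      · exact e6
      · exact e7
      · exact e8
      · exact e9
      · exact e10
  refine SFP.congr key (fun v => ?_)
  simp only [Sum.elim_inl, Sum.elim_inr]
  constructor
  · intro h
    obtain ⟨X2, Y2, U, V, a, b, p, a', b', p', hs⟩ := Sys.complete R (v (some 0))
    refine ⟨![yn h2 (v (some 0)), X2, Y2, U, V, a, b, p, a', b', p'], ?_⟩
    rw [h]
    exact hs
  · rintro ⟨w, hw⟩
    exact (hw.sound R).1

/-- the graph of `yn` -/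
theorem SF1_yn_of_ruler {A B P : ℕ → ℕ} (R : Ruler A B P) : SF1 (fun m => yn h2 m) := by
  have key : SFP (fun v : Option (Fin 1) → ℕ => ∃ w : Fin 11 → ℕ,
      (fun u : Option (Fin 1) ⊕ Fin 11 → ℕ =>
        Sys (u (Sum.inl (some 0))) (u (Sum.inr 0)) (u (Sum.inl none)) (u (Sum.inr 1))
          (u (Sum.inr 2)) (u (Sum.inr 3)) (u (Sum.inr 4)) (u (Sum.inr 5)) (u (Sum.inr 6))
          (u (Sum.inr 7)) (u (Sum.inr 8)) (u (Sum.inr 9)) (u (Sum.inr 10))) (Sum.elim v w)) := by
    refine SFP.exBlock (q := fun u : Option (Fin 1) ⊕ Fin 11 → ℕ =>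
        Sys (u (Sum.inl (some 0))) (u (Sum.inr 0)) (u (Sum.inl none)) (u (Sum.inr 1))
          (u (Sum.inr 2)) (u (Sum.inr 3)) (u (Sum.inr 4)) (u (Sum.inr 5)) (u (Sum.inr 6))
          (u (Sum.inr 7)) (u (Sum.inr 8)) (u (Sum.inr 9)) (u (Sum.inr 10))) ?_ ?_
    · exact sfp_sys _ _ _ _ _ _ _ _ _ _ _ _ _
    · intro v w w' h h'
      simp only [Sum.elim_inl, Sum.elim_inr] at h h'
      have hy : w 0 = w' 0 := by
        have e1 := (h.sound R).1
        have e2 := (h'.sound R).1
        rw [e1, e2]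
      rw [← hy] at h'
      obtain ⟨e1, e2, e3, e4, e5, e6, e7, e8, e9, e10⟩ := Sys.unique R h h'
      ext i
      fin_cases i
      · exact hy
      · exact e1
      · exact e2
      · exact e3
      · exact e4
      · exact e5
      · exact e6
      · exact e7
      · exact e8
      · exact e9
      · exact e10
  refine SFP.congr key (fun v => ?_)
  simp only [Sum.elim_inl, Sum.elim_inr]
  constructor
  · intro h
    obtain ⟨X2, Y2, U, V, a, b, p, a', b', p', hs⟩ := Sys.complete R (v (some 0))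
    refine ⟨![xn h2 (v (some 0)), X2, Y2, U, V, a, b, p, a', b', p'], ?_⟩
    rw [h]
    exact hs
  · rintro ⟨w, hw⟩
    exact (hw.sound R).2.1

end Crest.Agent.R323
end

-- ▼ part R323/Prec
section

/-!
# Primitive recursive functions have single-fold Diophantine graphs
-/

set_option autoImplicit false

namespace Crest.Agent.R323

section Digits

/-- `i`-th digit of `c` in base `Q` -/
def dg (Q c i : ℕ) : ℕ := c / Q ^ i % Q

theorem dg_lt {Q : ℕ} (hQ : 1 ≤ Q) (c i : ℕ) : dg Q c i < Q := Nat.mod_lt _ hQ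

/-- digits determine the number -/
theorem eq_of_dg {Q : ℕ} (hQ : 1 ≤ Q) : ∀ (N : ℕ) (c c' : ℕ), c < Q ^ N → c' < Q ^ N →
    (∀ i < N, dg Q c i = dg Q c' i) → c = c' := by
  intro N
  induction N with
  | zero => intro c c' h h' _; simp at h h'; omega
  | succ N ih =>
    intro c c' h h' hd
    have h1 : c / Q = c' / Q := by
      apply ih
      · rw [pow_succ] at h; exact Nat.div_lt_of_lt_mul (by rwa [mul_comm] at h)
      · rw [pow_succ] at h'; exact Nat.div_lt_of_lt_mul (by rwa [mul_comm] at h')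
      · intro i hi
        have := hd (i + 1) (by omega)
        simp only [dg] at this ⊢
        rw [Nat.div_div_eq_div_mul, Nat.div_div_eq_div_mul, ← pow_succ']
        exact this
    have h0 : c % Q = c' % Q := by
      have := hd 0 (by omega)
      simpa [dg] using this
    rw [← Nat.div_add_mod c Q, ← Nat.div_add_mod c' Q, h1, h0]

/-- existence of a code for a sequence of digits -/
theorem exists_code_digits {Q : ℕ} : ∀ (N : ℕ) (a : ℕ → ℕ), (∀ i < N, a i < Q) →
    ∃ c < Q ^ N, ∀ i < N, dg Q c i = a i := by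
  intro N
  induction N with
  | zero => intro a _; exact ⟨0, by simp, by simp⟩
  | succ N ih =>
    intro a ha
    obtain ⟨c, hc, hd⟩ := ih (fun i => a (i + 1)) (fun i hi => ha (i + 1) (by omega))
    have ha0 := ha 0 (by omega)
    refine ⟨a 0 + Q * c, ?_, ?_⟩
    · have : Q * (c + 1) ≤ Q * Q ^ N := Nat.mul_le_mul_left _ hc
      rw [pow_succ']
      nlinarith
    · intro i hi
      rcases i with _ | i
      · simp [dg, Nat.add_mul_mod_self_left, Nat.mod_eq_of_lt ha0]
      · have : (a 0 + Q * c) / Q ^ (i + 1) = c / Q ^ i := by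
          rw [pow_succ', ← Nat.div_div_eq_div_mul, Nat.add_mul_div_left _ _ (by omega),
            Nat.div_eq_of_lt ha0, zero_add]
        simp only [dg]
        rw [this]
        exact hd i (by omega)

/-- canonical code: base, code and the least position of the largest digit -/
def CanCode (N Q c j : ℕ) : Prop :=
  1 ≤ Q ∧ c < Q ^ (N + 1) ∧ j < N + 1 ∧ dg Q c j = Q - 1 ∧ ∀ i < j, dg Q c i < Q - 1

theorem exists_canCode (N : ℕ) (a : ℕ → ℕ) :
    ∃ Q c j, CanCode N Q c j ∧ ∀ i < N + 1, dg Q c i = a i := by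
  classical
  obtain ⟨m, hm, hmax⟩ : ∃ m ∈ Finset.range (N + 1), ∀ i ∈ Finset.range (N + 1), a i ≤ a m :=
    Finset.exists_max_image _ _ ⟨0, by simp⟩
  have hex : ∃ j, j < N + 1 ∧ a j = a m := ⟨m, by simpa using hm, rfl⟩
  let j := Nat.find hex
  have hj := Nat.find_spec hex
  obtain ⟨c, hc, hd⟩ := exists_code_digits (Q := a m + 1) (N + 1) a (fun i hi => by
    have := hmax i (by simpa using hi)
    omega)
  refine ⟨a m + 1, c, j, ⟨by omega, hc, hj.1, ?_, ?_⟩, hd⟩
  · rw [hd j hj.1, Nat.add_sub_cancel]; exact hj.2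
  · intro i hi
    have hiN : i < N + 1 := lt_trans hi hj.1
    rw [hd i hiN, Nat.add_sub_cancel]
    have h1 := Nat.find_min hex hi
    have h2 := hmax i (by simpa using hiN)
    rcases Nat.lt_or_ge (a i) (a m) with h | h
    · exact h
    · exact absurd ⟨hiN, le_antisymm h2 h⟩ h1

theorem canCode_unique {N Q c j Q' c' j' : ℕ} (h : CanCode N Q c j) (h' : CanCode N Q' c' j')
    (hd : ∀ i < N + 1, dg Q c i = dg Q' c' i) : Q = Q' ∧ c = c' ∧ j = j' := by
  obtain ⟨h1, h2, h3, h4, h5⟩ := h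
  obtain ⟨h1', h2', h3', h4', h5'⟩ := h'
  have e1 : Q = Q' := by
    have a1 := hd j h3
    have a2 := hd j' h3'
    have b1 := dg_lt h1' c' j
    have b2 := dg_lt h1 c j'
    omega
  subst e1
  refine ⟨rfl, eq_of_dg h1 (N + 1) c c' h2 h2' hd, ?_⟩
  rcases lt_trichotomy j j' with hlt | heq | hgt
  · have := h5' j hlt
    have a1 := hd j h3
    omega
  · exact heq
  · have := h5 j' hgt
    have a1 := hd j' h3'
    omega

end Digits

section Graph

variable {ι : Type}

/-- the exponentiation hypothesis -/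
def PowH : Prop := SF2 (fun a n => a ^ n)

/-- the bounded quantifier hypothesis -/
def BallH : Prop := ∀ (ι : Type) [Finite ι] (q : (Option ι → ℕ) → Prop), SFP q →
  SFP (fun v : Option ι → ℕ => ∀ i < v none, q (fun o => o.elim i (fun j => v (some j))))

theorem SFF.dg (hp : PowH) {Q c i : (ι → ℕ) → ℕ} (hQ : SFF Q) (hc : SFF c) (hi : SFF i) :
    SFF (fun v => dg (Q v) (c v) (i v)) :=
  SFF.mod (SFF.div hc (SF2.comp hp hQ hi)) hQ

/-- bounded quantifier with an SFF bound -/
theorem SFP.ballComp [Finite ι] (hB : BallH) {q : (Option ι → ℕ) → Prop} (hq : SFP q) {b : (ι → ℕ) → ℕ} (hb : SFF b) :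
    SFP (fun v : ι → ℕ => ∀ i < b v, q (fun o => o.elim i v)) := by
  have h1 : SFP (fun v : Option ι → ℕ => (v none = b (fun j => v (some j))) ∧
      ∀ i < v none, q (fun o => o.elim i (fun j => v (some j)))) :=
    SFP.and hb (hB ι q hq)
  refine (SFP.ex (q := fun v y => y = b v ∧ ∀ i < y, q (fun o => o.elim i v)) h1 ?_).congr ?_
  · rintro v y y' ⟨h, -⟩ ⟨h', -⟩
    rw [h, h']
  · intro v
    constructor
    · intro h
      exact ⟨b v, rfl, h⟩
    · rintro ⟨y, hy, h⟩
      have hy' : y = b v := hy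
      subst hy'
      exact h

/-- single-fold functions of vectors -/
def SFV {n : ℕ} (f : List.Vector ℕ n → ℕ) : Prop :=
  SFF (fun v : Fin n → ℕ => f (List.Vector.ofFn v))

theorem SFV.comp {n : ℕ} {f : List.Vector ℕ n → ℕ} (hf : SFV f) {fs : Fin n → (ι → ℕ) → ℕ}
    (hfs : ∀ i, SFF (fs i)) : SFF (fun v => f (List.Vector.ofFn fun i => fs i v)) :=
  SFF.comp hf hfs

theorem SFV.prec (hp : PowH) (hB : BallH) {n : ℕ} {f : List.Vector ℕ n → ℕ} {g : List.Vector ℕ (n + 2) → ℕ}
    (hf : SFV f) (hg : SFV g) :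
    SFV (fun v : List.Vector ℕ (n + 1) =>
      v.head.rec (f v.tail) fun y IH => g (y ::ᵥ IH ::ᵥ v.tail)) := by
  -- the recursively defined function
  let H : (Fin n → ℕ) → ℕ → ℕ := fun x N =>
    N.rec (f (List.Vector.ofFn x)) fun y IH => g (y ::ᵥ IH ::ᵥ List.Vector.ofFn x)
  let env := Option (Fin (n + 1)) ⊕ Fin 3
  let q : (env → ℕ) → Prop := fun u =>
    CanCode (u (Sum.inl (some 0))) (u (Sum.inr 0)) (u (Sum.inr 1)) (u (Sum.inr 2)) ∧
    R323.dg (u (Sum.inr 0)) (u (Sum.inr 1)) 0 =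
      f (List.Vector.ofFn fun i : Fin n => u (Sum.inl (some i.succ))) ∧
    (∀ i < u (Sum.inl (some 0)), R323.dg (u (Sum.inr 0)) (u (Sum.inr 1)) (i + 1) =
      g (i ::ᵥ R323.dg (u (Sum.inr 0)) (u (Sum.inr 1)) i ::ᵥ
        List.Vector.ofFn fun i : Fin n => u (Sum.inl (some i.succ)))) ∧
    R323.dg (u (Sum.inr 0)) (u (Sum.inr 1)) (u (Sum.inl (some 0))) = u (Sum.inl none)
  have hq : SFP q := by
    refine SFP.and ?_ (SFP.and ?_ (SFP.and ?_ ?_))
    · refine SFP.and (SFP.le (SFF.const 1) (SFF.proj _)) (SFP.and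
        (SFP.lt (SFF.proj _) (SF2.comp hp (SFF.proj _) (SFF.add (SFF.proj _) (SFF.const 1))))
        (SFP.and (SFP.lt (SFF.proj _) (SFF.add (SFF.proj _) (SFF.const 1)))
        (SFP.and (SFP.eq (SFF.dg hp (SFF.proj _) (SFF.proj _) (SFF.proj _))
          (SFF.tsub (SFF.proj _) (SFF.const 1))) ?_)))
      exact SFP.ballComp (ι := env) hB
        (q := fun u => R323.dg (u (some (Sum.inr 0))) (u (some (Sum.inr 1))) (u none) <
          u (some (Sum.inr 0)) - 1)
        (SFP.lt (SFF.dg hp (SFF.proj _) (SFF.proj _) (SFF.proj _))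
          (SFF.tsub (SFF.proj _) (SFF.const 1))) (SFF.proj _)
    · exact SFP.eq (SFF.dg hp (SFF.proj _) (SFF.proj _) (SFF.const 0))
        (SFV.comp hf (fs := fun i u => u (Sum.inl (some i.succ))) (fun i => SFF.proj _))
    · refine SFP.ballComp (ι := env) hB
        (q := fun u => R323.dg (u (some (Sum.inr 0))) (u (some (Sum.inr 1))) (u none + 1) =
          g (u none ::ᵥ R323.dg (u (some (Sum.inr 0))) (u (some (Sum.inr 1))) (u none) ::ᵥ
            List.Vector.ofFn fun i : Fin n => u (some (Sum.inl (some i.succ))))) ?_ (SFF.proj _)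
      refine SFP.eq (SFF.dg hp (SFF.proj _) (SFF.proj _) (SFF.add (SFF.proj _) (SFF.const 1))) ?_
      let fs : Fin (n + 2) → ((Option env → ℕ) → ℕ) := Fin.cons (fun u => u none)
        (Fin.cons (fun u => R323.dg (u (some (Sum.inr 0))) (u (some (Sum.inr 1))) (u none))
          (fun i u => u (some (Sum.inl (some i.succ)))))
      have hfs : ∀ i, SFF (fs i) := by
        intro i
        refine Fin.cases ?_ (fun i => Fin.cases ?_ (fun i => ?_) i) i
        · exact SFF.proj _
        · exact SFF.dg hp (SFF.proj _) (SFF.proj _) (SFF.proj _)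
        · exact SFF.proj _
      exact SFV.comp hg hfs
    · exact SFP.eq (SFF.dg hp (SFF.proj _) (SFF.proj _) (SFF.proj _)) (SFF.proj _)
  have key : ∀ u : env → ℕ, q u → ∀ i < u (Sum.inl (some 0)) + 1,
      R323.dg (u (Sum.inr 0)) (u (Sum.inr 1)) i =
        H (fun i : Fin n => u (Sum.inl (some i.succ))) i := by
    intro u hu i
    obtain ⟨-, h0, hs, -⟩ := hu
    induction i with
    | zero => intro _; exact h0
    | succ i ih =>
      intro hi
      rw [hs i (by omega), ih (by omega)]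
  refine (SFP.exBlock (κ := Fin 3) hq ?_).congr ?_
  · intro v y y' h h'
    have k1 := key _ h
    have k2 := key _ h'
    have := canCode_unique h.1 h'.1 (fun i hi => by
      rw [k1 i hi, k2 i hi]; rfl)
    obtain ⟨e0, e1, e2⟩ := this
    ext i
    fin_cases i
    · exact e0
    · exact e1
    · exact e2
  · intro v
    change (v none = H (fun i : Fin n => v (some i.succ)) (v (some 0))) ↔ _
    constructor
    · intro hv
      obtain ⟨Q, c, j, hcc, hd⟩ := exists_canCode (v (some 0)) (H (fun i : Fin n => v (some i.succ)))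
      refine ⟨![Q, c, j], hcc, hd 0 (by omega), ?_, ?_⟩
      · intro i hi
        change i < v (some 0) at hi
        change R323.dg Q c (i + 1) = g (i ::ᵥ R323.dg Q c i ::ᵥ _)
        rw [hd (i + 1) (by omega), hd i (by omega)]
        rfl
      · change R323.dg Q c (v (some 0)) = v none
        rw [hd _ (by omega), hv]
    · rintro ⟨y, hy⟩
      have k := key _ hy (v (some 0)) (Nat.lt_succ_self _)
      have hz := hy.2.2.2
      change R323.dg (y 0) (y 1) (v (some 0)) = v none at hz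
      change R323.dg (y 0) (y 1) (v (some 0)) = H (fun i : Fin n => v (some i.succ)) (v (some 0)) at k
      rw [← hz, k]

theorem sfv_of_primrec' (hp : PowH) (hB : BallH) {n : ℕ} {f : List.Vector ℕ n → ℕ} (hf : Nat.Primrec' f) : SFV f := by
  induction hf with
  | zero => exact SFF.const 0
  | succ =>
    have : SFF (fun v : Fin 1 → ℕ => v 0 + 1) := SFF.add (SFF.proj 0) (SFF.const 1)
    exact this
  | get i =>
    refine (SFF.proj i).congr ?_
    intro v
    simp
  | @comp m n f g hf hg ihf ihg =>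
    exact SFV.comp ihf ihg
  | @prec n f g hf hg ihf ihg => exact SFV.prec hp hB ihf ihg

end Graph

end Crest.Agent.R323
end

-- ▼ part R323/Halt
section

/-!
# R323.Halt

Every r.e. set of tuples is described by a primitive recursive predicate with a unique stage.
-/

set_option autoImplicit false

namespace Crest.Agent.R323.Halt

open Nat.Partrec

/-- the encoding of tuples used by `REPred` -/
def enc {n : ℕ} (a : Fin n → ℕ) : ℕ :=
  @Encodable.encode (Fin n → ℕ) Primcodable.toEncodable a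

theorem exists_code {n : ℕ} (S : Set (Fin n → ℕ)) (hS : REPred fun a => a ∈ S) :
    ∃ c : Nat.Partrec.Code, ∀ a : Fin n → ℕ, a ∈ S ↔ ∃ k, (Code.evaln k c (enc a)).isSome := by
  obtain ⟨c, hc⟩ := Code.exists_code.1 hS
  refine ⟨c, fun a => ?_⟩
  have h1 : a ∈ S ↔ (c.eval (enc a)).Dom := by
    rw [hc]
    simp only [enc, Encodable.encodek]
    simp [Part.assert]
  rw [h1, Part.dom_iff_mem]
  constructor
  · rintro ⟨y, hy⟩
    obtain ⟨k, hk⟩ := Code.evaln_complete.1 hy
    exact ⟨k, by rw [Option.mem_def] at hk; simp [hk]⟩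
  · rintro ⟨k, hk⟩
    obtain ⟨y, hy⟩ := Option.isSome_iff_exists.1 hk
    exact ⟨y, Code.evaln_sound (by simpa [Option.mem_def] using hy)⟩

theorem exists_prim_unique {n : ℕ} (S : Set (Fin n → ℕ)) (hS : REPred fun a => a ∈ S) :
    ∃ g : List.Vector ℕ (n + 1) → ℕ, Nat.Primrec' g ∧
      ∀ a : Fin n → ℕ,
        (a ∈ S → ∃! k, g (k ::ᵥ List.Vector.ofFn a) = 0) ∧
        (a ∉ S → ∀ k, g (k ::ᵥ List.Vector.ofFn a) ≠ 0) := by
  obtain ⟨c, hc⟩ := exists_code S hS
  let T : ℕ → List.Vector ℕ n → Bool := fun k v => (Code.evaln k c (enc v.get)).isSome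
  have hT : Primrec₂ T := by
    have h0 : Primrec fun p : ℕ × List.Vector ℕ n => enc p.2.get :=
      Primrec.encode.comp (Primrec.vector_get'.comp Primrec.snd)
    have h1 : Primrec fun p : ℕ × List.Vector ℕ n => Code.evaln p.1 c (enc p.2.get) :=
      Code.primrec_evaln.comp ((Primrec.fst.pair (Primrec.const c)).pair h0)
    exact Primrec.option_isSome.comp h1
  let g : List.Vector ℕ (n + 1) → ℕ := fun v =>
    bif T v.head v.tail && (bif decide (v.head = 0) then true else !(T (v.head - 1) v.tail)) then 0 else 1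
  have hg : Primrec g := by
    have hh : Primrec fun v : List.Vector ℕ (n+1) => v.head := Primrec.vector_head
    have ht : Primrec fun v : List.Vector ℕ (n+1) => v.tail := Primrec.vector_tail
    have h1 : Primrec fun v : List.Vector ℕ (n+1) => T v.head v.tail := hT.comp hh ht
    have h2 : Primrec fun v : List.Vector ℕ (n+1) => T (v.head - 1) v.tail :=
      hT.comp (Primrec.nat_sub.comp hh (Primrec.const 1)) ht
    have h0 : Primrec fun v : List.Vector ℕ (n+1) => decide (v.head = 0) :=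
      Primrec.eq.decide.comp hh (Primrec.const 0)
    exact Primrec.cond (Primrec.and.comp h1 (Primrec.cond h0 (Primrec.const true)
      (Primrec.not.comp h2))) (Primrec.const 0) (Primrec.const 1)
  have hmono : ∀ v k₁ k₂, k₁ ≤ k₂ → T k₁ v = true → T k₂ v = true := by
    intro v k₁ k₂ hk h
    obtain ⟨y, hy⟩ := Option.isSome_iff_exists.1 h
    have : y ∈ Code.evaln k₂ c (enc v.get) := Code.evaln_mono hk (by simpa [Option.mem_def] using hy)
    rw [Option.mem_def] at this
    simp [T, this]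
  have hgz : ∀ v k, g (k ::ᵥ v) = 0 ↔ (T k v = true ∧ (k = 0 ∨ T (k - 1) v = false)) := by
    intro v k
    simp only [g, List.Vector.head_cons, List.Vector.tail_cons]
    by_cases h : T k v = true
    · by_cases hk : k = 0
      · subst hk; simp [h]
      · cases hq : T (k - 1) v <;> simp [h, hk]
    · simp [h]
  refine ⟨g, Nat.Primrec'.of_prim hg, fun a => ⟨fun ha => ?_, fun ha k hk => ?_⟩⟩
  · have hex : ∃ k, T k (List.Vector.ofFn a) = true := by
      obtain ⟨k, hk⟩ := (hc a).1 ha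
      refine ⟨k, ?_⟩
      have : (List.Vector.ofFn a).get = a := by
        funext i; simp
      simpa [T, this] using hk
    classical
    refine ⟨Nat.find hex, ?_, ?_⟩
    · show g (Nat.find hex ::ᵥ List.Vector.ofFn a) = 0
      rw [hgz]
      refine ⟨Nat.find_spec hex, ?_⟩
      by_cases h0 : Nat.find hex = 0
      · exact Or.inl h0
      · right
        have := Nat.find_min hex (m := Nat.find hex - 1) (by omega)
        simpa using this
    · intro k hk
      change g (k ::ᵥ List.Vector.ofFn a) = 0 at hk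
      rw [hgz] at hk
      obtain ⟨h1, h2⟩ := hk
      have hle : Nat.find hex ≤ k := Nat.find_min' hex h1
      rcases Nat.lt_or_ge (Nat.find hex) k with hlt | hge
      · rcases h2 with h2 | h2
        · omega
        · have := hmono _ _ (k - 1) (by omega) (Nat.find_spec hex)
          rw [h2] at this
          simp at this
      · omega
  · rw [hgz] at hk
    apply ha
    rw [hc a]
    refine ⟨k, ?_⟩
    have : (List.Vector.ofFn a).get = a := by
      funext i; simp
    simpa [T, this] using hk.1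

end Crest.Agent.R323.Halt
end

-- ▼ part R323/Assemble
section

/-!
# Final assembly of S0500 from the primitive recursive closure
-/

set_option autoImplicit false

namespace Crest.Agent.R323

/-- recursively enumerable sets are single-fold Diophantine -/
theorem sfp_of_rePred (hp : PowH) (hB : BallH) {n : ℕ} (S : Set (Fin n → ℕ)) (hS : REPred fun a => a ∈ S) :
    SFP (fun a : Fin n → ℕ => a ∈ S) := by
  obtain ⟨g, hg, h⟩ := Halt.exists_prim_unique S hS
  have hV := sfv_of_primrec' hp hB hg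
  let fs : Fin (n + 1) → ((Option (Fin n) → ℕ) → ℕ) :=
    Fin.cons (fun u => u none) (fun i u => u (some i))
  have hfs : ∀ i, SFF (fs i) := by
    intro i
    refine Fin.cases ?_ (fun i => ?_) i
    · exact SFF.proj _
    · exact SFF.proj _
  have h1 : SFP (fun u : Option (Fin n) → ℕ =>
      g (u none ::ᵥ List.Vector.ofFn (fun i => u (some i))) = 0) :=
    SFP.eq (SFV.comp hV hfs) (SFF.const 0)
  refine (SFP.ex (q := fun v y => g (y ::ᵥ List.Vector.ofFn v) = 0) h1 ?_).congr ?_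
  · intro v y y' hy hy'
    by_cases hv : v ∈ S
    · exact ((h v).1 hv).unique hy hy'
    · exact absurd hy ((h v).2 hv y)
  · intro v
    constructor
    · intro hv
      obtain ⟨k, hk, -⟩ := (h v).1 hv
      exact ⟨k, hk⟩
    · rintro ⟨k, hk⟩
      by_contra hv
      exact (h v).2 hv k hk

theorem final (hp : PowH) (hB : BallH) (n : ℕ) (S : Set (Fin n → ℕ)) (hS : REPred fun a => a ∈ S) :
    ∃ m : ℕ, 1 ≤ m ∧ ∃ P : MvPolynomial (Fin n ⊕ Fin m) ℤ, ∀ a : Fin n → ℕ,
      (a ∈ S → ∃! w : Fin m → ℕ,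
        MvPolynomial.eval (Sum.elim (fun i => (a i : ℤ)) (fun j => (w j : ℤ))) P = 0) ∧
      (a ∉ S → ∀ w : Fin m → ℕ,
        MvPolynomial.eval (Sum.elim (fun i => (a i : ℤ)) (fun j => (w j : ℤ))) P ≠ 0) := by
  have h0 : SFP (fun a : Fin n → ℕ => a ∈ S) := sfp_of_rePred hp hB S hS
  -- add one dummy witness equal to `0`
  obtain ⟨m, f, hf, h1, h2⟩ := h0.elim
  obtain ⟨F, hF⟩ := hf
  have hev : ∀ (k : ℕ) (P : MvPolynomial (Fin n ⊕ Fin k) ℤ) (a : Fin n → ℕ) (w : Fin k → ℕ),
      MvPolynomial.eval (Sum.elim (fun i => (a i : ℤ)) (fun j => (w j : ℤ))) P =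
        ev P (Sum.elim a w) := by
    intro k P a w
    simp only [ev]
    congr 2
    ext i
    rcases i with i | i <;> rfl
  let G : MvPolynomial (Fin n ⊕ Fin (m + 1)) ℤ :=
    (MvPolynomial.rename (Sum.map id Fin.castSucc) F) ^ 2 +
      (MvPolynomial.X (Sum.inr (Fin.last m))) ^ 2
  have hG : ∀ (a : Fin n → ℕ) (w : Fin (m + 1) → ℕ), ev G (Sum.elim a w) = 0 ↔
      f (Sum.elim a (fun i => w i.castSucc)) = 0 ∧ w (Fin.last m) = 0 := by
    intro a w
    have e : ev G (Sum.elim a w) =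
        f (Sum.elim a (fun i => w i.castSucc)) ^ 2 + (w (Fin.last m) : ℤ) ^ 2 := by
      rw [hF]
      simp only [ev, G, map_add, map_pow, MvPolynomial.eval_rename, MvPolynomial.eval_X,
        Sum.elim_inr]
      congr 4
      ext i
      rcases i with i | i <;> rfl
    rw [e]
    constructor
    · intro h
      have a1 : f (Sum.elim a (fun i => w i.castSucc)) = 0 := by
        nlinarith [sq_nonneg (f (Sum.elim a (fun i => w i.castSucc))),
          sq_nonneg (w (Fin.last m) : ℤ)]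
      have a2 : (w (Fin.last m) : ℤ) = 0 := by
        nlinarith [sq_nonneg (f (Sum.elim a (fun i => w i.castSucc))),
          sq_nonneg (w (Fin.last m) : ℤ)]
      exact ⟨a1, by exact_mod_cast a2⟩
    · rintro ⟨a1, a2⟩
      simp [a1, a2]
  refine ⟨m + 1, by omega, G, fun a => ⟨fun ha => ?_, fun ha w hw => ?_⟩⟩
  · obtain ⟨w, hw⟩ := (h1 a).1 ha
    refine ⟨Fin.snoc (α := fun _ => ℕ) w 0, ?_, ?_⟩
    · change MvPolynomial.eval _ G = 0
      rw [hev, hG]
      refine ⟨?_, by simp⟩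
      simpa using hw
    · intro w' hw'
      change MvPolynomial.eval _ G = 0 at hw'
      rw [hev, hG] at hw'
      have e := h2 a _ _ hw'.1 hw
      ext i
      refine Fin.lastCases ?_ (fun i => ?_) i
      · simp [hw'.2]
      · have := congrFun e i
        simpa using this
  · rw [hev, hG] at hw
    exact ha ((h1 a).2 ⟨_, hw.1⟩)

end Crest.Agent.R323
end

-- ▼ part R323/Digits
section

/-!
# Base-`q` digit sums (pure arithmetic for the bounded quantifier)
-/

set_option autoImplicit false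

namespace Crest.Agent.R323

open Finset

/-- base-`q` digit sum `∑_{i<n} f i * q^i` -/
def dsum (q n : ℕ) (f : ℕ → ℕ) : ℕ := ∑ i ∈ range n, f i * q ^ i

/-- geometric sum `∑_{i<n} q^i` -/
def geo (q n : ℕ) : ℕ := ∑ i ∈ range n, q ^ i

@[simp] lemma dsum_zero (q : ℕ) (f : ℕ → ℕ) : dsum q 0 f = 0 := by simp [dsum]

@[simp] lemma geo_zero (q : ℕ) : geo q 0 = 0 := by simp [geo]

lemma dsum_succ (q n : ℕ) (f : ℕ → ℕ) : dsum q (n + 1) f = dsum q n f + f n * q ^ n := by
  simp [dsum, sum_range_succ]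

lemma geo_succ (q n : ℕ) : geo q (n + 1) = geo q n + q ^ n := by
  simp [geo, sum_range_succ]

lemma dsum_succ' (q n : ℕ) (f : ℕ → ℕ) :
    dsum q (n + 1) f = f 0 + q * dsum q n (fun i => f (i + 1)) := by
  simp only [dsum, sum_range_succ', mul_sum, pow_succ]
  rw [add_comm]
  congr 1
  · simp
  · apply sum_congr rfl; intro i _; ring


lemma dsum_const (q n c : ℕ) : dsum q n (fun _ => c) = c * geo q n := by
  simp [dsum, geo, mul_sum]

lemma dsum_congr {q n : ℕ} {f g : ℕ → ℕ} (h : ∀ i < n, f i = g i) : dsum q n f = dsum q n g := by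
  unfold dsum
  exact sum_congr rfl fun i hi => by rw [h i (mem_range.1 hi)]

lemma dsum_add (q n : ℕ) (f g : ℕ → ℕ) :
    dsum q n (fun i => f i + g i) = dsum q n f + dsum q n g := by
  simp [dsum, add_mul, sum_add_distrib]

lemma dsum_smul (q n c : ℕ) (f : ℕ → ℕ) :
    dsum q n (fun i => c * f i) = c * dsum q n f := by
  simp [dsum, mul_sum, mul_assoc]


/-- `(q-1) * geo q n + 1 = q^n`. -/
lemma geo_mul (q n : ℕ) (hq : 1 ≤ q) : (q - 1) * geo q n + 1 = q ^ n := by
  obtain ⟨r, rfl⟩ : ∃ r, q = r + 1 := ⟨q - 1, by omega⟩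
  simp only [Nat.add_sub_cancel]
  induction n with
  | zero => simp
  | succ n ih => rw [geo_succ, mul_add, pow_succ]; nlinarith [ih]


lemma dsum_lt {q n : ℕ} {f : ℕ → ℕ} (h : ∀ i < n, f i < q) : dsum q n f < q ^ n := by
  induction n with
  | zero => simp
  | succ n ih =>
    rw [dsum_succ, pow_succ]
    have h1 := ih fun i hi => h i (by omega)
    have h2 := h n (by omega)
    calc dsum q n f + f n * q ^ n < q ^ n + f n * q ^ n := by omega
      _ = (f n + 1) * q ^ n := by ring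
      _ ≤ q * q ^ n := Nat.mul_le_mul_right _ h2
      _ = q ^ n * q := by ring

lemma dsum_mod_div {q n : ℕ} {f : ℕ → ℕ} (hq : 0 < q) (h : ∀ i < n + 1, f i < q) :
    dsum q (n + 1) f % q = f 0 ∧ dsum q (n + 1) f / q = dsum q n (fun i => f (i + 1)) := by
  rw [dsum_succ']
  have h0 := h 0 (by omega)
  constructor
  · rw [Nat.add_mul_mod_self_left, Nat.mod_eq_of_lt h0]
  · rw [Nat.add_mul_div_left _ _ hq, Nat.div_eq_of_lt h0, zero_add]

lemma dsum_inj {q n : ℕ} {f g : ℕ → ℕ} (hf : ∀ i < n, f i < q) (hg : ∀ i < n, g i < q)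
    (h : dsum q n f = dsum q n g) : ∀ i < n, f i = g i := by
  induction n generalizing f g with
  | zero => intro i hi; omega
  | succ n ih =>
    have hq : 0 < q := by have := hf 0 (by omega); omega
    obtain ⟨a1, a2⟩ := dsum_mod_div hq hf
    obtain ⟨b1, b2⟩ := dsum_mod_div hq hg
    intro i hi
    rcases i with _ | i
    · rw [← a1, ← b1, h]
    · exact ih (f := fun i => f (i + 1)) (g := fun i => g (i + 1))
        (fun i hi => hf _ (by omega)) (fun i hi => hg _ (by omega)) (by rw [← a2, ← b2, h]) i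
        (by omega)

lemma exists_dsum {q n s : ℕ} (hq : 0 < q) (h : s < q ^ n) :
    ∃ f : ℕ → ℕ, (∀ i, f i < q) ∧ s = dsum q n f := by
  induction n generalizing s with
  | zero => exact ⟨fun _ => 0, fun _ => hq, by simp at h; simp [h]⟩
  | succ n ih =>
    obtain ⟨f, hf, hs⟩ := ih (s := s / q) (by
      rw [Nat.div_lt_iff_lt_mul hq]; rwa [pow_succ] at h)
    refine ⟨fun i => Nat.rec (s % q) (fun j _ => f j) i, ?_, ?_⟩
    · intro i
      rcases i with _ | i
      · exact Nat.mod_lt _ hq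
      · exact hf i
    · rw [dsum_succ']
      simp only
      rw [← hs]
      exact (Nat.mod_add_div s q).symm

/-- digit function as function of the number -/
lemma dsum_digit {q n : ℕ} {f : ℕ → ℕ} (hf : ∀ i < n, f i < q) {j : ℕ} (hj : j < n) :
    dsum q n f / q ^ j % q = f j := by
  induction n generalizing f j with
  | zero => omega
  | succ n ih =>
    have hq : 0 < q := by have := hf 0 (by omega); omega
    obtain ⟨a1, a2⟩ := dsum_mod_div hq hf
    rcases j with _ | j
    · simpa using a1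
    · rw [pow_succ', ← Nat.div_div_eq_div_mul, a2]
      exact ih (f := fun i => f (i + 1)) (fun i hi => hf _ (by omega)) (by omega)

lemma dsum_digits {q n s : ℕ} (hq : 0 < q) (h : s < q ^ n) :
    dsum q n (fun i => s / q ^ i % q) = s := by
  obtain ⟨f, hf, hs⟩ := exists_dsum hq h
  conv_rhs => rw [hs]
  apply dsum_congr
  intro i hi
  rw [hs]
  exact dsum_digit (fun i _ => hf i) hi

/-! ### bitwise and -/

lemma land_split {k a b c d : ℕ} (ha : a < 2 ^ k) (hc : c < 2 ^ k) :
    (a + 2 ^ k * b) &&& (c + 2 ^ k * d) = (a &&& c) + 2 ^ k * (b &&& d) := by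
  have hac : a &&& c < 2 ^ k := Nat.and_lt_two_pow _ hc
  rw [add_comm a, add_comm c, add_comm (a &&& c)]
  apply Nat.eq_of_testBit_eq
  intro i
  rw [Nat.testBit_and]
  rcases lt_or_ge i k with hi | hi
  · rw [Nat.testBit_two_pow_mul_add _ ha, Nat.testBit_two_pow_mul_add _ hc,
      Nat.testBit_two_pow_mul_add _ hac]
    simp [hi]
  · rw [Nat.testBit_two_pow_mul_add _ ha, Nat.testBit_two_pow_mul_add _ hc,
      Nat.testBit_two_pow_mul_add _ hac]
    simp [not_lt.2 hi]

lemma dsum_land {k n : ℕ} {f g : ℕ → ℕ} (hf : ∀ i < n, f i < 2 ^ k) (hg : ∀ i < n, g i < 2 ^ k) :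
    dsum (2 ^ k) n f &&& dsum (2 ^ k) n g = dsum (2 ^ k) n (fun i => f i &&& g i) := by
  induction n generalizing f g with
  | zero => simp
  | succ n ih =>
    rw [dsum_succ', dsum_succ', dsum_succ', land_split (hf 0 (by omega)) (hg 0 (by omega)),
      ih (fun i hi => hf _ (by omega)) (fun i hi => hg _ (by omega))]

lemma land_two_pow_sub_one (x k : ℕ) : x &&& (2 ^ k - 1) = x % 2 ^ k :=
  Nat.and_two_pow_sub_one_eq_mod x k

/-- mask lemma: a number whose AND with the mask `(2^K-1)*geo` is itself is a digit sum with digits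
`< 2^K`. -/
lemma mask_iff {k K n S : ℕ} (hK : K ≤ k) :
    S &&& ((2 ^ K - 1) * geo (2 ^ k) n) = S ↔
      ∃ f : ℕ → ℕ, (∀ i, f i < 2 ^ K) ∧ S = dsum (2 ^ k) n f := by
  have hKk : 2 ^ K ≤ 2 ^ k := Nat.pow_le_pow_right (by norm_num) hK
  have hpos : 0 < 2 ^ K := by positivity
  have hposk : 0 < 2 ^ k := by positivity
  have hmask : (2 ^ K - 1) * geo (2 ^ k) n = dsum (2 ^ k) n (fun _ => 2 ^ K - 1) :=
    (dsum_const _ _ _).symm
  constructor
  · intro h
    have hlt : S < (2 ^ k) ^ n := by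
      have h1 : S ≤ (2 ^ K - 1) * geo (2 ^ k) n := by
        conv_lhs => rw [← h]
        exact Nat.and_le_right
      have h2 : dsum (2 ^ k) n (fun _ => 2 ^ K - 1) < (2 ^ k) ^ n :=
        dsum_lt fun i _ => by omega
      omega
    obtain ⟨f, hf, hs⟩ := exists_dsum hposk hlt
    have key : dsum (2 ^ k) n (fun i => f i &&& (2 ^ K - 1)) = dsum (2 ^ k) n f := by
      rw [← dsum_land (fun i _ => hf i) (fun i _ => by omega), ← hmask, ← hs]
      exact h
    have hdig : ∀ i < n, (f i &&& (2 ^ K - 1)) = f i :=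
      dsum_inj (fun i _ => by
        have := hf i
        exact lt_of_le_of_lt Nat.and_le_left this) (fun i _ => hf i) key
    refine ⟨fun i => if i < n then f i else 0, ?_, ?_⟩
    · intro i
      simp only
      split_ifs with hi
      · have := hdig i hi
        rw [land_two_pow_sub_one] at this
        rw [← this]
        exact Nat.mod_lt _ hpos
      · exact hpos
    · rw [hs]
      apply dsum_congr
      intro i hi
      simp [hi]
  · rintro ⟨f, hf, rfl⟩
    rw [hmask, dsum_land (fun i _ => lt_of_lt_of_le (hf i) hKk) (fun i _ => by omega)]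
    apply dsum_congr
    intro i _
    rw [land_two_pow_sub_one]
    exact Nat.mod_eq_of_lt (hf i)

/-! ### sum of digits modulo `q-1` -/

lemma dsum_modEq_of_modEq {q r n : ℕ} {M : ℕ} {f : ℕ → ℕ} (h : q ≡ r [MOD M]) :
    dsum q n f ≡ dsum r n f [MOD M] := by
  unfold dsum
  induction n with
  | zero => simp; rfl
  | succ n ih =>
    rw [sum_range_succ, sum_range_succ]
    exact Nat.ModEq.add ih (Nat.ModEq.mul_left _ (h.pow n))

lemma dsum_one (n : ℕ) (f : ℕ → ℕ) : dsum 1 n f = ∑ i ∈ range n, f i := by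
  simp [dsum]

/-- (D6) -/
lemma dsum_mod_sub_one {q n : ℕ} {f : ℕ → ℕ} (hq : 1 ≤ q) (h : ∑ i ∈ range n, f i < q - 1) :
    dsum q n f % (q - 1) = ∑ i ∈ range n, f i := by
  have h1 : q ≡ 1 [MOD (q - 1)] := by
    have : (q - 1) ∣ (q - 1) := dvd_rfl
    exact ((Nat.modEq_iff_dvd' hq).2 this).symm
  have h2 := dsum_modEq_of_modEq (n := n) (f := f) h1
  rw [dsum_one] at h2
  rw [← Nat.mod_eq_of_lt h]
  exact h2

/-! ### spreading -/

/-- the mask for spread sequences -/
lemma pow_mod_spread {q s : ℕ} (hs : 1 ≤ s) (hq : 1 ≤ q) : q ^ s ≡ q [MOD (q ^ s - q)] := by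
  have h1 : q ≤ q ^ s := by
    calc q = q ^ 1 := (pow_one q).symm
      _ ≤ q ^ s := Nat.pow_le_pow_right hq hs
  exact ((Nat.modEq_iff_dvd' h1).2 dvd_rfl).symm

lemma spread_mod {q s n : ℕ} {f : ℕ → ℕ} (hq : 2 ≤ q) (hs : n + 1 ≤ s)
    (hf : ∀ i < n, f i < q) : dsum (q ^ s) n f % (q ^ s - q) = dsum q n f := by
  have h2 := dsum_modEq_of_modEq (n := n) (f := f) (pow_mod_spread (q := q) (s := s)
    (by omega) (by omega))
  rcases Nat.eq_zero_or_pos n with hn | hn
  · subst hn; simp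
  have h3 : dsum q n f < q ^ n := dsum_lt hf
  have h4 : q ^ n ≤ q ^ s - q := by
    have h5 : q ^ (n + 1) ≤ q ^ s := Nat.pow_le_pow_right (by omega) hs
    have h6 : q ≤ q ^ n := by
      calc q = q ^ 1 := (pow_one q).symm
        _ ≤ q ^ n := Nat.pow_le_pow_right (by omega) hn
    have h7 : 2 * q ^ n ≤ q ^ (n + 1) := by rw [pow_succ']; exact Nat.mul_le_mul_right _ hq
    omega
  have h5 : dsum q n f % (q ^ s - q) = dsum q n f := Nat.mod_eq_of_lt (lt_of_lt_of_le h3 h4)
  rw [← h5]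
  exact h2

/-- (D4) spread: characterisation of `dsum (q^s) n f` from `dsum q n f`. -/
lemma spread_iff {k s n Y : ℕ} {f : ℕ → ℕ} (hk : 1 ≤ k) (hs : n + 1 ≤ s)
    (hf : ∀ i < n, f i < 2 ^ k) :
    (Y &&& ((2 ^ k - 1) * geo ((2 ^ k) ^ s) n) = Y ∧ Y % ((2 ^ k) ^ s - 2 ^ k) = dsum (2 ^ k) n f)
      ↔ Y = dsum ((2 ^ k) ^ s) n f := by
  have h2k : 2 ≤ 2 ^ k := by
    calc 2 = 2 ^ 1 := rfl
      _ ≤ 2 ^ k := Nat.pow_le_pow_right (by norm_num) hk
  have hks : k ≤ k * s := Nat.le_mul_of_pos_right _ (by omega)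
  constructor
  · rintro ⟨h1, h2⟩
    rw [← pow_mul, mask_iff hks] at h1
    obtain ⟨g, hg, rfl⟩ := h1
    rw [← pow_mul] at h2 ⊢
    rw [pow_mul, spread_mod h2k hs (fun i _ => hg i)] at h2
    have := dsum_inj (fun i _ => hg i) hf h2
    exact dsum_congr this
  · rintro rfl
    refine ⟨?_, spread_mod h2k hs hf⟩
    rw [← pow_mul, mask_iff hks]
    refine ⟨fun i => if i < n then f i else 0, ?_, ?_⟩
    · intro i
      simp only
      split_ifs with hi
      · exact hf i hi
      · positivity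
    · apply dsum_congr
      intro i hi
      simp [hi]

/-! ### Hadamard product -/


lemma dsum_mul_pow (q n s : ℕ) (c : ℕ → ℕ) :
    dsum (q ^ s) n (fun j => c j * q ^ j) = dsum (q ^ (s + 1)) n c := by
  unfold dsum
  apply sum_congr rfl; intro j _
  rw [← pow_mul, ← pow_mul, mul_assoc, ← pow_add]
  congr 2
  ring

lemma single_digit_mask {k n j : ℕ} {F : ℕ → ℕ} (hF : ∀ i < n, F i < 2 ^ k) (hj : j < n) :
    dsum (2 ^ k) n F &&& ((2 ^ k - 1) * (2 ^ k) ^ j) = F j * (2 ^ k) ^ j := by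
  have h1 : ∀ c : ℕ, c * (2 ^ k) ^ j = dsum (2 ^ k) n (fun i => if i = j then c else 0) := by
    intro c
    unfold dsum
    rw [Finset.sum_eq_single j]
    · simp
    · intro b _ hb; simp [hb]
    · intro h; exact absurd (mem_range.2 hj) h
  have hpos : 0 < 2 ^ k := by positivity
  rw [h1, h1, dsum_land hF]
  · apply dsum_congr
    intro i hi
    split_ifs with h
    · subst h
      rw [land_two_pow_sub_one]
      exact Nat.mod_eq_of_lt (hF i hi)
    · simp
  · intro i _
    split_ifs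
    · omega
    · exact hpos

/-- the masked product of a digit sum and a spread digit sum -/
lemma hadamard_mask {k s n : ℕ} {f g : ℕ → ℕ} (hs : n ≤ s)
    (hfg : ∀ i < n, ∀ j < n, f i * g j < 2 ^ k) :
    (dsum (2 ^ k) n f * dsum ((2 ^ k) ^ s) n g) &&& ((2 ^ k - 1) * geo ((2 ^ k) ^ (s + 1)) n)
      = dsum ((2 ^ k) ^ (s + 1)) n (fun i => f i * g i) := by
  have hpos : 0 < 2 ^ k := by positivity
  have h1 : dsum (2 ^ k) n f * dsum ((2 ^ k) ^ s) n g =
      dsum (2 ^ (k * s)) n (fun j => dsum (2 ^ k) n (fun i => f i * g j)) := by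
    rw [pow_mul]
    have : (fun j => dsum (2 ^ k) n (fun i => f i * g j)) = fun j => dsum (2 ^ k) n f * g j := by
      funext j
      rw [mul_comm, ← dsum_smul]
      apply dsum_congr
      intro i _
      ring
    rw [this, dsum_smul]
  have h2 : (2 ^ k - 1) * geo ((2 ^ k) ^ (s + 1)) n =
      dsum (2 ^ (k * s)) n (fun j => (2 ^ k - 1) * (2 ^ k) ^ j) := by
    rw [pow_mul, dsum_mul_pow, dsum_const]
  have hns : (2 ^ k) ^ n ≤ 2 ^ (k * s) := by
    rw [← pow_mul]
    exact Nat.pow_le_pow_right (by norm_num) (Nat.mul_le_mul_left _ hs)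
  rw [h1, h2, dsum_land]
  · rw [← dsum_mul_pow, ← pow_mul]
    apply dsum_congr
    intro j hj
    exact single_digit_mask (fun i hi => hfg i hi j hj) hj
  · intro j hj
    exact lt_of_lt_of_le (dsum_lt fun i hi => hfg i hi j hj) hns
  · intro j hj
    refine lt_of_lt_of_le ?_ hns
    calc (2 ^ k - 1) * (2 ^ k) ^ j < 2 ^ k * (2 ^ k) ^ j :=
          Nat.mul_lt_mul_of_pos_right (by omega) (by positivity)
      _ = (2 ^ k) ^ (j + 1) := by rw [pow_succ']
      _ ≤ (2 ^ k) ^ n := Nat.pow_le_pow_right hpos (by omega)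

/-- (D5) Hadamard product -/
lemma hadamard {k s n : ℕ} {f g : ℕ → ℕ} (hk : 1 ≤ k) (hs : n ≤ s)
    (hfg : ∀ i < n, ∀ j < n, f i * g j < 2 ^ k) :
    ((dsum (2 ^ k) n f * dsum ((2 ^ k) ^ s) n g) &&&
        ((2 ^ k - 1) * geo ((2 ^ k) ^ (s + 1)) n)) % ((2 ^ k) ^ (s + 1) - 2 ^ k)
      = dsum (2 ^ k) n (fun i => f i * g i) := by
  rw [hadamard_mask hs hfg]
  apply spread_mod
  · calc 2 = 2 ^ 1 := rfl
      _ ≤ 2 ^ k := Nat.pow_le_pow_right (by norm_num) hk
  · omega
  · intro i hi; exact hfg i hi i hi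

/-! ### the index sequence -/

/-- (D7) -/
lemma idx_spec {q n : ℕ} (hq : 1 ≤ q) :
    dsum q n (fun i => i) * (q - 1) + geo q n + q ^ n = n * q ^ n + 1 := by
  obtain ⟨r, rfl⟩ : ∃ r, q = r + 1 := ⟨q - 1, by omega⟩
  simp only [Nat.add_sub_cancel]
  induction n with
  | zero => simp
  | succ n ih =>
    rw [dsum_succ, geo_succ, pow_succ]
    nlinarith [ih]


end Crest.Agent.R323
end

-- ▼ part R323/NatPoly
section

/-!
# Natural polynomials evaluated on digit sequences; the pure arithmetic of the bounded quantifier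
-/

set_option autoImplicit false

namespace Crest.Agent.R323

open Finset

/-- spreading the base `2^(k+1)` digits of `X` (only the first `n`) to base `(2^(k+1))^(n+1)` -/
def spread (k n X : ℕ) : ℕ :=
  dsum ((2 ^ (k + 1)) ^ (n + 1)) n (fun i => X / (2 ^ (k + 1)) ^ i % 2 ^ (k + 1))

lemma spread_dsum {k n : ℕ} {f : ℕ → ℕ} (hf : ∀ i < n, f i < 2 ^ (k + 1)) :
    spread k n (dsum (2 ^ (k + 1)) n f) = dsum ((2 ^ (k + 1)) ^ (n + 1)) n f :=
  dsum_congr fun _ hi => dsum_digit hf hi

lemma dsum_trunc (q n X : ℕ) (hq : 0 < q) :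
    dsum q n (fun i => X / q ^ i % q) = X % q ^ n := by
  rw [← dsum_digits hq (Nat.mod_lt X (by positivity : 0 < q ^ n))]
  apply dsum_congr
  intro i hi
  have h1 : q ^ n = q ^ i * q ^ (n - i) := by rw [← pow_add]; congr 1; omega
  have h2 : X % q ^ n / q ^ i = X / q ^ i % q ^ (n - i) := by
    rw [h1, Nat.mod_mul_right_div_self]
  rw [h2]
  have h3 : q ∣ q ^ (n - i) := dvd_pow_self q (by omega)
  rw [Nat.mod_mod_of_dvd _ h3]

/-- graph of `spread`: total, all inputs. -/
lemma spread_graph (k n X Y : ℕ) :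
    Y = spread k n X ↔
      (Y &&& ((2 ^ (k + 1) - 1) * geo ((2 ^ (k + 1)) ^ (n + 1)) n) = Y ∧
        Y % ((2 ^ (k + 1)) ^ (n + 1) - 2 ^ (k + 1)) = X % (2 ^ (k + 1)) ^ n) := by
  have hpos : 0 < 2 ^ (k + 1) := by positivity
  have h := spread_iff (k := k + 1) (s := n + 1) (n := n) (Y := Y)
    (f := fun i => X / (2 ^ (k + 1)) ^ i % 2 ^ (k + 1)) (by omega) le_rfl
    (fun i _ => Nat.mod_lt _ hpos)
  rw [dsum_trunc _ _ _ hpos] at h
  exact h.symm

/-- Hadamard product of encoded sequences -/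
def had (k n X Y : ℕ) : ℕ :=
  ((X * spread k n Y) &&& ((2 ^ (k + 1) - 1) * geo ((2 ^ (k + 1)) ^ (n + 2)) n)) %
    ((2 ^ (k + 1)) ^ (n + 2) - 2 ^ (k + 1))

lemma had_eq {k n : ℕ} {f g : ℕ → ℕ} (hg : ∀ i < n, g i < 2 ^ (k + 1))
    (hfg : ∀ i < n, ∀ j < n, f i * g j < 2 ^ (k + 1)) :
    had k n (dsum (2 ^ (k + 1)) n f) (dsum (2 ^ (k + 1)) n g) =
      dsum (2 ^ (k + 1)) n (fun i => f i * g i) := by
  unfold had
  rw [spread_dsum hg]
  exact hadamard (k := k + 1) (s := n + 1) (by omega) (by omega) hfg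

/-- syntax of natural polynomials -/
inductive NP (V : Type) : Type
  | const : ℕ → NP V
  | var : V → NP V
  | add : NP V → NP V → NP V
  | mul : NP V → NP V → NP V

namespace NP

variable {V : Type}

/-- evaluation -/
def eval : NP V → (V → ℕ) → ℕ
  | const c, _ => c
  | var x, e => e x
  | add p r, e => p.eval e + r.eval e
  | mul p r, e => p.eval e * r.eval e

/-- a bound, strictly larger than the values of all subterms -/
def bnd : NP V → (V → ℕ) → ℕ
  | const c, _ => c + 1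
  | var x, M => M x + 1
  | add p r, M => p.bnd M + r.bnd M
  | mul p r, M => p.bnd M * r.bnd M

/-- evaluation on encoded sequences (base `2^(k+1)`, length `n`) -/
def enc (k n : ℕ) : NP V → (V → ℕ) → ℕ
  | const c, _ => c * geo (2 ^ (k + 1)) n
  | var x, E => E x
  | add p r, E => enc k n p E + enc k n r E
  | mul p r, E => had k n (enc k n p E) (enc k n r E)

lemma eval_lt_bnd (p : NP V) {e M : V → ℕ} (h : ∀ x, e x ≤ M x) : p.eval e < p.bnd M := by
  induction p with
  | const c => simp [eval, bnd]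
  | var x => simp only [eval, bnd]; have := h x; omega
  | add p r hp hr => simp only [eval, bnd]; omega
  | mul p r hp hr =>
    simp only [eval, bnd]
    exact Nat.mul_lt_mul'' hp hr

lemma bnd_pos (p : NP V) (M : V → ℕ) : 0 < p.bnd M :=
  lt_of_le_of_lt (Nat.zero_le _) (p.eval_lt_bnd (e := M) (fun _ => le_rfl))

lemma enc_eq {k n : ℕ} (p : NP V) {e : V → ℕ → ℕ} {M : V → ℕ} {E : V → ℕ}
    (hE : ∀ x, E x = dsum (2 ^ (k + 1)) n (e x)) (h : ∀ x, ∀ i < n, e x i ≤ M x)
    (hb : p.bnd M ≤ 2 ^ (k + 1)) :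
    enc k n p E = dsum (2 ^ (k + 1)) n (fun i => p.eval (fun x => e x i)) := by
  induction p with
  | const c => simp [enc, eval, dsum_const]
  | var x => simp [enc, eval, hE]
  | add p r hp hr =>
    simp only [enc, eval, bnd] at *
    rw [hp (by omega), hr (by omega), dsum_add]
  | mul p r hp hr =>
    simp only [enc, eval, bnd] at *
    have h1 := p.bnd_pos M
    have h2 := r.bnd_pos M
    have h3 : p.bnd M ≤ p.bnd M * r.bnd M := Nat.le_mul_of_pos_right _ h2
    have h4 : r.bnd M ≤ p.bnd M * r.bnd M := Nat.le_mul_of_pos_left _ h1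
    rw [hp (by omega), hr (by omega)]
    apply had_eq
    · intro i hi
      have := r.eval_lt_bnd (e := fun x => e x i) (M := M) (fun x => h x i hi)
      omega
    · intro i hi j hj
      have a1 := p.eval_lt_bnd (e := fun x => e x i) (M := M) (fun x => h x i hi)
      have a2 := r.eval_lt_bnd (e := fun x => e x j) (M := M) (fun x => h x j hj)
      exact lt_of_lt_of_le (Nat.mul_lt_mul'' a1 a2) hb

end NP

/-- every integer polynomial is the difference of two natural polynomials on natural points -/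
theorem exists_NP {V : Type} (P : MvPolynomial V ℤ) :
    ∃ a b : NP V, ∀ v : V → ℕ,
      MvPolynomial.eval (fun i => (v i : ℤ)) P = (a.eval v : ℤ) - (b.eval v : ℤ) := by
  induction P using MvPolynomial.induction_on with
  | C c =>
    refine ⟨.const c.toNat, .const (-c).toNat, fun v => ?_⟩
    simp only [NP.eval, MvPolynomial.eval_C]
    omega
  | add p q hp hq =>
    obtain ⟨a, b, h⟩ := hp
    obtain ⟨c, d, h'⟩ := hq
    refine ⟨.add a c, .add b d, fun v => ?_⟩
    simp only [NP.eval, map_add, h, h']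
    push_cast
    ring
  | mul_X p x hp =>
    obtain ⟨a, b, h⟩ := hp
    refine ⟨.mul a (.var x), .mul b (.var x), fun v => ?_⟩
    simp only [NP.eval, map_mul, h, MvPolynomial.eval_X]
    push_cast
    ring

section Ball

variable {V : Type} {m : ℕ}

/-- bit length of the base minus one -/
def bq (a b : NP (V ⊕ Fin m)) (n K : ℕ) (X : V → ℕ) : ℕ :=
  a.bnd (Sum.elim X (fun _ => K)) + b.bnd (Sum.elim X (fun _ => K)) + n * m * 2 ^ K + K

/-- the coded condition -/
def Cond (a b : NP (V ⊕ Fin m)) (n : ℕ) (X : V → ℕ) (E : ℕ → V → ℕ) (K : ℕ) (W : Fin m → ℕ) :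
    Prop :=
  (∀ j, W j &&& ((2 ^ K - 1) * geo (2 ^ (bq a b n K X + 1)) n) = W j) ∧
  K = ∑ j, W j % (2 ^ (bq a b n K X + 1) - 1) ∧
  a.enc (bq a b n K X) n (Sum.elim (E (bq a b n K X)) W) =
    b.enc (bq a b n K X) n (Sum.elim (E (bq a b n K X)) W)

lemma le_two_pow_succ (x : ℕ) : x ≤ 2 ^ (x + 1) := by
  have := Nat.lt_two_pow_self (n := x)
  have h2 : 2 ^ x ≤ 2 ^ (x + 1) := Nat.pow_le_pow_right (by norm_num) (by omega)
  omega

/-- the main computation: a solution of `Cond` is the encoding of solutions for all `i < n` -/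
lemma Cond.dest {a b : NP (V ⊕ Fin m)} {n : ℕ} {X : V → ℕ} {E : ℕ → V → ℕ} {K : ℕ}
    {W : Fin m → ℕ} {x : ℕ → V → ℕ}
    (hx : ∀ i < n, ∀ l, x i l ≤ X l)
    (hE : ∀ k l, E k l = dsum (2 ^ (k + 1)) n (fun i => x i l))
    (h : Cond a b n X E K W) :
    ∃ w : ℕ → Fin m → ℕ,
      (∀ i < n, a.eval (Sum.elim (x i) (w i)) = b.eval (Sum.elim (x i) (w i))) ∧
      K = ∑ j, ∑ i ∈ range n, w i j ∧
      ∀ j, W j = dsum (2 ^ (bq a b n K X + 1)) n (fun i => w i j) := by
  obtain ⟨h1, h2, h3⟩ := h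
  set k := bq a b n K X with hk
  have hKk : K ≤ k + 1 := by rw [hk]; unfold bq; omega
  have hw : ∀ j, ∃ f : ℕ → ℕ, (∀ i, f i < 2 ^ K) ∧ W j = dsum (2 ^ (k + 1)) n f :=
    fun j => (mask_iff hKk).1 (h1 j)
  choose f hf hW using hw
  have hqk : n * m * 2 ^ K + 2 ≤ 2 ^ (k + 1) := by
    have hk2 : n * m * 2 ^ K + 1 ≤ k := by
      have := a.bnd_pos (Sum.elim X (fun _ => K))
      rw [hk]; unfold bq; omega
    have := Nat.lt_two_pow_self (n := k)
    have h2 : 2 ^ (k + 1) = 2 * 2 ^ k := by ring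
    omega
  have hsum_j : ∀ j, ∑ i ∈ range n, f j i ≤ n * 2 ^ K := by
    intro j
    calc ∑ i ∈ range n, f j i ≤ ∑ i ∈ range n, 2 ^ K := sum_le_sum fun i _ => (hf j i).le
      _ = n * 2 ^ K := by simp
  have hsum_lt : ∀ j, ∑ i ∈ range n, f j i < 2 ^ (k + 1) - 1 := by
    intro j
    have hm : 1 ≤ m := by have := j.2; omega
    have : n * 2 ^ K ≤ n * m * 2 ^ K := by
      have : n * 1 ≤ n * m := Nat.mul_le_mul_left _ hm
      rw [mul_one] at this
      exact Nat.mul_le_mul_right _ this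
    have := hsum_j j
    omega
  have hK : K = ∑ j, ∑ i ∈ range n, f j i := by
    rw [h2]
    apply sum_congr rfl
    intro j _
    rw [hW j, dsum_mod_sub_one (by omega) (hsum_lt j)]
  have hfK : ∀ j, ∀ i < n, f j i ≤ K := by
    intro j i hi
    calc f j i ≤ ∑ i ∈ range n, f j i :=
          single_le_sum (f := fun i => f j i) (fun _ _ => Nat.zero_le _) (mem_range.2 hi)
      _ ≤ ∑ j, ∑ i ∈ range n, f j i :=
          single_le_sum (f := fun j => ∑ i ∈ range n, f j i) (fun _ _ => Nat.zero_le _)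
            (mem_univ j)
      _ = K := hK.symm
  have hEW : ∀ y, (Sum.elim (E k) W : V ⊕ Fin m → ℕ) y =
      dsum (2 ^ (k + 1)) n ((Sum.elim (fun l i => x i l) f : V ⊕ Fin m → ℕ → ℕ) y) := by
    intro y
    rcases y with l | j
    · exact hE k l
    · exact hW j
  have hbd : ∀ y, ∀ i < n, (Sum.elim (fun l i => x i l) f : V ⊕ Fin m → ℕ → ℕ) y i ≤
      (Sum.elim X (fun _ => K) : V ⊕ Fin m → ℕ) y := by
    intro y i hi
    rcases y with l | j
    · exact hx i hi l
    · exact hfK j i hi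
  have hab : a.bnd (Sum.elim X (fun _ => K)) ≤ 2 ^ (k + 1) ∧
      b.bnd (Sum.elim X (fun _ => K)) ≤ 2 ^ (k + 1) := by
    have := le_two_pow_succ k
    have h1 : a.bnd (Sum.elim X (fun _ => K)) ≤ k := by rw [hk]; unfold bq; omega
    have h2 : b.bnd (Sum.elim X (fun _ => K)) ≤ k := by rw [hk]; unfold bq; omega
    omega
  rw [NP.enc_eq a hEW hbd hab.1, NP.enc_eq b hEW hbd hab.2] at h3
  have hsw : ∀ i, (fun y => (Sum.elim (fun l i => x i l) f : V ⊕ Fin m → ℕ → ℕ) y i) =
      Sum.elim (x i) (fun j => f j i) := by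
    intro i
    funext y
    rcases y with l | j <;> rfl
  simp only [hsw] at h3
  have hfin := dsum_inj (f := fun i => a.eval (Sum.elim (x i) (fun j => f j i)))
    (g := fun i => b.eval (Sum.elim (x i) (fun j => f j i))) (q := 2 ^ (k + 1)) (n := n)
    (by
      intro i hi
      refine lt_of_lt_of_le (a.eval_lt_bnd (M := Sum.elim X (fun _ => K)) ?_) hab.1
      intro y
      have := hbd y i hi
      rcases y with l | j <;> exact this)
    (by
      intro i hi
      refine lt_of_lt_of_le (b.eval_lt_bnd (M := Sum.elim X (fun _ => K)) ?_) hab.2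
      intro y
      have := hbd y i hi
      rcases y with l | j <;> exact this) h3
  exact ⟨fun i j => f j i, hfin, hK, hW⟩

/-- conversely solutions for all `i < n` give a solution of `Cond` -/
lemma Cond.mk {a b : NP (V ⊕ Fin m)} {n : ℕ} {X : V → ℕ} {E : ℕ → V → ℕ}
    {x : ℕ → V → ℕ}
    (hx : ∀ i < n, ∀ l, x i l ≤ X l)
    (hE : ∀ k l, E k l = dsum (2 ^ (k + 1)) n (fun i => x i l))
    (w : ℕ → Fin m → ℕ)
    (hw : ∀ i < n, a.eval (Sum.elim (x i) (w i)) = b.eval (Sum.elim (x i) (w i))) :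
    ∃ (K : ℕ) (W : Fin m → ℕ), Cond a b n X E K W := by
  obtain ⟨K, hK⟩ : ∃ K, K = ∑ j, ∑ i ∈ range n, w i j := ⟨_, rfl⟩
  set k := bq a b n K X with hk
  have hwK : ∀ j, ∀ i < n, w i j ≤ K := by
    intro j i hi
    calc w i j ≤ ∑ i ∈ range n, w i j :=
          single_le_sum (f := fun i => w i j) (fun _ _ => Nat.zero_le _) (mem_range.2 hi)
      _ ≤ ∑ j, ∑ i ∈ range n, w i j :=
          single_le_sum (f := fun j => ∑ i ∈ range n, w i j) (fun _ _ => Nat.zero_le _)
            (mem_univ j)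
      _ = K := hK.symm
  have hKk : K ≤ k + 1 := by rw [hk]; unfold bq; omega
  have hK2 : K < 2 ^ K := Nat.lt_two_pow_self
  refine ⟨K, fun j => dsum (2 ^ (k + 1)) n (fun i => w i j), ?_, ?_, ?_⟩
  · intro j
    rw [← hk]
    refine (mask_iff hKk).2 ⟨fun i => if i < n then w i j else 0, ?_, ?_⟩
    · intro i
      beta_reduce
      split_ifs with hi
      · exact lt_of_le_of_lt (hwK j i hi) hK2
      · positivity
    · apply dsum_congr
      intro i hi
      simp [hi]
  · rw [← hk]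
    conv_lhs => rw [hK]
    apply sum_congr rfl
    intro j _
    rw [dsum_mod_sub_one (Nat.one_le_two_pow)]
    have h1 : ∑ i ∈ range n, w i j ≤ K := by
      rw [hK]
      exact single_le_sum (f := fun j => ∑ i ∈ range n, w i j) (fun _ _ => Nat.zero_le _)
            (mem_univ j)
    have hk3 : K + 1 ≤ k := by
      have := a.bnd_pos (Sum.elim X (fun _ => K))
      rw [hk]; unfold bq; omega
    have := Nat.lt_two_pow_self (n := k)
    have h2 : 2 ^ (k + 1) = 2 * 2 ^ k := by ring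
    omega
  · rw [← hk]
    have hEW : ∀ y, (Sum.elim (E k) (fun j => dsum (2 ^ (k + 1)) n (fun i => w i j)) :
        V ⊕ Fin m → ℕ) y =
        dsum (2 ^ (k + 1)) n ((Sum.elim (fun l i => x i l) (fun j i => w i j) :
          V ⊕ Fin m → ℕ → ℕ) y) := by
      intro y
      rcases y with l | j
      · exact hE k l
      · rfl
    have hbd : ∀ y, ∀ i < n,
        (Sum.elim (fun l i => x i l) (fun j i => w i j) : V ⊕ Fin m → ℕ → ℕ) y i ≤
        (Sum.elim X (fun _ => K) : V ⊕ Fin m → ℕ) y := by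
      intro y i hi
      rcases y with l | j
      · exact hx i hi l
      · exact hwK j i hi
    have hab : a.bnd (Sum.elim X (fun _ => K)) ≤ 2 ^ (k + 1) ∧
        b.bnd (Sum.elim X (fun _ => K)) ≤ 2 ^ (k + 1) := by
      have := le_two_pow_succ k
      have h1 : a.bnd (Sum.elim X (fun _ => K)) ≤ k := by rw [hk]; unfold bq; omega
      have h2 : b.bnd (Sum.elim X (fun _ => K)) ≤ k := by rw [hk]; unfold bq; omega
      omega
    rw [NP.enc_eq a hEW hbd hab.1, NP.enc_eq b hEW hbd hab.2]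
    apply dsum_congr
    intro i hi
    have hsw : (fun y => (Sum.elim (fun l i => x i l) (fun j i => w i j) :
        V ⊕ Fin m → ℕ → ℕ) y i) = Sum.elim (x i) (w i) := by
      funext y
      rcases y with l | j <;> rfl
    rw [hsw]
    exact hw i hi

/-- uniqueness of the coded witness -/
lemma Cond.unique {a b : NP (V ⊕ Fin m)} {n : ℕ} {X : V → ℕ} {E : ℕ → V → ℕ}
    {x : ℕ → V → ℕ}
    (hx : ∀ i < n, ∀ l, x i l ≤ X l)
    (hE : ∀ k l, E k l = dsum (2 ^ (k + 1)) n (fun i => x i l))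
    (hu : ∀ i < n, ∀ w w' : Fin m → ℕ, a.eval (Sum.elim (x i) w) = b.eval (Sum.elim (x i) w) →
      a.eval (Sum.elim (x i) w') = b.eval (Sum.elim (x i) w') → w = w')
    {K K' : ℕ} {W W' : Fin m → ℕ} (h : Cond a b n X E K W) (h' : Cond a b n X E K' W') :
    K = K' ∧ W = W' := by
  obtain ⟨w, h1, h2, h3⟩ := h.dest hx hE
  obtain ⟨w', h1', h2', h3'⟩ := h'.dest hx hE
  have hww : ∀ i < n, w i = w' i := fun i hi => hu i hi _ _ (h1 i hi) (h1' i hi)
  have hKK : K = K' := by
    rw [h2, h2']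
    apply sum_congr rfl; intro j _
    apply sum_congr rfl; intro i hi
    rw [hww i (mem_range.1 hi)]
  subst hKK
  refine ⟨rfl, ?_⟩
  funext j
  rw [h3 j, h3' j]
  apply dsum_congr
  intro i hi
  rw [hww i hi]

end Ball

end Crest.Agent.R323
private theorem rz_50f8820626 : type_of% @_root_.Crest.Agent.R323.NP.bnd.eq_def := @_root_.Crest.Agent.R323.NP.bnd.eq_def -- L78
private theorem rz_d38a0af785 : type_of% @_root_.Crest.Agent.R323.NP.bnd.eq_1 := @_root_.Crest.Agent.R323.NP.bnd.eq_1 -- L78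
private theorem rz_80c7cdccc0 : type_of% @_root_.Crest.Agent.R323.NP.enc.eq_def := @_root_.Crest.Agent.R323.NP.enc.eq_def -- L85
private theorem rz_ecc76d1542 : type_of% @_root_.Crest.Agent.R323.NP.enc.eq_1 := @_root_.Crest.Agent.R323.NP.enc.eq_1 -- L85
private theorem rz_e82827f2bf : type_of% @_root_.Crest.Agent.R323.NP.eval.eq_def := @_root_.Crest.Agent.R323.NP.eval.eq_def -- L71
private theorem rz_5994386862 : type_of% @_root_.Crest.Agent.R323.NP.eval.eq_1 := @_root_.Crest.Agent.R323.NP.eval.eq_1 -- L71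
end

-- ▼ part R323/BAll
section

/-!
# Single-fold Diophantine predicates are closed under bounded universal quantification (S0500)

Hypotheses: the power function and bitwise `AND` are single-fold.
-/

set_option autoImplicit false

namespace Crest.Agent.R323

variable {ι : Type}

theorem SFF.sum {α : Type} (s : Finset α) {f : α → (ι → ℕ) → ℕ} (hf : ∀ a ∈ s, SFF (f a)) :
    SFF (fun v => ∑ a ∈ s, f a v) := by
  classical
  induction s using Finset.induction_on with
  | empty => exact (SFF.const 0).congr (fun v => by simp)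
  | insert a s ha ih =>
    have h1 := hf a (Finset.mem_insert_self a s)
    have h2 := ih (fun b hb => hf b (Finset.mem_insert_of_mem hb))
    exact (h1.add h2).congr (fun v => by rw [Finset.sum_insert ha])

lemma geo_eq_div {q : ℕ} (n : ℕ) (hq : 2 ≤ q) : geo q n = (q ^ n - 1) / (q - 1) := by
  have h := geo_mul q n (by omega)
  rw [← h, Nat.add_sub_cancel, Nat.mul_div_cancel_left _ (by omega)]

lemma idx_eq_div {q : ℕ} (n : ℕ) (hq : 2 ≤ q) :
    dsum q n (fun i => i) = (n * q ^ n + 1 - geo q n - q ^ n) / (q - 1) := by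
  have h := idx_spec (q := q) (n := n) (by omega)
  have h2 : n * q ^ n + 1 - geo q n - q ^ n = dsum q n (fun i => i) * (q - 1) := by omega
  rw [h2, Nat.mul_div_cancel _ (by omega)]

lemma two_le_base (k : ℕ) : 2 ≤ 2 ^ (k + 1) := by
  have : 1 ≤ 2 ^ k := Nat.one_le_two_pow
  rw [pow_succ]; omega

lemma two_le_base_pow (k s : ℕ) (hs : 1 ≤ s) : 2 ≤ (2 ^ (k + 1)) ^ s := by
  calc 2 ≤ 2 ^ (k + 1) := two_le_base k
    _ = (2 ^ (k + 1)) ^ 1 := (pow_one _).symm
    _ ≤ (2 ^ (k + 1)) ^ s := Nat.pow_le_pow_right (by positivity) hs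

section

theorem SFF.pow' (hpow : SF2 (fun a n => a ^ n)) {f g : (ι → ℕ) → ℕ} (hf : SFF f) (hg : SFF g) :
    SFF (fun v => f v ^ g v) := hpow.comp hf hg

theorem SFF.land' (hland : SF2 (fun a b => a &&& b)) {f g : (ι → ℕ) → ℕ} (hf : SFF f)
    (hg : SFF g) : SFF (fun v => f v &&& g v) := hland.comp hf hg

theorem SFF.geo' (hpow : SF2 (fun a n => a ^ n)) {q n : (ι → ℕ) → ℕ} (hq : SFF q) (hn : SFF n)
    (h2 : ∀ v, 2 ≤ q v) : SFF (fun v => geo (q v) (n v)) :=
  (((SFF.pow' hpow hq hn).tsub (SFF.const 1)).div (hq.tsub (SFF.const 1))).congr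
    (fun v => geo_eq_div _ (h2 v))

theorem SFF.idx' (hpow : SF2 (fun a n => a ^ n)) {q n : (ι → ℕ) → ℕ} (hq : SFF q) (hn : SFF n)
    (h2 : ∀ v, 2 ≤ q v) : SFF (fun v => dsum (q v) (n v) (fun i => i)) :=
  (((((hn.mul (SFF.pow' hpow hq hn)).add (SFF.const 1)).tsub
    (SFF.geo' hpow hq hn h2)).tsub (SFF.pow' hpow hq hn)).div (hq.tsub (SFF.const 1))).congr
    (fun v => idx_eq_div _ (h2 v))

/-- the base `2^(k+1)` -/
theorem SFF.base' (hpow : SF2 (fun a n => a ^ n)) {k : (ι → ℕ) → ℕ} (hk : SFF k) :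
    SFF (fun v => 2 ^ (k v + 1)) :=
  SFF.pow' hpow (SFF.const 2) (hk.add (SFF.const 1))

theorem SFF.spread' (hpow : SF2 (fun a n => a ^ n)) (hland : SF2 (fun a b => a &&& b))
    {k n X : (ι → ℕ) → ℕ} (hk : SFF k) (hn : SFF n) (hX : SFF X) :
    SFF (fun v => spread (k v) (n v) (X v)) := by
  have hk' := hk.reindex (some : ι → Option ι)
  have hn' := hn.reindex (some : ι → Option ι)
  have hX' := hX.reindex (some : ι → Option ι)
  have hb' := SFF.base' hpow hk'
  have hbs' := SFF.pow' hpow hb' (hn'.add (SFF.const 1))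
  refine SFF.of_graph (q := fun v Y =>
    Y &&& ((2 ^ (k v + 1) - 1) * geo ((2 ^ (k v + 1)) ^ (n v + 1)) (n v)) = Y ∧
        Y % ((2 ^ (k v + 1)) ^ (n v + 1) - 2 ^ (k v + 1)) = X v % (2 ^ (k v + 1)) ^ (n v)) ?_
    (fun v Y => (spread_graph _ _ _ _).symm)
  refine SFP.and (SFP.eq (SFF.land' hland (SFF.proj _)
    ((hb'.tsub (SFF.const 1)).mul (SFF.geo' hpow hbs' hn' ?_))) (SFF.proj _))
    (SFP.eq ((SFF.proj _).mod (hbs'.tsub hb')) (hX'.mod (SFF.pow' hpow hb' hn')))
  intro v
  exact two_le_base_pow _ _ (by omega)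

theorem SFF.had' (hpow : SF2 (fun a n => a ^ n)) (hland : SF2 (fun a b => a &&& b))
    {k n X Y : (ι → ℕ) → ℕ} (hk : SFF k) (hn : SFF n) (hX : SFF X) (hY : SFF Y) :
    SFF (fun v => had (k v) (n v) (X v) (Y v)) := by
  have hb := SFF.base' hpow hk
  have hbs := SFF.pow' hpow hb (hn.add (SFF.const 2))
  exact (SFF.land' hland (hX.mul (SFF.spread' hpow hland hk hn hY))
    ((hb.tsub (SFF.const 1)).mul (SFF.geo' hpow hbs hn
      (fun v => two_le_base_pow _ _ (by omega))))).mod (hbs.tsub hb)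

theorem SFF.enc' (hpow : SF2 (fun a n => a ^ n)) (hland : SF2 (fun a b => a &&& b))
    {V : Type} (p : NP V) {k n : (ι → ℕ) → ℕ} {E : V → (ι → ℕ) → ℕ} (hk : SFF k) (hn : SFF n)
    (hE : ∀ y, SFF (E y)) : SFF (fun v => p.enc (k v) (n v) (fun y => E y v)) := by
  induction p with
  | const c =>
    exact (SFF.const c).mul (SFF.geo' hpow (SFF.base' hpow hk) hn (fun v => two_le_base _))
  | var x => exact hE x
  | add p r hp hr => exact hp.add hr
  | mul p r hp hr => exact SFF.had' hpow hland hk hn hp hr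

theorem SFF.bnd' {V : Type} (p : NP V) {M : V → (ι → ℕ) → ℕ} (hM : ∀ y, SFF (M y)) :
    SFF (fun v => p.bnd (fun y => M y v)) := by
  induction p with
  | const c => exact SFF.const _
  | var x => exact (hM x).add (SFF.const 1)
  | add p r hp hr => exact hp.add hr
  | mul p r hp hr => exact hp.mul hr

/-- **Bounded universal quantification.** -/
theorem SFP.ballOf (hpow : SF2 (fun a n => a ^ n)) (hland : SF2 (fun a b => a &&& b))
    {q : (Option ι → ℕ) → Prop} (hq : SFP q) :
    SFP (fun v : Option ι → ℕ => ∀ i < v none, q (fun o => o.elim i (fun j => v (some j)))) := by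
  obtain ⟨m, F, h1, h2⟩ := hq
  obtain ⟨a, b, hab⟩ := exists_NP F
  have hev : ∀ (v : Option ι → ℕ) (w : Fin m → ℕ), ev F (Sum.elim v w) = 0 ↔
      a.eval (Sum.elim v w) = b.eval (Sum.elim v w) := by
    intro v w
    unfold ev
    rw [hab, sub_eq_zero]
    norm_cast
  simp only [hev] at h1 h2
  -- the encoded constant sequences
  let E : (Option ι → ℕ) → ℕ → Option ι → ℕ := fun v k o =>
    o.elim (dsum (2 ^ (k + 1)) (v none) (fun i => i))
      (fun j => v (some j) * geo (2 ^ (k + 1)) (v none))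
  let x : (Option ι → ℕ) → ℕ → Option ι → ℕ := fun v i o => o.elim i (fun j => v (some j))
  have hx : ∀ v, ∀ i < v none, ∀ l, x v i l ≤ v l := by
    intro v i hi l
    cases l with
    | none => exact hi.le
    | some j => exact le_rfl
  have hE : ∀ v k l, E v k l = dsum (2 ^ (k + 1)) (v none) (fun i => x v i l) := by
    intro v k l
    cases l with
    | none => rfl
    | some j => exact (dsum_const _ _ _).symm
  have hC : SFP (fun u : Option ι ⊕ Option (Fin m) → ℕ =>
      Cond a b (u (Sum.inl none)) (fun l => u (Sum.inl l)) (E (fun l => u (Sum.inl l)))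
        (u (Sum.inr none)) (fun j => u (Sum.inr (some j)))) := by
    have hM : ∀ y : Option ι ⊕ Fin m, SFF (fun u : Option ι ⊕ Option (Fin m) → ℕ =>
        (Sum.elim (fun l => u (Sum.inl l)) (fun _ => u (Sum.inr none)) : Option ι ⊕ Fin m → ℕ)
          y) := by
      intro y
      rcases y with l | j
      · exact SFF.proj _
      · exact SFF.proj _
    have hbq : SFF (fun u : Option ι ⊕ Option (Fin m) → ℕ =>
        bq a b (u (Sum.inl none)) (u (Sum.inr none)) (fun l => u (Sum.inl l))) := by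
      unfold bq
      refine SFF.add (SFF.add (SFF.add (SFF.bnd' a hM) (SFF.bnd' b hM)) ?_) (SFF.proj _)
      exact ((SFF.proj _).mul (SFF.const m)).mul (SFF.pow' hpow (SFF.const 2) (SFF.proj _))
    have hb := SFF.base' hpow hbq
    have hn : SFF (fun u : Option ι ⊕ Option (Fin m) → ℕ => u (Sum.inl none)) := SFF.proj _
    have hgeo := SFF.geo' hpow hb hn (fun v => two_le_base _)
    have hEnc : ∀ y : Option ι ⊕ Fin m, SFF (fun u : Option ι ⊕ Option (Fin m) → ℕ =>
        (Sum.elim (E (fun l => u (Sum.inl l))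
          (bq a b (u (Sum.inl none)) (u (Sum.inr none)) (fun l => u (Sum.inl l))))
          (fun j => u (Sum.inr (some j))) : Option ι ⊕ Fin m → ℕ) y) := by
      intro y
      rcases y with l | j
      · cases l with
        | none => exact SFF.idx' hpow hb hn (fun v => two_le_base _)
        | some j => exact (SFF.proj _).mul hgeo
      · exact SFF.proj _
    unfold Cond
    refine SFP.and (SFP.all fun j => ?_) (SFP.and ?_ ?_)
    · exact SFP.eq (SFF.land' hland (SFF.proj _)
        (((SFF.pow' hpow (SFF.const 2) (SFF.proj _)).tsub (SFF.const 1)).mul hgeo)) (SFF.proj _)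
    · refine SFP.eq (SFF.proj _) (SFF.sum _ fun j _ => ?_)
      exact (SFF.proj _).mod (hb.tsub (SFF.const 1))
    · exact SFP.eq (SFF.enc' hpow hland a hbq hn hEnc) (SFF.enc' hpow hland b hbq hn hEnc)
  have hu : ∀ v, ∀ i < v none, ∀ w w' : Fin m → ℕ,
      a.eval (Sum.elim (x v i) w) = b.eval (Sum.elim (x v i) w) →
      a.eval (Sum.elim (x v i) w') = b.eval (Sum.elim (x v i) w') → w = w' :=
    fun v i _ w w' h h' => h2 _ _ _ h h'
  refine (SFP.exBlock hC ?_).congr ?_
  · intro v y y' h h'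
    have := Cond.unique (hx v) (hE v) (hu v) h h'
    funext o
    cases o with
    | none => exact this.1
    | some j => exact congrFun this.2 j
  · intro v
    constructor
    · intro h
      have h' : ∀ i, ∃ w : Fin m → ℕ, i < v none →
          a.eval (Sum.elim (x v i) w) = b.eval (Sum.elim (x v i) w) := by
        intro i
        by_cases hi : i < v none
        · obtain ⟨w, hw⟩ := (h1 _).1 (h i hi)
          exact ⟨w, fun _ => hw⟩
        · exact ⟨0, fun h => absurd h hi⟩
      choose w hw using h'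
      obtain ⟨K, W, hKW⟩ := Cond.mk (hx v) (hE v) w (fun i hi => hw i hi)
      exact ⟨fun o => o.elim K W, hKW⟩
    · rintro ⟨y, hy⟩ i hi
      obtain ⟨w, hw, _⟩ := Cond.dest (hx v) (hE v) hy
      exact (h1 _).2 ⟨w i, hw i hi⟩

end

end Crest.Agent.R323
end

-- ▼ part R323/PowSF
section

/-!
R323 (S0500), Part 2: the power function is single-fold Diophantine as soon as the Pell sequences
`m ↦ x_m(2)`, `m ↦ y_m(2)` are (or as soon as some Julia-Robinson growth function is).
-/

set_option autoImplicit false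

namespace Crest.Agent.R323

/-- Power from the Pell sequences with parameter `2`. -/
theorem SF2_pow_of_pell (hx : SF1 (Pell.xn one_lt_two)) (hy : SF1 (Pell.yn one_lt_two)) :
    SF2 (fun a n => a ^ n) := by
  refine SFF.congr (f := fun v : Fin 2 → ℕ => (1 - v 0) * (1 - v 1) + (1 - (1 - v 0)) *
      ((Pell.xn one_lt_two (PowPell.tt (v 0) (v 1) * v 1) -
        (Pell.xn one_lt_two (PowPell.tt (v 0) (v 1)) - v 0) *
      (Pell.yn one_lt_two (PowPell.tt (v 0) (v 1) * v 1) /
        Pell.yn one_lt_two (PowPell.tt (v 0) (v 1)))) %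
      (2 * v 0 * Pell.xn one_lt_two (PowPell.tt (v 0) (v 1)) - v 0 * v 0 - 1))) ?_
    (fun v => PowPell.pow_eq (v 0) (v 1))
  have ht : SFF (fun v : Fin 2 → ℕ => PowPell.tt (v 0) (v 1)) := by
    unfold PowPell.tt
    sff
  have h1 : SFF (fun v : Fin 2 → ℕ => Pell.xn one_lt_two (PowPell.tt (v 0) (v 1))) := hx.comp ht
  have h2 : SFF (fun v : Fin 2 → ℕ => Pell.yn one_lt_two (PowPell.tt (v 0) (v 1))) := hy.comp ht
  have ht' : SFF (fun v : Fin 2 → ℕ => PowPell.tt (v 0) (v 1) * v 1) := ht.mul (SFF.proj _)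
  have h3 : SFF (fun v : Fin 2 → ℕ => Pell.xn one_lt_two (PowPell.tt (v 0) (v 1) * v 1)) :=
    hx.comp ht'
  have h4 : SFF (fun v : Fin 2 → ℕ => Pell.yn one_lt_two (PowPell.tt (v 0) (v 1) * v 1)) :=
    hy.comp ht'
  sff

end Crest.Agent.R323
end

-- ▼ part R323/ChooseAnd
section

/-!
Pure number lemmas for the bitwise AND of natural numbers expressed with binomial coefficients.

* `odd_choose_iff` (L1): `Nat.choose (a + b) a` is odd iff `a &&& b = 0`;
* `choose_eq_digit` (L2): for `1 ≤ n`, `Nat.choose n k = ((2 ^ n + 1) ^ n / 2 ^ (n * k)) % 2 ^ n`;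
* `and_eq_iff` (L3): `c = a &&& b` iff there are `a' b'` with `a = c + a'`, `b = c + b'` and the
  pairs `(c, a')`, `(c, b')`, `(a', b')` have odd binomial coefficients.
-/

namespace Crest.Agent.R323

/-- Parity of a number, as `% 2 = 1`. -/
theorem and_eq_zero_iff_half (a b : ℕ) :
    a &&& b = 0 ↔ ((a % 2) * (b % 2) = 0 ∧ (a / 2) &&& (b / 2) = 0) := by
  constructor
  · intro h
    refine ⟨?_, ?_⟩
    · have h0 : (a &&& b).testBit 0 = false := by rw [h]; simp
      rw [Nat.testBit_and] at h0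
      simp only [Nat.testBit_zero, Bool.and_eq_false_iff, decide_eq_false_iff_not] at h0
      rcases h0 with h0 | h0
      · have : a % 2 = 0 := by omega
        simp [this]
      · have : b % 2 = 0 := by omega
        simp [this]
    · rw [← Nat.and_div_two, h]
  · rintro ⟨h1, h2⟩
    apply Nat.eq_of_testBit_eq
    intro i
    cases i with
    | zero =>
      rw [Nat.testBit_and]
      simp only [Nat.testBit_zero, Nat.zero_mod]
      rcases Nat.mul_eq_zero.1 h1 with h | h <;> simp [h]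
    | succ i =>
      rw [Nat.testBit_succ, Nat.and_div_two, h2]
      simp

/-- (L1) Kummer/Lucas at `p = 2`. -/
theorem odd_choose_iff (a b : ℕ) : Nat.choose (a + b) a % 2 = 1 ↔ a &&& b = 0 := by
  induction a using Nat.strong_induction_on generalizing b with
  | _ a ih =>
  rcases Nat.eq_zero_or_pos a with rfl | ha
  · simp
  · have key : Nat.choose (a + b) a % 2
        = (Nat.choose ((a + b) % 2) (a % 2) * Nat.choose ((a + b) / 2) (a / 2)) % 2 :=
      haveI : Fact (Nat.Prime 2) := ⟨Nat.prime_two⟩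
      Choose.choose_modEq_choose_mod_mul_choose_div_nat (n := a + b) (k := a) (p := 2)
    rw [key, and_eq_zero_iff_half]
    have ih' := ih (a / 2) (by omega) (b / 2)
    rcases Nat.mod_two_eq_zero_or_one a with h0 | h0 <;>
    rcases Nat.mod_two_eq_zero_or_one b with h1 | h1
    · have e1 : (a + b) % 2 = 0 := by omega
      have e2 : (a + b) / 2 = a / 2 + b / 2 := by omega
      rw [e1, h0, h1, e2]
      simpa using ih'
    · have e1 : (a + b) % 2 = 1 := by omega
      have e2 : (a + b) / 2 = a / 2 + b / 2 := by omega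
      rw [e1, h0, h1, e2]
      simpa using ih'
    · have e1 : (a + b) % 2 = 1 := by omega
      have e2 : (a + b) / 2 = a / 2 + b / 2 := by omega
      rw [e1, h0, h1, e2]
      simpa using ih'
    · have e1 : (a + b) % 2 = 0 := by omega
      rw [e1, h0, h1]
      simp

/-- Bound: a binomial coefficient `choose n k` with `1 ≤ n` is `< 2 ^ n`. -/
theorem choose_lt_two_pow' {n : ℕ} (hn : 1 ≤ n) (k : ℕ) : Nat.choose n k < 2 ^ n := by
  rcases Nat.lt_or_ge n k with h | h
  · rw [Nat.choose_eq_zero_of_lt h]; positivity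
  · have h1 : ∑ m ∈ Finset.range (n + 1), Nat.choose n m = 2 ^ n := Nat.sum_range_choose n
    have : ∃ j, j ∈ Finset.range (n + 1) ∧ j ≠ k ∧ 0 < Nat.choose n j := by
      rcases Nat.eq_zero_or_pos k with rfl | hk
      · exact ⟨n, by simp, by omega, by simp⟩
      · exact ⟨0, by simp, by omega, by simp⟩
    obtain ⟨j, hj, hjk, hpos⟩ := this
    have hk : k ∈ Finset.range (n + 1) := by simp; omega
    rw [← h1, ← Finset.add_sum_erase _ _ hk]
    have : Nat.choose n j ≤ ∑ m ∈ (Finset.range (n + 1)).erase k, Nat.choose n m :=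
      Finset.single_le_sum (f := fun m => Nat.choose n m) (fun _ _ => Nat.zero_le _)
        (Finset.mem_erase.2 ⟨hjk, hj⟩)
    omega

/-- A base-`q` sum with digits `< q` over `range m` is `< q ^ m`. -/
theorem sum_digits_lt (q : ℕ) (f : ℕ → ℕ) (hf : ∀ i, f i < q) (m : ℕ) :
    ∑ i ∈ Finset.range m, f i * q ^ i < q ^ m := by
  induction m with
  | zero => simp
  | succ m ih =>
    rw [Finset.sum_range_succ, pow_succ]
    have h1 : f m + 1 ≤ q := hf m
    calc ∑ i ∈ Finset.range m, f i * q ^ i + f m * q ^ m < q ^ m + f m * q ^ m := by omega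
      _ = (f m + 1) * q ^ m := by ring
      _ ≤ q * q ^ m := Nat.mul_le_mul_right _ h1
      _ = q ^ m * q := by ring

/-- Extraction of a base-`q` digit. -/
theorem digit_of_sum (q : ℕ) (hq : 0 < q) (f : ℕ → ℕ) (hf : ∀ i, f i < q) (m k : ℕ) (hk : k < m) :
    ((∑ i ∈ Finset.range m, f i * q ^ i) / q ^ k) % q = f k := by
  have hsplit : ∑ i ∈ Finset.range m, f i * q ^ i
      = ∑ i ∈ Finset.range k, f i * q ^ i
        + q ^ k * (f k + q * ∑ i ∈ Finset.range (m - (k + 1)), f (k + 1 + i) * q ^ i) := by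
    obtain ⟨r, rfl⟩ : ∃ r, m = k + 1 + r := ⟨m - (k + 1), by omega⟩
    have : k + 1 + r - (k + 1) = r := by omega
    rw [this, Finset.sum_range_add, Finset.sum_range_succ, mul_add, Finset.mul_sum,
      Finset.mul_sum, add_assoc]
    congr 1
    congr 1
    · ring
    · apply Finset.sum_congr rfl
      intro i _
      ring
  rw [hsplit, Nat.add_mul_div_left _ _ (by positivity),
    Nat.div_eq_of_lt (sum_digits_lt q f hf k), zero_add, Nat.add_mul_mod_self_left,
    Nat.mod_eq_of_lt (hf k)]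

/-- (L2) the binomial coefficients are the base-`2 ^ n` digits of `(2 ^ n + 1) ^ n`. -/
theorem choose_eq_digit {n : ℕ} (hn : 1 ≤ n) (k : ℕ) :
    Nat.choose n k = ((2 ^ n + 1) ^ n / 2 ^ (n * k)) % 2 ^ n := by
  have h1 : (2 ^ n + 1) ^ n = ∑ i ∈ Finset.range (n + 1), Nat.choose n i * (2 ^ n) ^ i := by
    rw [add_pow]
    apply Finset.sum_congr rfl
    intro i _
    simp [mul_comm]
  have hext : ∑ i ∈ Finset.range (n + 1), Nat.choose n i * (2 ^ n) ^ i
      = ∑ i ∈ Finset.range (n + 1 + k), Nat.choose n i * (2 ^ n) ^ i := by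
    rw [Finset.sum_range_add _ (n + 1) k]
    rw [Finset.sum_eq_zero (s := Finset.range k), add_zero]
    intro i _
    rw [Nat.choose_eq_zero_of_lt (by omega), zero_mul]
  rw [h1, hext, pow_mul]
  exact (digit_of_sum (2 ^ n) (by positivity) (fun i => Nat.choose n i)
    (fun i => choose_lt_two_pow' hn i) (n + 1 + k) k (by omega)).symm

/-- Sum of disjoint numbers is their bitwise OR. -/
theorem add_eq_or_of_and_eq_zero {a b : ℕ} (h : a &&& b = 0) : a + b = a ||| b := by
  induction a using Nat.strong_induction_on generalizing b with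
  | _ a ih =>
  rcases Nat.eq_zero_or_pos a with rfl | ha
  · simp
  · obtain ⟨h1, h2⟩ := (and_eq_zero_iff_half a b).1 h
    have e := ih (a / 2) (by omega) h2
    have e1 : (a ||| b) / 2 = a / 2 ||| b / 2 := Nat.or_div_two
    have hz : (a ||| b).testBit 0 = (a.testBit 0 || b.testBit 0) := Nat.testBit_or ..
    simp only [Nat.testBit_zero] at hz
    rcases Nat.mod_two_eq_zero_or_one a with h0 | h0 <;>
    rcases Nat.mod_two_eq_zero_or_one b with h3 | h3
    · have h4 : (a ||| b) % 2 = 0 := by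
        rcases Nat.mod_two_eq_zero_or_one (a ||| b) with h | h
        · exact h
        · simp [h0, h3, h] at hz
      omega
    · have h4 : (a ||| b) % 2 = 1 := by
        rcases Nat.mod_two_eq_zero_or_one (a ||| b) with h | h
        · simp [h0, h3, h] at hz
        · exact h
      omega
    · have h4 : (a ||| b) % 2 = 1 := by
        rcases Nat.mod_two_eq_zero_or_one (a ||| b) with h | h
        · simp [h0, h3, h] at hz
        · exact h
      omega
    · simp [h0, h3] at h1

/-- (L3), forward direction: the canonical witnesses. -/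
theorem and_split (a b : ℕ) :
    ∃ a' b', a = (a &&& b) + a' ∧ b = (a &&& b) + b' ∧
      (a &&& b) &&& a' = 0 ∧ (a &&& b) &&& b' = 0 ∧ a' &&& b' = 0 := by
  refine ⟨a ^^^ (a &&& b), b ^^^ (a &&& b), ?_, ?_, ?_, ?_, ?_⟩
  · rw [add_eq_or_of_and_eq_zero]
    · apply Nat.eq_of_testBit_eq; intro i
      simp only [Nat.testBit_or, Nat.testBit_and, Nat.testBit_xor]
      cases a.testBit i <;> cases b.testBit i <;> rfl
    · apply Nat.eq_of_testBit_eq; intro i
      simp only [Nat.testBit_and, Nat.testBit_xor, Nat.zero_testBit]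
      cases a.testBit i <;> cases b.testBit i <;> rfl
  · rw [add_eq_or_of_and_eq_zero]
    · apply Nat.eq_of_testBit_eq; intro i
      simp only [Nat.testBit_or, Nat.testBit_and, Nat.testBit_xor]
      cases a.testBit i <;> cases b.testBit i <;> rfl
    · apply Nat.eq_of_testBit_eq; intro i
      simp only [Nat.testBit_and, Nat.testBit_xor, Nat.zero_testBit]
      cases a.testBit i <;> cases b.testBit i <;> rfl
  · apply Nat.eq_of_testBit_eq; intro i
    simp only [Nat.testBit_and, Nat.testBit_xor, Nat.zero_testBit]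
    cases a.testBit i <;> cases b.testBit i <;> rfl
  · apply Nat.eq_of_testBit_eq; intro i
    simp only [Nat.testBit_and, Nat.testBit_xor, Nat.zero_testBit]
    cases a.testBit i <;> cases b.testBit i <;> rfl
  · apply Nat.eq_of_testBit_eq; intro i
    simp only [Nat.testBit_and, Nat.testBit_xor, Nat.zero_testBit]
    cases a.testBit i <;> cases b.testBit i <;> rfl

/-- (L3), backward direction. -/
theorem and_eq_of_split {c a' b' : ℕ} (h1 : c &&& a' = 0) (h2 : c &&& b' = 0)
    (h3 : a' &&& b' = 0) : (c + a') &&& (c + b') = c := by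
  rw [add_eq_or_of_and_eq_zero h1, add_eq_or_of_and_eq_zero h2]
  apply Nat.eq_of_testBit_eq; intro i
  have t1 : (c &&& a').testBit i = false := by rw [h1]; simp
  have t2 : (c &&& b').testBit i = false := by rw [h2]; simp
  have t3 : (a' &&& b').testBit i = false := by rw [h3]; simp
  simp only [Nat.testBit_and] at t1 t2 t3
  simp only [Nat.testBit_or, Nat.testBit_and]
  revert t1 t2 t3
  cases c.testBit i <;> cases a'.testBit i <;> cases b'.testBit i <;> simp

/-- (L3) bitwise AND through odd binomial coefficients. -/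
theorem and_eq_iff (a b c : ℕ) :
    c = a &&& b ↔ ∃ a' b', a = c + a' ∧ b = c + b' ∧
      Nat.choose (c + a') c % 2 = 1 ∧ Nat.choose (c + b') c % 2 = 1 ∧
      Nat.choose (a' + b') a' % 2 = 1 := by
  simp only [odd_choose_iff]
  constructor
  · rintro rfl
    exact and_split a b
  · rintro ⟨a', b', rfl, rfl, h1, h2, h3⟩
    exact (and_eq_of_split h1 h2 h3).symm

/-- (L3'), version with the two sums replaced by the given numbers. -/
theorem and_eq_iff' (a b c : ℕ) :
    c = a &&& b ↔ ∃ a' b', a = c + a' ∧ b = c + b' ∧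
      Nat.choose a c % 2 = 1 ∧ Nat.choose b c % 2 = 1 ∧
      Nat.choose (a' + b') a' % 2 = 1 := by
  rw [and_eq_iff]
  constructor
  · rintro ⟨a', b', h1, h2, h3, h4, h5⟩
    exact ⟨a', b', h1, h2, by rw [h1]; exact h3, by rw [h2]; exact h4, h5⟩
  · rintro ⟨a', b', h1, h2, h3, h4, h5⟩
    exact ⟨a', b', h1, h2, by rw [← h1]; exact h3, by rw [← h2]; exact h4, h5⟩


end Crest.Agent.R323
end

-- ▼ part R323/ChooseSF
section

/-!
Binomial coefficients and bitwise AND are single-fold, given that powers are.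
-/

set_option autoImplicit false
namespace Crest.Agent.R323


/-- uniform digit formula for binomial coefficients, valid for all `n k` -/
theorem choose_eq_formula (n k : ℕ) :
    Nat.choose n k = ((2 ^ n + 1) ^ n / 2 ^ (n * k)) % 2 ^ n + (1 - (n + k)) := by
  rcases Nat.eq_zero_or_pos n with rfl | hn
  · rcases Nat.eq_zero_or_pos k with rfl | hk
    · simp
    · rw [Nat.choose_eq_zero_of_lt hk]
      have : 1 - (0 + k) = 0 := by omega
      rw [this]
      simp
  · rw [← choose_eq_digit hn k]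
    have : 1 - (n + k) = 0 := by omega
    rw [this, add_zero]

/-- binomial coefficients are single-fold if powers are -/
theorem SF2.choose_of_pow (hpow : SF2 (fun a n => a ^ n)) : SF2 Nat.choose := by
  have hn : SFF (fun v : Fin 2 → ℕ => v 0) := SFF.proj 0
  have hk : SFF (fun v : Fin 2 → ℕ => v 1) := SFF.proj 1
  have h1 : SFF (fun v : Fin 2 → ℕ => 2 ^ (v 0)) := hpow.comp (SFF.const 2) hn
  have h2 : SFF (fun v : Fin 2 → ℕ => (2 ^ v 0 + 1) ^ v 0) := hpow.comp (h1.add (SFF.const 1)) hn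
  have h3 : SFF (fun v : Fin 2 → ℕ => 2 ^ (v 0 * v 1)) := hpow.comp (SFF.const 2) (hn.mul hk)
  have h4 := ((h2.div h3).mod h1).add ((SFF.const 1).tsub (hn.add hk))
  exact h4.congr (fun v => choose_eq_formula (v 0) (v 1))

/-- `c = a &&& b` in quantifier-free form with truncated subtraction -/
theorem and_eq_iff_sub (a b c : ℕ) :
    c = a &&& b ↔ (c ≤ a ∧ c ≤ b ∧ Nat.choose a c % 2 = 1 ∧ Nat.choose b c % 2 = 1 ∧
      Nat.choose ((a - c) + (b - c)) (a - c) % 2 = 1) := by
  rw [and_eq_iff']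
  constructor
  · rintro ⟨a', b', h1, h2, h3, h4, h5⟩
    have e1 : a - c = a' := by omega
    have e2 : b - c = b' := by omega
    exact ⟨by omega, by omega, h3, h4, by rw [e1, e2]; exact h5⟩
  · rintro ⟨h1, h2, h3, h4, h5⟩
    exact ⟨a - c, b - c, by omega, by omega, h3, h4, h5⟩

/-- bitwise AND is single-fold if binomial coefficients are -/
theorem SF2.land_of_choose (hch : SF2 Nat.choose) : SF2 (fun a b => a &&& b) := by
  have hc : SFF (fun v : Option (Fin 2) → ℕ => v none) := SFF.proj none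
  have ha : SFF (fun v : Option (Fin 2) → ℕ => v (some 0)) := SFF.proj (some 0)
  have hb : SFF (fun v : Option (Fin 2) → ℕ => v (some 1)) := SFF.proj (some 1)
  have h1 := SFP.le hc ha
  have h2 := SFP.le hc hb
  have h3 := SFP.eq ((hch.comp ha hc).mod (SFF.const 2)) (SFF.const 1)
  have h4 := SFP.eq ((hch.comp hb hc).mod (SFF.const 2)) (SFF.const 1)
  have h5 := SFP.eq ((hch.comp ((ha.tsub hc).add (hb.tsub hc)) (ha.tsub hc)).mod (SFF.const 2))
    (SFF.const 1)
  exact (h1.and (h2.and (h3.and (h4.and h5)))).congr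
    (fun v => and_eq_iff_sub (v (some 0)) (v (some 1)) (v none))

/-- bitwise AND is single-fold if powers are -/
theorem SF2.land_of_pow (hpow : SF2 (fun a n => a ^ n)) : SF2 (fun a b => a &&& b) :=
  SF2.land_of_choose (SF2.choose_of_pow hpow)

end Crest.Agent.R323
end

-- ▼ part R323/Final
section

/-!
# Final assembly: S0500 from the single-fold graphs of the Pell sequences with parameter `2`
-/

set_option autoImplicit false

namespace Crest.Agent.R323

theorem powH_of_pell (hx : SF1 (Pell.xn one_lt_two)) (hy : SF1 (Pell.yn one_lt_two)) : PowH :=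
  SF2_pow_of_pell hx hy

theorem ballH_of_powH (hp : PowH) : BallH := by
  intro ι _ q hq
  exact SFP.ballOf hp (SF2.land_of_pow hp) hq


/-- the statement of S0500, from the single-fold graphs of the Pell sequences -/
theorem main_of_pell (hx : SF1 (Pell.xn one_lt_two)) (hy : SF1 (Pell.yn one_lt_two))
    (n : ℕ) (S : Set (Fin n → ℕ)) (hS : REPred fun a => a ∈ S) :
    ∃ m : ℕ, 1 ≤ m ∧ ∃ P : MvPolynomial (Fin n ⊕ Fin m) ℤ, ∀ a : Fin n → ℕ,
      (a ∈ S → ∃! w : Fin m → ℕ,
        MvPolynomial.eval (Sum.elim (fun i => (a i : ℤ)) (fun j => (w j : ℤ))) P = 0) ∧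
      (a ∉ S → ∀ w : Fin m → ℕ,
        MvPolynomial.eval (Sum.elim (fun i => (a i : ℤ)) (fun j => (w j : ℤ))) P ≠ 0) :=
  final (powH_of_pell hx hy) (ballH_of_powH (powH_of_pell hx hy)) n S hS

end Crest.Agent.R323
end

-- ▼ part R323/Main

/-!
# S0500: final assembly
-/

set_option autoImplicit false

namespace Crest.Agent.R323

theorem exists_ruler : ∃ a b p : ℕ → ℕ, Ruler a b p := by
  obtain ⟨a, b, p, h1, h2', h3, h4, h5, h6, h7, h8⟩ := ell_main
  refine ⟨a, b, p, h3, h4, fun k => (h5 k).1, fun k => (h5 k).2, h6, ?_, h8⟩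
  intro j k
  rw [← h7 j k]
  exact Iff.rfl

theorem SF1_xn : SF1 (Pell.xn one_lt_two) := by
  obtain ⟨a, b, p, R⟩ := exists_ruler
  exact SF1_xn_of_ruler R

theorem SF1_yn : SF1 (Pell.yn one_lt_two) := by
  obtain ⟨a, b, p, R⟩ := exists_ruler
  exact SF1_yn_of_ruler R

theorem main (n : ℕ) (S : Set (Fin n → ℕ)) (hS : REPred fun a => a ∈ S) :
    ∃ m : ℕ, 1 ≤ m ∧ ∃ P : MvPolynomial (Fin n ⊕ Fin m) ℤ, ∀ a : Fin n → ℕ,
      (a ∈ S → ∃! w : Fin m → ℕ,
        MvPolynomial.eval (Sum.elim (fun i => (a i : ℤ)) (fun j => (w j : ℤ))) P = 0) ∧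
      (a ∉ S → ∀ w : Fin m → ℕ,
        MvPolynomial.eval (Sum.elim (fun i => (a i : ℤ)) (fun j => (w j : ℤ))) P ≠ 0) :=
  main_of_pell SF1_xn SF1_yn n S hS

end Crest.Agent.R323
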